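import Vale.Agent.P154.Window.Four.FourData1
import Vale.Agent.P154.Window.Four.FourCheck1A

/-!
Kernel check of one table for four children, phase 1.
-/

namespace Vale.Agent.P154

namespace Window

namespace Four

namespace Zoom

theorem four_check1b : checkSq 9223372039002271801 11 q4x1.1 p4x1 q4x1.2.1 us4x1 (ws4x1.drop 1) = true := by
  decide +kernel

end Zoom

end Four

end Window

end Vale.Agent.P154
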