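import Vale.Agent.P154.Window.Four.FourData2
import Vale.Agent.P154.Window.Four.FourCheck1B

/-!
Kernel check of one table for four children, phase 2.
-/

namespace Vale.Agent.P154

namespace Window

namespace Four

namespace Zoom

theorem four_check2a :
    checkSq 147573952598266359865 11 (2 * p4x2.1) q4x2 (p4x2.2.1.map (edgeK 1 1)) (ws4x2.take 158) us4x2 = true := by
  decide +kernel

end Zoom

end Four

end Window

end Vale.Agent.P154
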