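import Vale.Agent.P154.Window.Four.FourData4
import Vale.Agent.P154.Window.Four.FourCheck4A

/-!
Kernel check of one table for four children, phase 4.
-/

namespace Vale.Agent.P154

namespace Window

namespace Four

namespace Zoom

theorem four_check4b : checkSq 73786976303428153401 11 q4x4.1 p4x4 q4x4.2.1 us4x4 (ws4x4.drop 1) = true := by
  decide +kernel

end Zoom

end Four

end Window

end Vale.Agent.P154
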