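import Vale.Agent.P154.Window.Four.ZPot
import Vale.Agent.P154.Window.Four.FourCheck4B
import Vale.Agent.P154.Window.Four.FourData1
import Vale.Agent.P154.Window.Four.FourData2
import Vale.Agent.P154.Window.Four.FourData3
import Vale.Agent.P154.Window.Four.FourData4

/-!
Four children per vertex at parameter -1/2: the potential gets down to one twenty-fifth.
-/

namespace Vale.Agent.P154

namespace Window

namespace Four

namespace Zoom

/-- Phase 1 for four children. -/
def seg4x1 : Seg4 :=
  { P := p4x1, Q := q4x1, β1 := 36893488151714082873, β2 := 9223372039002271801, q := 11, ws := ws4x1, us := us4x1 }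

theorem four_mesh1 : (gridOf p4x1).goodB = true ∧ (gridOf q4x1).goodB = true := by
  decide +kernel

theorem four_cond1 : seg4x1.Cond :=
  ⟨Grid.good_of _ four_mesh1.1, Grid.good_of _ four_mesh1.2, by decide +kernel, by decide +kernel⟩

theorem four_len1 : 241 ≤ ws4x1.length ∧ 241 ≤ us4x1.length := by decide +kernel

theorem four_start : unpack p4x1.2.1.length (ws4x1.getD 0 0) = zw :: List.replicate (p4x1.2.1.length - 1) 0 := by
  decide +kernel

/-- Phase 2 for four children. -/
def seg4x2 : Seg4 :=
  { P := p4x2, Q := q4x2, β1 := 147573952598266359865, β2 := 36893488151714082873, q := 11, ws := ws4x2, us := us4x2 }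

theorem four_mesh2 : (gridOf p4x2).goodB = true ∧ (gridOf q4x2).goodB = true := by
  decide +kernel

theorem four_cond2 : seg4x2.Cond :=
  ⟨Grid.good_of _ four_mesh2.1, Grid.good_of _ four_mesh2.2, by decide +kernel, by decide +kernel⟩

theorem four_len2 : 158 ≤ ws4x2.length ∧ 158 ≤ us4x2.length := by decide +kernel

theorem four_move2 : moved 2147528761 p4x1 p4x2 (unpack p4x1.2.1.length (ws4x1.getD 241 0))
    = unpack p4x2.2.1.length (ws4x2.getD 0 0) := by decide +kernel

/-- Phase 3 for four children. -/
def seg4x3 : Seg4 :=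
  { P := p4x3, Q := q4x3, β1 := 295147905196532707385, β2 := 73786976303428153401, q := 11, ws := ws4x3, us := us4x3 }

theorem four_mesh3 : (gridOf p4x3).goodB = true ∧ (gridOf q4x3).goodB = true := by
  decide +kernel

theorem four_cond3 : seg4x3.Cond :=
  ⟨Grid.good_of _ four_mesh3.1, Grid.good_of _ four_mesh3.2, by decide +kernel, by decide +kernel⟩

theorem four_len3 : 83 ≤ ws4x3.length ∧ 83 ≤ us4x3.length := by decide +kernel

theorem four_move3 : moved 4295045177 p4x2 p4x3 (unpack p4x2.2.1.length (ws4x2.getD 158 0))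
    = unpack p4x3.2.1.length (ws4x3.getD 0 0) := by decide +kernel

/-- Phase 4 for four children. -/
def seg4x4 : Seg4 :=
  { P := p4x4, Q := q4x4, β1 := 295147905196532707385, β2 := 73786976303428153401, q := 11, ws := ws4x4, us := us4x4 }

theorem four_mesh4 : (gridOf p4x4).goodB = true ∧ (gridOf q4x4).goodB = true := by
  decide +kernel

theorem four_cond4 : seg4x4.Cond :=
  ⟨Grid.good_of _ four_mesh4.1, Grid.good_of _ four_mesh4.2, by decide +kernel, by decide +kernel⟩

theorem four_len4 : 83 ≤ ws4x4.length ∧ 83 ≤ us4x4.length := by decide +kernel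

theorem four_link4 : p4x3 = p4x4 ∧ unpack p4x3.2.1.length (ws4x3.getD 83 0)
    = unpack p4x4.2.1.length (ws4x4.getD 0 0) := by decide +kernel

theorem four_end : sortedB p4x4 = true ∧
    quarterBelow 1 25 p4x4.1 p4x4.2.1 (unpack p4x4.2.1.length (ws4x4.getD 83 0)) = true := by
  decide +kernel

end Zoom

end Four

open Four Four.Zoom in
/-- Four children per vertex at parameter -1/2: the potential gets down to 1/25. -/
theorem four_reach_low : ∃ n, mo (mPhi (1 / 4)) (tab (regularLaw 4) (-(1 / 2)) n) ≤ 1 / 25 := by
  have h0 := reach_start (d := 4) (l := -(1 / 2)) (Grid.good_of _ four_mesh1.1) four_start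
  have e1 := seg4_reach (S := seg4x1) (n := 241) four_cond1 ⟨four_check1a, four_check1b⟩
    four_len1.1 four_len1.2 h0 241 le_rfl
  have h1 := reach_move (β := 2147528761) (P' := p4x2) (Grid.good_of _ four_mesh1.1)
    (Grid.good_of _ four_mesh2.1) (by decide +kernel) e1
  simp only [seg4x1, four_move2] at h1
  have e2 := seg4_reach (S := seg4x2) (n := 158) four_cond2 ⟨four_check2a, four_check2b⟩
    four_len2.1 four_len2.2 h1 158 le_rfl
  have h2 := reach_move (β := 4295045177) (P' := p4x3) (Grid.good_of _ four_mesh2.1)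
    (Grid.good_of _ four_mesh3.1) (by decide +kernel) e2
  simp only [seg4x2, four_move3] at h2
  have e3 := seg4_reach (S := seg4x3) (n := 83) four_cond3 ⟨four_check3a, four_check3b⟩
    four_len3.1 four_len3.2 h2 83 le_rfl
  have h3 : Reach 4 (-(1 / 2)) p4x4 (0 + 241 + 158 + 83)
      (unpack p4x4.2.1.length (ws4x4.getD 0 0)) := by
    have := e3
    simp only [seg4x3] at this
    rwa [four_link4.2, four_link4.1] at this
  have e4 := seg4_reach (S := seg4x4) (n := 83) four_cond4 ⟨four_check4a, four_check4b⟩
    four_len4.1 four_len4.2 h3 83 le_rfl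
  refine ⟨0 + 241 + 158 + 83 + 83, ?_⟩
  exact le_trans (below_mo four_end.1 (Grid.good_of _ four_mesh4.1) (by norm_num) e4 four_end.2)
    (by norm_num)

end Window

end Vale.Agent.P154
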