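import Vale.Agent.P154.Window.Four.FiveCheck2

/-!
Kernel check of one table for five children.
-/

namespace Vale.Agent.P154

namespace Window

namespace Four

namespace Zoom

theorem five_check3 :
    checkMul 2361183241469182357561 11 r5.1 (114 * p5.1) p5 r5.2.1 (p5.2.1.map (edgeK 55 51)) xs5 (ws5.take 174)
      (ws5.drop 1) = true := by
  decide +kernel

end Zoom

end Four

end Window

end Vale.Agent.P154
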