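import Vale.Agent.P154.Window.Four.ZPot
import Vale.Agent.P154.Window.Four.FiveCheck3

/-!
Five children per vertex: the potential gets down to two twenty-fifths.
-/

namespace Vale.Agent.P154

namespace Window

namespace Four

namespace Zoom

/-- The segment for five children. -/
def seg5 : Seg5 :=
  { P := p5, Q := q5, R := r5, β1 := 302231454904207049502777, β2 := 36893488151714082873, β3 := 2361183241469182357561, q := 11,
    ws := ws5, us := us5, xs := xs5 }

theorem five_mesh : (gridOf p5).goodB = true ∧ (gridOf q5).goodB = true ∧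
    (gridOf r5).goodB = true ∧ sortedB p5 = true := by decide +kernel

theorem five_ends :
    unpack p5.2.1.length (ws5.getD 0 0) = zw :: List.replicate (p5.2.1.length - 1) 0 ∧
    quarterBelow 2 25 p5.1 p5.2.1 (unpack p5.2.1.length (ws5.getD 174 0)) = true ∧
    174 ≤ ws5.length ∧ 174 ≤ us5.length ∧ 174 ≤ xs5.length := by decide +kernel

theorem five_cond : seg5.Cond := by
  obtain ⟨a, b, c, -⟩ := five_mesh
  exact ⟨Grid.good_of _ a, Grid.good_of _ b, Grid.good_of _ c, by decide +kernel, by decide +kernel,
    by decide +kernel⟩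

end Zoom

end Four

open Four Four.Zoom in
/-- Five children per vertex at parameter -17/38: the potential gets down to 2/25. -/
theorem five_reach : ∃ n, mo (mPhi (1 / 4)) (tab (regularLaw 5) (-(17 / 38)) n) ≤ 2 / 25 := by
  obtain ⟨a, -, -, hs⟩ := five_mesh
  obtain ⟨e0, et, l1, l2, l3⟩ := five_ends
  have h0 := reach_start (d := 5) (l := -(17 / 38)) (Grid.good_of _ a) e0
  have h := seg5_reach (S := seg5) (n := 174) five_cond ⟨five_check1, five_check2, five_check3⟩
    l1 l2 l3 h0 174 le_rfl
  refine ⟨0 + 174, ?_⟩
  exact le_trans (below_mo hs (Grid.good_of _ a) (by norm_num) h et) (by norm_num)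

end Window

end Vale.Agent.P154
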