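import Vale.Agent.P154.Window.Four.PSteps
import Mathlib.Analysis.Complex.Exponential

/-!
Rational lower bounds for Poisson probabilities.
-/

namespace Vale.Agent.P154

namespace Window

namespace Four

namespace Zoom

lemma exp_le_sq {x E : ℝ} (h0 : 0 ≤ x) (h1 : x ≤ 2)
    (hE : ((∑ m ∈ Finset.range 10, (x / 2) ^ m / (m.factorial : ℝ))
      + (x / 2) ^ 10 * (10 + 1) / ((Nat.factorial 10 : ℝ) * 10)) ^ 2 ≤ E) : Real.exp x ≤ E := by
  have h := Real.exp_bound' (x := x / 2) (by linarith) (by linarith) (n := 10) (by norm_num)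
  norm_num only [Nat.cast_ofNat] at h
  have e : Real.exp x = Real.exp (x / 2) ^ 2 := by
    rw [sq, ← Real.exp_add]; congr 1; ring
  rw [e]
  refine le_trans (pow_le_pow_left₀ (Real.exp_pos _).le ?_ 2) hE
  norm_num at h ⊢
  linarith

lemma lowerLaw_of {x E : ℝ} {cs : List ℕ} (hE : Real.exp x ≤ E)
    (h : ∀ N < cs.length, ((cs.getD N 0 : ℕ) : ℝ) * (N.factorial : ℝ) * E ≤ (ctot : ℝ) * x ^ N) :
    LowerLaw x cs := by
  intro N hN
  have hf : (0 : ℝ) < (N.factorial : ℝ) := by exact_mod_cast Nat.factorial_pos N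
  have hC : (0 : ℝ) < (ctot : ℝ) := by norm_num
  have h2 : ((cs.getD N 0 : ℕ) : ℝ) * (N.factorial : ℝ) * Real.exp x ≤ (ctot : ℝ) * x ^ N :=
    le_trans (mul_le_mul_of_nonneg_left hE (by positivity)) (h N hN)
  rw [poissonLaw, Real.exp_neg, div_le_div_iff₀ hC hf]
  rw [inv_mul_eq_div, div_mul_eq_mul_div, le_div_iff₀ (Real.exp_pos x)]
  linarith

end Zoom

end Four

end Window

end Vale.Agent.P154
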