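import Vale.Agent.P154.Window.Four.PSteps
import Vale.Agent.P154.Window.Four.PExp
import Vale.Agent.P154.Window.Four.PCheck408D
import Vale.Agent.P154.Window.Four.PData408

/-!
Poisson children with mean 102 / 25 at parameter -(1 / 2).
-/

namespace Vale.Agent.P154

namespace Window

namespace Four

namespace Zoom

/-- The segment for mean 102 / 25. -/
def segP408 : SegP :=
  { P := pP408, R := rP408, e := 1, k := 1, d := 2, β1 := 36893488151714082873, β2 := 36893488151714082873, β3 := 36893488151714082873, β4 := 4295045177,
    q := 11, mid := 60, cs := [378111, 385673, 196693, 66875, 17053, 3478, 591, 86], top := 16, ws := wsP408, t1 := t1P408, t2 := t2P408, t3 := t3P408,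
    t4 := t4P408, t5 := t5P408, t6 := t6P408, t7 := t7P408, v0 := v0P408, v1 := v1P408, v2 := v2P408 }

theorem pois408_mesh : (gridOf pP408).goodB = true ∧ (gridOf rP408).goodB = true ∧
    sortedB pP408 = true := by decide +kernel

theorem pois408_low : LowerLaw (51 / 50 : ℝ) [378111, 385673, 196693, 66875, 17053, 3478, 591, 86] :=
  lowerLaw_of (E := (6932987 / 2500000 : ℝ)) (exp_le_sq (by norm_num) (by norm_num) (by norm_num [Finset.sum_range_succ, Nat.factorial]))
    fun N hN => by
      simp only [List.length_cons, List.length_nil] at hN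
      interval_cases N <;> norm_num [Nat.factorial]

theorem pois408_cond : segP408.Cond (-(1 / 2) : ℝ) (51 / 50 : ℝ) where
  hP := Grid.good_of _ pois408_mesh.1
  hR := Grid.good_of _ pois408_mesh.2.1
  hx := by norm_num
  l0 := by norm_num
  l1 := by norm_num
  he := by norm_num [segP408]
  hk := by norm_num [segP408]
  hke := by decide +kernel
  hd := by decide +kernel
  d1 := by decide +kernel
  b1 := by decide +kernel
  b2 := by decide +kernel
  b3 := by decide +kernel
  b4 := by decide +kernel
  b5 := by decide +kernel
  mid := ⟨16, by decide +kernel, by decide +kernel⟩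
  clen := rfl
  csum := by decide +kernel
  low := pois408_low

theorem pois408_long : segP408.long 106 := by
  simp only [SegP.long, segP408]
  decide +kernel

theorem pois408_ends :
    unpack pP408.2.1.length (wsP408.getD 0 0) = zw :: List.replicate (pP408.2.1.length - 1) 0 ∧
    threeBelow 4 25 pP408 (unpack pP408.2.1.length (wsP408.getD 106 0)) = true := by decide +kernel

end Zoom

end Four

open Four Four.Zoom in
/-- Poisson children with mean 102 / 25 at parameter -(1 / 2): the potential gets down to 4/25. -/
theorem poisson_reach_408 :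
    ∃ n, mo (mPhi (3 / 10)) (tab (poissonLaw (102 / 25)) (-(1 / 2)) n) ≤ 4 / 25 := by
  have hD : (2 * (2 * (51 / 50 : ℝ)) : ℝ) = 102 / 25 := by norm_num
  have h0 := reachP_start (D := 2 * (2 * (51 / 50 : ℝ))) (l := -(1 / 2)) (Grid.good_of _ pois408_mesh.1) pois408_ends.1
  have h := segP_reach (S := segP408) (n := 106) pois408_cond
    ⟨pois408_one, pois408_two, pois408_more1, pois408_more2, pois408_mixed, pois408_squares, pois408_back⟩
    pois408_long h0 106 le_rfl
  rw [hD] at h
  refine ⟨0 + 106, ?_⟩
  exact le_trans (three_mo pois408_mesh.2.2 (Grid.good_of _ pois408_mesh.1) (by norm_num) h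
    pois408_ends.2) (by norm_num)

end Window

end Vale.Agent.P154
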