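import Vale.Agent.P154.Window.Four.PCheck414C

/-!
Kernel check of stored half steps, mean 207 / 50.
-/

namespace Vale.Agent.P154

namespace Window

namespace Four

namespace Zoom

theorem pois414_squares :
    checkSqs 36893488151714082873 11 rP414.1 rP414 rP414.2.1 [(v0P414, v1P414), (v1P414, v2P414)] = true := by
  decide +kernel

end Zoom

end Four

end Window

end Vale.Agent.P154
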