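import Vale.Agent.P154.Window.Four.PSteps
import Vale.Agent.P154.Window.Four.PExp
import Vale.Agent.P154.Window.Four.PCheck414D
import Vale.Agent.P154.Window.Four.PData414

/-!
Poisson children with mean 207 / 50 at parameter -(124 / 250).
-/

namespace Vale.Agent.P154

namespace Window

namespace Four

namespace Zoom

/-- The segment for mean 207 / 50. -/
def segP414 : SegP :=
  { P := pP414, R := rP414, e := 187, k := 186, d := 375, β1 := 1208925819615728686346297, β2 := 4722366482938364702777, β3 := 36893488151714082873, β4 := 1099512688697,
    q := 11, mid := 60, cs := [372481, 385518, 199505, 68829, 17809, 3686, 635, 94], top := 19, ws := wsP414, t1 := t1P414, t2 := t2P414, t3 := t3P414,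
    t4 := t4P414, t5 := t5P414, t6 := t6P414, t7 := t7P414, v0 := v0P414, v1 := v1P414, v2 := v2P414 }

theorem pois414_mesh : (gridOf pP414).goodB = true ∧ (gridOf rP414).goodB = true ∧
    sortedB pP414 = true := by decide +kernel

theorem pois414_low : LowerLaw (207 / 200 : ℝ) [372481, 385518, 199505, 68829, 17809, 3686, 635, 94] :=
  lowerLaw_of (E := (28151063 / 10000000 : ℝ)) (exp_le_sq (by norm_num) (by norm_num) (by norm_num [Finset.sum_range_succ, Nat.factorial]))
    fun N hN => by
      simp only [List.length_cons, List.length_nil] at hN
      interval_cases N <;> norm_num [Nat.factorial]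

theorem pois414_cond : segP414.Cond (-(124 / 250) : ℝ) (207 / 200 : ℝ) where
  hP := Grid.good_of _ pois414_mesh.1
  hR := Grid.good_of _ pois414_mesh.2.1
  hx := by norm_num
  l0 := by norm_num
  l1 := by norm_num
  he := by norm_num [segP414]
  hk := by norm_num [segP414]
  hke := by decide +kernel
  hd := by decide +kernel
  d1 := by decide +kernel
  b1 := by decide +kernel
  b2 := by decide +kernel
  b3 := by decide +kernel
  b4 := by decide +kernel
  b5 := by decide +kernel
  mid := ⟨16, by decide +kernel, by decide +kernel⟩
  clen := rfl
  csum := by decide +kernel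
  low := pois414_low

theorem pois414_long : segP414.long 101 := by
  simp only [SegP.long, segP414]
  decide +kernel

theorem pois414_ends :
    unpack pP414.2.1.length (wsP414.getD 0 0) = zw :: List.replicate (pP414.2.1.length - 1) 0 ∧
    threeBelow 4 25 pP414 (unpack pP414.2.1.length (wsP414.getD 101 0)) = true := by decide +kernel

end Zoom

end Four

open Four Four.Zoom in
/-- Poisson children with mean 207 / 50 at parameter -(124 / 250): the potential gets down to 4/25. -/
theorem poisson_reach_414 :
    ∃ n, mo (mPhi (3 / 10)) (tab (poissonLaw (207 / 50)) (-(124 / 250)) n) ≤ 4 / 25 := by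
  have hD : (2 * (2 * (207 / 200 : ℝ)) : ℝ) = 207 / 50 := by norm_num
  have h0 := reachP_start (D := 2 * (2 * (207 / 200 : ℝ))) (l := -(124 / 250)) (Grid.good_of _ pois414_mesh.1) pois414_ends.1
  have h := segP_reach (S := segP414) (n := 101) pois414_cond
    ⟨pois414_one, pois414_two, pois414_more1, pois414_more2, pois414_mixed, pois414_squares, pois414_back⟩
    pois414_long h0 101 le_rfl
  rw [hD] at h
  refine ⟨0 + 101, ?_⟩
  exact le_trans (three_mo pois414_mesh.2.2 (Grid.good_of _ pois414_mesh.1) (by norm_num) h
    pois414_ends.2) (by norm_num)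

end Window

end Vale.Agent.P154
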