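import Vale.Agent.P154.Window.Four.PCheck420C

/-!
Kernel check of stored half steps, mean 21 / 5.
-/

namespace Vale.Agent.P154

namespace Window

namespace Four

namespace Zoom

theorem pois420_squares :
    checkSqs 36893488151714082873 11 rP420.1 rP420 rP420.2.1 [(v0P420, v1P420), (v1P420, v2P420)] = true := by
  decide +kernel

end Zoom

end Four

end Window

end Vale.Agent.P154
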