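import Vale.Agent.P154.Window.Four.PSteps
import Vale.Agent.P154.Window.Four.PExp
import Vale.Agent.P154.Window.Four.PCheck420D
import Vale.Agent.P154.Window.Four.PData420

/-!
Poisson children with mean 21 / 5 at parameter -(123 / 250).
-/

namespace Vale.Agent.P154

namespace Window

namespace Four

namespace Zoom

/-- The segment for mean 21 / 5. -/
def segP420 : SegP :=
  { P := pP420, R := rP420, e := 373, k := 369, d := 750, β1 := 4835703278460715722092601, β2 := 9444732965808009916473, β3 := 36893488151714082873, β4 := 2199024316473,
    q := 11, mid := 60, cs := [366936, 385283, 202273, 70795, 18583, 3902, 682, 102], top := 20, ws := wsP420, t1 := t1P420, t2 := t2P420, t3 := t3P420,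
    t4 := t4P420, t5 := t5P420, t6 := t6P420, t7 := t7P420, v0 := v0P420, v1 := v1P420, v2 := v2P420 }

theorem pois420_mesh : (gridOf pP420).goodB = true ∧ (gridOf rP420).goodB = true ∧
    sortedB pP420 = true := by decide +kernel

theorem pois420_low : LowerLaw (21 / 20 : ℝ) [366936, 385283, 202273, 70795, 18583, 3902, 682, 102] :=
  lowerLaw_of (E := (223254 / 78125 : ℝ)) (exp_le_sq (by norm_num) (by norm_num) (by norm_num [Finset.sum_range_succ, Nat.factorial]))
    fun N hN => by
      simp only [List.length_cons, List.length_nil] at hN
      interval_cases N <;> norm_num [Nat.factorial]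

theorem pois420_cond : segP420.Cond (-(123 / 250) : ℝ) (21 / 20 : ℝ) where
  hP := Grid.good_of _ pois420_mesh.1
  hR := Grid.good_of _ pois420_mesh.2.1
  hx := by norm_num
  l0 := by norm_num
  l1 := by norm_num
  he := by norm_num [segP420]
  hk := by norm_num [segP420]
  hke := by decide +kernel
  hd := by decide +kernel
  d1 := by decide +kernel
  b1 := by decide +kernel
  b2 := by decide +kernel
  b3 := by decide +kernel
  b4 := by decide +kernel
  b5 := by decide +kernel
  mid := ⟨16, by decide +kernel, by decide +kernel⟩
  clen := rfl
  csum := by decide +kernel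
  low := pois420_low

theorem pois420_long : segP420.long 94 := by
  simp only [SegP.long, segP420]
  decide +kernel

theorem pois420_ends :
    unpack pP420.2.1.length (wsP420.getD 0 0) = zw :: List.replicate (pP420.2.1.length - 1) 0 ∧
    threeBelow 4 25 pP420 (unpack pP420.2.1.length (wsP420.getD 94 0)) = true := by decide +kernel

end Zoom

end Four

open Four Four.Zoom in
/-- Poisson children with mean 21 / 5 at parameter -(123 / 250): the potential gets down to 4/25. -/
theorem poisson_reach_420 :
    ∃ n, mo (mPhi (3 / 10)) (tab (poissonLaw (21 / 5)) (-(123 / 250)) n) ≤ 4 / 25 := by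
  have hD : (2 * (2 * (21 / 20 : ℝ)) : ℝ) = 21 / 5 := by norm_num
  have h0 := reachP_start (D := 2 * (2 * (21 / 20 : ℝ))) (l := -(123 / 250)) (Grid.good_of _ pois420_mesh.1) pois420_ends.1
  have h := segP_reach (S := segP420) (n := 94) pois420_cond
    ⟨pois420_one, pois420_two, pois420_more1, pois420_more2, pois420_mixed, pois420_squares, pois420_back⟩
    pois420_long h0 94 le_rfl
  rw [hD] at h
  refine ⟨0 + 94, ?_⟩
  exact le_trans (three_mo pois420_mesh.2.2 (Grid.good_of _ pois420_mesh.1) (by norm_num) h
    pois420_ends.2) (by norm_num)

end Window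

end Vale.Agent.P154
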