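import Vale.Agent.P154.Window.Four.States

/-!
Kernel check of the first block of steps.
-/

namespace Vale.Agent.P154

namespace Window

namespace Four

theorem check_a : run 26 28 57 (start 70) (fun v => decide (v = state1)) = true := by
  decide +kernel

theorem mesh_len : (mesh 26).length = 70 := by decide +kernel

end Four

end Window

end Vale.Agent.P154
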