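import Vale.Agent.P154.Window.Four.CheckB

/-!
Kernel check of the last block of steps.
-/

namespace Vale.Agent.P154

namespace Window

namespace Four

theorem check_c : run 26 28 56 state2 (below 26) = true := by
  decide +kernel

end Four

end Window

end Vale.Agent.P154
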