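import Vale.Agent.P154.Window.Potential

/-!
Sublinear symmetric moment functions and the upper bound for the combination of two copies.
-/

namespace Vale.Agent.P154

namespace Window

namespace Four

/-- A nonnegative, subadditive, homogeneous, symmetric function on the closed orthant. -/
structure Cvx (g : ℝ → ℝ → ℝ → ℝ) : Prop where
  nonneg : ∀ p q r : ℝ, 0 ≤ p → 0 ≤ q → 0 ≤ r → 0 ≤ g p q r
  add : ∀ a b c x y z : ℝ, 0 ≤ a → 0 ≤ b → 0 ≤ c → 0 ≤ x → 0 ≤ y → 0 ≤ z →
    g (a + x) (b + y) (c + z) ≤ g a b c + g x y z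
  hom : ∀ k : ℝ, 0 ≤ k → ∀ p q r : ℝ, g (k * p) (k * q) (k * r) = k * g p q r
  rot : ∀ p q r : ℝ, g q r p = g p q r
  swap : ∀ p q r : ℝ, g p r q = g p q r

namespace Cvx

variable {g : ℝ → ℝ → ℝ → ℝ}

lemma le_corner (hg : Cvx g) {p q r : ℝ} (hp : 0 ≤ p) (hq : 0 ≤ q) (hr : 0 ≤ r) :
    g p q r ≤ (p + q + r) * g 1 0 0 := by
  have e1 : g p 0 0 = p * g 1 0 0 := by
    have := hg.hom p hp 1 0 0
    simpa using this
  have e2 : g 0 q 0 = q * g 1 0 0 := by
    have := hg.hom q hq 1 0 0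
    rw [← hg.rot 0 q 0]
    simpa using this
  have e3 : g 0 0 r = r * g 1 0 0 := by
    have := hg.hom r hr 1 0 0
    rw [hg.rot r 0 0]
    simpa using this
  have h1 := hg.add p 0 0 0 q r hp le_rfl le_rfl le_rfl hq hr
  have h2 := hg.add 0 q 0 0 0 r le_rfl hq le_rfl le_rfl le_rfl hr
  simp only [add_zero, zero_add] at h1 h2
  linarith

lemma swap01 (hg : Cvx g) (p q r : ℝ) : g q p r = g p q r :=
  (hg.swap q r p).trans (hg.rot p q r)

lemma swap02 (hg : Cvx g) (p q r : ℝ) : g r q p = g p q r :=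
  ((hg.swap r p q).trans (hg.rot q r p)).trans (hg.rot p q r)

lemma dom (hg : Cvx g) : Dom g (g 1 0 0) := fun p q r hp hq hr => by
  rw [abs_of_nonneg (hg.nonneg p q r hp hq hr), mul_comm]
  exact hg.le_corner hp hq hr

lemma add3 (hg : Cvx g) {a b c x y z u v w : ℝ} (ha : 0 ≤ a) (hb : 0 ≤ b) (hc : 0 ≤ c)
    (hx : 0 ≤ x) (hy : 0 ≤ y) (hz : 0 ≤ z) (hu : 0 ≤ u) (hv : 0 ≤ v) (hw : 0 ≤ w) :
    g (a + x + u) (b + y + v) (c + z + w) ≤ g a b c + g x y z + g u v w :=
  le_trans (hg.add _ _ _ _ _ _ (add_nonneg ha hx) (add_nonneg hb hy) (add_nonneg hc hz) hu hv hw)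
    (by linarith [hg.add a b c x y z ha hb hc hx hy hz])

end Cvx

/-- The sum of a function over the six relative orders of two rows. -/
def sym6 (g : ℝ → ℝ → ℝ → ℝ) (v w : Fin 3 → ℝ) : ℝ :=
  g (v 0 * w 0) (v 1 * w 1) (v 2 * w 2) + g (v 0 * w 1) (v 1 * w 2) (v 2 * w 0)
    + g (v 0 * w 2) (v 1 * w 0) (v 2 * w 1) + g (v 0 * w 0) (v 1 * w 2) (v 2 * w 1)
    + g (v 0 * w 1) (v 1 * w 0) (v 2 * w 2) + g (v 0 * w 2) (v 1 * w 1) (v 2 * w 0)

variable {g : ℝ → ℝ → ℝ → ℝ}

lemma sym6_comm (hg : Cvx g) (v w : Fin 3 → ℝ) : sym6 g v w = sym6 g w v := by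
  simp only [sym6]
  have e1 : g (v 0 * w 1) (v 1 * w 2) (v 2 * w 0) = g (w 0 * v 2) (w 1 * v 0) (w 2 * v 1) := by
    rw [← hg.rot (v 0 * w 1)]
    rw [← hg.rot (v 1 * w 2)]
    simp only [mul_comm (v 0), mul_comm (v 1), mul_comm (v 2)]
  have e2 : g (v 0 * w 2) (v 1 * w 0) (v 2 * w 1) = g (w 0 * v 1) (w 1 * v 2) (w 2 * v 0) := by
    rw [← hg.rot (v 0 * w 2)]
    simp only [mul_comm (v 0), mul_comm (v 1), mul_comm (v 2)]
  have e3 : g (v 0 * w 0) (v 1 * w 2) (v 2 * w 1) = g (w 0 * v 0) (w 1 * v 2) (w 2 * v 1) := by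
    rw [hg.swap]
    simp only [mul_comm (v 0), mul_comm (v 1), mul_comm (v 2)]
  have e4 : g (v 0 * w 1) (v 1 * w 0) (v 2 * w 2) = g (w 0 * v 1) (w 1 * v 0) (w 2 * v 2) := by
    rw [hg.swap01]
    simp only [mul_comm (v 0), mul_comm (v 1), mul_comm (v 2)]
  have e5 : g (v 0 * w 2) (v 1 * w 1) (v 2 * w 0) = g (w 0 * v 2) (w 1 * v 1) (w 2 * v 0) := by
    rw [hg.swap02]
    simp only [mul_comm (v 0), mul_comm (v 1), mul_comm (v 2)]
  rw [show g (v 0 * w 0) (v 1 * w 1) (v 2 * w 2) = g (w 0 * v 0) (w 1 * v 1) (w 2 * v 2) by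
    simp only [mul_comm (v 0), mul_comm (v 1), mul_comm (v 2)], e1, e2, e3, e4, e5]
  ring

lemma cvx_sym6 (hg : Cvx g) {v : Fin 3 → ℝ} (hv : ∀ i, 0 ≤ v i) :
    Cvx fun p q r => sym6 g v ![p, q, r] := by
  refine ⟨fun p q r hp hq hr => ?_, fun a b c x y z ha hb hc hx hy hz => ?_,
    fun k hk p q r => ?_, fun p q r => ?_, fun p q r => ?_⟩
  all_goals simp only [sym6, Matrix.cons_val_zero, Matrix.cons_val_one, Matrix.cons_val]
  · have := hv 0; have := hv 1; have := hv 2
    refine add_nonneg (add_nonneg (add_nonneg (add_nonneg (add_nonneg ?_ ?_) ?_) ?_) ?_) ?_ <;>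
      exact hg.nonneg _ _ _ (by positivity) (by positivity) (by positivity)
  · have := hv 0; have := hv 1; have := hv 2
    simp only [mul_add]
    refine le_of_le_of_eq (add_le_add (add_le_add (add_le_add (add_le_add (add_le_add
      (hg.add _ _ _ _ _ _ (by positivity) (by positivity) (by positivity) (by positivity)
        (by positivity) (by positivity))
      (hg.add _ _ _ _ _ _ (by positivity) (by positivity) (by positivity) (by positivity)
        (by positivity) (by positivity)))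
      (hg.add _ _ _ _ _ _ (by positivity) (by positivity) (by positivity) (by positivity)
        (by positivity) (by positivity)))
      (hg.add _ _ _ _ _ _ (by positivity) (by positivity) (by positivity) (by positivity)
        (by positivity) (by positivity)))
      (hg.add _ _ _ _ _ _ (by positivity) (by positivity) (by positivity) (by positivity)
        (by positivity) (by positivity)))
      (hg.add _ _ _ _ _ _ (by positivity) (by positivity) (by positivity) (by positivity)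
        (by positivity) (by positivity))) ?_
    ring
  · simp only [mul_left_comm _ k, hg.hom k hk]; ring
  · ring
  · ring

variable {ι κ : Type} {L : Lik ι} {M : Lik κ}

/-- A function averaged against one channel. -/
noncomputable def avg (g : ℝ → ℝ → ℝ → ℝ) (M : Lik κ) : ℝ → ℝ → ℝ → ℝ :=
  fun p q r => ∑' y, g (p * M y 0) (q * M y 1) (r * M y 2)

lemma summable_avg (hg : Cvx g) (hM : Ok M) {p q r : ℝ} (hp : 0 ≤ p) (hq : 0 ≤ q) (hr : 0 ≤ r) :
    Summable fun y => g (p * M y 0) (q * M y 1) (r * M y 2) := by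
  refine Summable.of_nonneg_of_le
    (fun y => hg.nonneg _ _ _ (mul_nonneg hp (hM.nonneg _ _)) (mul_nonneg hq (hM.nonneg _ _))
      (mul_nonneg hr (hM.nonneg _ _)))
    (fun y => ?_) (hM.hasSum_mass.summable.mul_left ((p + q + r) * g 1 0 0))
  refine le_trans (hg.le_corner (mul_nonneg hp (hM.nonneg _ _)) (mul_nonneg hq (hM.nonneg _ _))
      (mul_nonneg hr (hM.nonneg _ _))) ?_
  have hG := hg.nonneg 1 0 0 zero_le_one le_rfl le_rfl
  rw [mul_right_comm]
  refine mul_le_mul_of_nonneg_right ?_ hG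
  simp only [row, mS, tot]
  have := mul_nonneg hp (add_nonneg (hM.nonneg y 1) (hM.nonneg y 2))
  have := mul_nonneg hq (add_nonneg (hM.nonneg y 0) (hM.nonneg y 2))
  have := mul_nonneg hr (add_nonneg (hM.nonneg y 0) (hM.nonneg y 1))
  linarith

lemma cvx_avg (hg : Cvx g) (hM : Ok M) (hS : Sw M) : Cvx (avg g M) := by
  refine ⟨fun p q r hp hq hr => tsum_nonneg fun y => hg.nonneg _ _ _
      (mul_nonneg hp (hM.nonneg _ _)) (mul_nonneg hq (hM.nonneg _ _))
      (mul_nonneg hr (hM.nonneg _ _)), fun a b c x y z ha hb hc hx hy hz => ?_,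
    fun k hk p q r => ?_, fun p q r => ?_, fun p q r => ?_⟩
  · simp only [avg]
    rw [← (summable_avg hg hM ha hb hc).tsum_add (summable_avg hg hM hx hy hz)]
    refine (summable_avg hg hM (add_nonneg ha hx) (add_nonneg hb hy)
      (add_nonneg hc hz)).tsum_le_tsum (fun i => ?_)
      ((summable_avg hg hM ha hb hc).add (summable_avg hg hM hx hy hz))
    simp only [add_mul]
    exact hg.add _ _ _ _ _ _ (mul_nonneg ha (hM.nonneg _ _)) (mul_nonneg hb (hM.nonneg _ _))
      (mul_nonneg hc (hM.nonneg _ _)) (mul_nonneg hx (hM.nonneg _ _))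
      (mul_nonneg hy (hM.nonneg _ _)) (mul_nonneg hz (hM.nonneg _ _))
  · simp only [avg, mul_assoc, hg.hom k hk, tsum_mul_left]
  · obtain ⟨e, he⟩ := hM.rot
    simp only [avg]
    rw [← e.tsum_eq fun y => g (p * M y 0) (q * M y 1) (r * M y 2)]
    refine tsum_congr fun y => ?_
    rw [show M (e y) 0 = M y 2 from he y 2, show M (e y) 1 = M y 0 from he y 0,
      show M (e y) 2 = M y 1 from he y 1]
    exact hg.rot _ _ _
  · obtain ⟨e, he⟩ := hS
    simp only [avg]
    rw [← e.tsum_eq fun y => g (p * M y 0) (q * M y 1) (r * M y 2)]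
    refine tsum_congr fun y => ?_
    rw [(he y).1, (he y).2.1, (he y).2.2]
    exact hg.swap _ _ _

lemma avg_sym6 (hg : Cvx g) (hM : Ok M) (hS : Sw M) {v : Fin 3 → ℝ} (hv : ∀ i, 0 ≤ v i) :
    6 * avg g M (v 0) (v 1) (v 2) = 3 * mo (fun p q r => sym6 g v ![p, q, r]) M := by
  obtain ⟨e, he⟩ := hM.rot
  obtain ⟨f, hf⟩ := hS
  have w0 : ∀ y, M (e y) 0 = M y 2 := fun y => he y 2
  have w1 : ∀ y, M (e y) 1 = M y 0 := fun y => he y 0
  have w2 : ∀ y, M (e y) 2 = M y 1 := fun y => he y 1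
  have f0 : ∀ y, M (f y) 0 = M y 0 := fun y => (hf y).1
  have f1 : ∀ y, M (f y) 1 = M y 2 := fun y => (hf y).2.1
  have f2 : ∀ y, M (f y) 2 = M y 1 := fun y => (hf y).2.2
  have h := (summable_avg hg hM (hv 0) (hv 1) (hv 2)).hasSum
  have a1 := (Equiv.hasSum_iff (e.trans e)).mpr h
  have a2 := (Equiv.hasSum_iff e).mpr h
  have a3 := (Equiv.hasSum_iff f).mpr h
  have a4 := (Equiv.hasSum_iff (f.trans e)).mpr h
  have a5 := (Equiv.hasSum_iff ((f.trans e).trans e)).mpr h
  have hh := ((((h.add a1).add a2).add a3).add a4).add a5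
  have hd := ((cvx_sym6 hg hv).dom)
  have hfun : (fun y => row (fun p q r => sym6 g v ![p, q, r]) (M y)) = _ :=
    funext fun y => rfl
  have key : HasSum (fun y => row (fun p q r => sym6 g v ![p, q, r]) (M y))
      (6 * avg g M (v 0) (v 1) (v 2)) := by
    refine hasSum_val (hh.congr_fun fun y => ?_) (by simp only [avg]; ring)
    simp only [Function.comp, Equiv.trans_apply, row, sym6, Matrix.cons_val_zero,
      Matrix.cons_val_one, Matrix.cons_val, w0, w1, w2, f0, f1, f2]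
  rw [mo, key.tsum_eq]; ring

/-- The moment of a pair is the moment of the averaged function. -/
lemma mo_pair (hg : Cvx g) (hL : Ok L) (hM : Ok M) : mo g (pair L M) = mo (avg g M) L := by
  have h := ((pair_ok hL hM).summable_mom hg.dom).hasSum
  have := h.prod_fiberwise (g := fun x => avg g M (L x 0) (L x 1) (L x 2)) fun x => by
    exact (summable_avg hg hM (hL.nonneg x 0) (hL.nonneg x 1) (hL.nonneg x 2)).hasSum
  rw [mo, mo, ← this.tsum_eq]
  rfl

end Four

end Window

end Vale.Agent.P154
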