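import Vale.Agent.P154.Window.Four.FiveCheck1

/-!
Kernel check of one table for five children.
-/

namespace Vale.Agent.P154

namespace Window

namespace Four

namespace Zoom

theorem five_check2 : checkSq 36893488151714082873 11 q5.1 r5 q5.2.1 us5 xs5 = true := by
  decide +kernel

end Zoom

end Four

end Window

end Vale.Agent.P154
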