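import Mathlib.Logic.Basic
import Mathlib.Data.List.Basic

/-!
Kernel-evaluated upper recursion on triangular lattice meshes of the simplex.
The measure of a channel is stored as integer weights on sorted lattice points; one half step
multiplies a mesh by itself and splits every product row over the lattice triangle holding it.
-/

namespace Vale.Agent.P154

namespace Window

namespace Four

/-- A lattice point. -/
abbrev Pt := ℕ × ℕ × ℕ

/-- Radix of one packed slot. -/
abbrev slot : ℕ := 288230376151711813

/-- Total weight. -/
abbrev wtot : ℕ := 4194304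

/-- The sorted lattice points of total `n`, the corner first. -/
def mesh (n : ℕ) : List Pt :=
  (List.range (n + 1)).reverse.flatMap fun a =>
    (List.range (min a (n - a) + 1)).reverse.filterMap fun b =>
      if n - a - b ≤ b then some (a, b, n - a - b) else none

/-- The six orders of a point. -/
def orders : Pt → List Pt
  | (a, b, c) => [(a, b, c), (b, c, a), (c, a, b), (a, c, b), (b, a, c), (c, b, a)]

/-- Packed inverse of the enumeration, for every order of the coordinates. -/
def lookTab (n : ℕ) (V : List Pt) : ℕ :=
  V.zipIdx.foldl (fun s z => (orders z.1).foldl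
    (fun s p => Nat.lor s (Nat.mul z.2 (Nat.pow 256 (Nat.add (Nat.mul p.1 (n + 1)) p.2.1)))) s) 0

/-- The index of the orbit of the lattice point with coordinates a, b, n - a - b. -/
def look (n tb a b : ℕ) : ℕ :=
  Nat.mod (Nat.div tb (Nat.pow 256 (Nat.add (Nat.mul a (Nat.succ n)) b))) 256

/-- Evaluate a number before going on. -/
noncomputable def forceN {β : Type} (a : ℕ) (k : ℕ → β) : β :=
  Nat.rec (k 0) (fun m _ => k (Nat.succ m)) a

/-- One packed entry. -/
def put (n tb c a b : ℕ) : ℕ := Nat.mul c (Nat.pow slot (look n tb a b))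

/-- Split a scaled point over the lattice triangle holding it, given its floors and remainders. -/
noncomputable def splitAt (n tb S a0 a1 b0 b1 b2 : ℕ) : ℕ :=
  cond (Nat.beq (Nat.add (Nat.add b0 b1) b2) S)
    (Nat.add (Nat.add (put n tb b0 (Nat.succ a0) a1) (put n tb b1 a0 (Nat.succ a1)))
      (put n tb b2 a0 a1))
    (cond (Nat.beq (Nat.add (Nat.add b0 b1) b2) (Nat.mul 2 S))
      (Nat.add (Nat.add (put n tb (Nat.sub S b0) a0 (Nat.succ a1))
          (put n tb (Nat.sub S b1) (Nat.succ a0) a1))
        (put n tb (Nat.sub S b2) (Nat.succ a0) (Nat.succ a1)))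
      (put n tb S a0 a1))

/-- Split one product row over the lattice of total `n`. -/
noncomputable def split (n tb p q r : ℕ) : ℕ :=
  forceN (Nat.add (Nat.add p q) r) fun S =>
  forceN (Nat.mul n p) fun x =>
  forceN (Nat.mul n q) fun y =>
  forceN (Nat.mul n r) fun z =>
    splitAt n tb S (Nat.div x S) (Nat.div y S) (Nat.mod x S) (Nat.mod y S) (Nat.mod z S)

/-- All six relative orders of two points. -/
noncomputable def six (n tb : ℕ) : Pt → Pt → ℕ
  | (a, b, c), (x, y, z) =>
    forceN a fun a => forceN b fun b => forceN c fun c =>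
    forceN x fun x => forceN y fun y => forceN z fun z =>
    Nat.add (Nat.add (Nat.add (Nat.add (Nat.add
      (split n tb (Nat.mul a x) (Nat.mul b y) (Nat.mul c z))
      (split n tb (Nat.mul a y) (Nat.mul b z) (Nat.mul c x)))
      (split n tb (Nat.mul a z) (Nat.mul b x) (Nat.mul c y)))
      (split n tb (Nat.mul a x) (Nat.mul b z) (Nat.mul c y)))
      (split n tb (Nat.mul a y) (Nat.mul b x) (Nat.mul c z)))
      (split n tb (Nat.mul a z) (Nat.mul b y) (Nat.mul c x))

/-- The triangular table of a mesh. -/
noncomputable def rowsOf (N : Pt → Pt → ℕ) : List Pt → List (List ℕ)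
  | [] => []
  | x :: r => (N x x :: r.map fun y => Nat.mul 2 (N x y)) :: rowsOf N r

/-- Evaluate the entries of a list before going on. -/
noncomputable def force {β : Type} (l : List ℕ) : (List ℕ → β) → β :=
  List.rec (fun k => k []) (fun a _ ih k => forceN a fun a' => ih fun l' => k (a' :: l')) l

/-- Evaluate a table before going on. -/
noncomputable def force2 {β : Type} (l : List (List ℕ)) : (List (List ℕ) → β) → β :=
  List.rec (fun k => k []) (fun a _ ih k => force a fun a' => ih fun l' => k (a' :: l')) l

/-- Inner product. -/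
noncomputable def dot (l : List ℕ) : List ℕ → ℕ :=
  List.rec (fun _ => 0) (fun a _ ih r => List.rec 0 (fun b r' _ => Nat.add (Nat.mul a b) (ih r')) r) l

/-- The quadratic form of a triangular table. -/
noncomputable def tri (l : List ℕ) : List (List ℕ) → ℕ :=
  List.rec (fun _ => 0)
    (fun a t ih R => List.rec 0 (fun row R' _ => Nat.add (Nat.mul a (dot (a :: t) row)) (ih R')) R) l

/-- Read the slots and divide. -/
noncomputable def digs (F : ℕ) (m : ℕ) : ℕ → List ℕ :=
  Nat.rec (fun _ => [])
    (fun _ ih P => forceN P fun P => Nat.div (Nat.mod P slot) F :: ih (Nat.div P slot)) m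

/-- Sum of a list. -/
noncomputable def lsum (l : List ℕ) : ℕ := List.rec 0 (fun a _ ih => Nat.add a ih) l

/-- Round down and give the remainder to the corner. -/
noncomputable def norm1 (l : List ℕ) : List ℕ :=
  List.rec [] (fun _ t _ => (Nat.sub wtot (lsum t)) :: t) l

/-- One half step. -/
noncomputable def half (F m : ℕ) (T : List (List ℕ)) (w : List ℕ) : List ℕ :=
  norm1 (digs F m (tri w T))

/-- The image of a point under the channel, doubled. -/
def edge : Pt → Pt
  | (a, b, c) => (b + c, a + c, a + b)

/-- Iterate full steps and test the last measure. -/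
noncomputable def iter (F1 F2 m1 m2 : ℕ) (T1 T2 : List (List ℕ)) (test : List ℕ → Bool) (k : ℕ) :
    List ℕ → Bool :=
  Nat.rec test
    (fun _ ih w => force (half F1 m2 T1 w) fun u => force (half F2 m1 T2 u) fun v => ih v) k

/-- Numerator of the potential at a lattice point. -/
def score (n : ℕ) : Pt → ℕ
  | (a, b, c) => 10 * ((a - b) ^ 2 + (a - b) * (b - c) + (b - c) ^ 2) * n ^ 2
      + 3 * ((a - b) ^ 2 + (a - b) * (b - c) + (b - c) ^ 2) ^ 2

/-- The final test. -/
noncomputable def below (n : ℕ) (w : List ℕ) : Bool :=
  decide (dot w ((mesh n).map (score n)) ≤ 2 * wtot * n ^ 4)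

/-- The initial measure. -/
def start (m : ℕ) : List ℕ := wtot :: List.replicate (m - 1) 0

/-- Run a number of full steps from a stored measure and test the outcome. -/
noncomputable def run (n1 n2 k : ℕ) (s : List ℕ) (test : List ℕ → Bool) : Bool :=
  forceN (lookTab n1 (mesh n1)) fun t1 =>
  forceN (lookTab n2 (mesh n2)) fun t2 =>
  force2 (rowsOf (six n2 t2) ((mesh n1).map edge)) fun T1 =>
  force2 (rowsOf (six n1 t1) (mesh n2)) fun T2 =>
  force s fun s =>
    iter (2 * wtot * (2 * n1) ^ 2) (2 * wtot * n2 ^ 2) (mesh n1).length (mesh n2).length T1 T2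
      test k s

end Four

end Window

end Vale.Agent.P154
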