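import Vale.Agent.P154.Window.Four.PData408

/-!
Kernel check of stored half steps, mean 102 / 25.
-/

namespace Vale.Agent.P154

namespace Window

namespace Four

namespace Zoom

theorem pois408_one :
    checkMove 4295045177 (2 * pP408.1) rP408 (pP408.2.1.map (edgeK 1 1)) (wsP408.take 106) t1P408 = true := by
  decide +kernel

theorem pois408_two :
    checkSqs 36893488151714082873 11 (2 * pP408.1) rP408 (pP408.2.1.map (edgeK 1 1)) [((wsP408.take 106), t2P408)] = true := by
  decide +kernel

theorem pois408_mixed :
    checkBlend rP408.2.1.length 60 [378111, 385673, 196693, 66875, 17053, 3478, 591, 86] 16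
      [t1P408, t2P408, t3P408, t4P408, t5P408, t6P408, t7P408] v0P408 = true := by
  decide +kernel

theorem pois408_back :
    checkMove 4295045177 rP408.1 pP408 rP408.2.1 v2P408 (wsP408.drop 1) = true := by
  decide +kernel

end Zoom

end Four

end Window

end Vale.Agent.P154
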