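import Vale.Agent.P154.Window.Four.PCheck408A

/-!
Kernel check of stored half steps, mean 102 / 25.
-/

namespace Vale.Agent.P154

namespace Window

namespace Four

namespace Zoom

theorem pois408_more1 :
    checkMuls 36893488151714082873 11 rP408.1 (2 * pP408.1) rP408 rP408.2.1 (pP408.2.1.map (edgeK 1 1))
      [(t2P408, (wsP408.take 106), t3P408), (t3P408, (wsP408.take 106), t4P408)] = true := by
  decide +kernel

end Zoom

end Four

end Window

end Vale.Agent.P154
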