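import Vale.Agent.P154.Window.Four.PData414

/-!
Kernel check of stored half steps, mean 207 / 50.
-/

namespace Vale.Agent.P154

namespace Window

namespace Four

namespace Zoom

theorem pois414_one :
    checkMove 1099512688697 (375 * pP414.1) rP414 (pP414.2.1.map (edgeK 187 186)) (wsP414.take 101) t1P414 = true := by
  decide +kernel

theorem pois414_two :
    checkSqs 1208925819615728686346297 11 (375 * pP414.1) rP414 (pP414.2.1.map (edgeK 187 186)) [((wsP414.take 101), t2P414)] = true := by
  decide +kernel

theorem pois414_mixed :
    checkBlend rP414.2.1.length 60 [372481, 385518, 199505, 68829, 17809, 3686, 635, 94] 19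
      [t1P414, t2P414, t3P414, t4P414, t5P414, t6P414, t7P414] v0P414 = true := by
  decide +kernel

theorem pois414_back :
    checkMove 1099512688697 rP414.1 pP414 rP414.2.1 v2P414 (wsP414.drop 1) = true := by
  decide +kernel

end Zoom

end Four

end Window

end Vale.Agent.P154
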