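import Vale.Agent.P154.Window.Four.PCheck414A

/-!
Kernel check of stored half steps, mean 207 / 50.
-/

namespace Vale.Agent.P154

namespace Window

namespace Four

namespace Zoom

theorem pois414_more1 :
    checkMuls 4722366482938364702777 11 rP414.1 (375 * pP414.1) rP414 rP414.2.1 (pP414.2.1.map (edgeK 187 186))
      [(t2P414, (wsP414.take 101), t3P414), (t3P414, (wsP414.take 101), t4P414)] = true := by
  decide +kernel

end Zoom

end Four

end Window

end Vale.Agent.P154
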