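import Vale.Agent.P154.Window.Four.PData420

/-!
Kernel check of stored half steps, mean 21 / 5.
-/

namespace Vale.Agent.P154

namespace Window

namespace Four

namespace Zoom

theorem pois420_one :
    checkMove 2199024316473 (750 * pP420.1) rP420 (pP420.2.1.map (edgeK 373 369)) (wsP420.take 94) t1P420 = true := by
  decide +kernel

theorem pois420_two :
    checkSqs 4835703278460715722092601 11 (750 * pP420.1) rP420 (pP420.2.1.map (edgeK 373 369)) [((wsP420.take 94), t2P420)] = true := by
  decide +kernel

theorem pois420_mixed :
    checkBlend rP420.2.1.length 60 [366936, 385283, 202273, 70795, 18583, 3902, 682, 102] 20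
      [t1P420, t2P420, t3P420, t4P420, t5P420, t6P420, t7P420] v0P420 = true := by
  decide +kernel

theorem pois420_back :
    checkMove 2199024316473 rP420.1 pP420 rP420.2.1 v2P420 (wsP420.drop 1) = true := by
  decide +kernel

end Zoom

end Four

end Window

end Vale.Agent.P154
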