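import Vale.Agent.P154.Window.Four.PCheck420A

/-!
Kernel check of stored half steps, mean 21 / 5.
-/

namespace Vale.Agent.P154

namespace Window

namespace Four

namespace Zoom

theorem pois420_more1 :
    checkMuls 9444732965808009916473 11 rP420.1 (750 * pP420.1) rP420 rP420.2.1 (pP420.2.1.map (edgeK 373 369))
      [(t2P420, (wsP420.take 94), t3P420), (t3P420, (wsP420.take 94), t4P420)] = true := by
  decide +kernel

end Zoom

end Four

end Window

end Vale.Agent.P154
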