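import Vale.Agent.P154.Window.Four.ZRun

/-!
Kernel-evaluated checkers for a Poisson number of children.
-/

namespace Vale.Agent.P154

namespace Window

namespace Four

namespace Zoom

/-- Total of the integer probabilities. -/
abbrev ctot : ℕ := 1048576

/-- Componentwise sum of the first with a multiple of the second. -/
noncomputable def axpy (c : ℕ) (u : List ℕ) : List ℕ → List ℕ :=
  List.rec (fun _ => [])
    (fun a _ ih r => List.rec [] (fun b r' _ => Nat.add b (Nat.mul c a) :: ih r') r) u

/-- A combination of measures, rounded down, the remainder to the corner. -/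
noncomputable def blend (m : ℕ) (cs : List (ℕ × List ℕ)) : List ℕ :=
  znorm ((cs.foldr (fun x acc => axpy x.1 x.2 acc) (List.replicate m 0)).map fun y =>
    Nat.div y ctot)

/-- A unit measure at one point. -/
def unitAt (m i : ℕ) : List ℕ := (List.range m).map fun j => cond (Nat.beq i j) zw 0

/-- Check several runs of squaring half steps over one table. -/
noncomputable def checkSqs (β q t : ℕ) (M : Raw) (U : List Pt)
    (ps : List (List ℕ × List ℕ)) : Bool :=
  forceLevs (levsOf M.1 M.2.1 M.2.2) fun lev =>
  forceN (β ^ M.2.1.length) fun B =>
  force2 (blocks B q U.length (rowsOf (zsix β lev) U)) fun T =>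
  forceN (2 * zw * t ^ 2) fun F =>
  forceN M.2.1.length fun m =>
    ps.all fun p => chain (fun w => settle β F m (triB B q T w)) U.length m p.1 p.2

/-- Check several runs of half steps of two meshes over one table. -/
noncomputable def checkMuls (β q s t : ℕ) (M : Raw) (U V : List Pt)
    (ps : List (List ℕ × List ℕ × List ℕ)) : Bool :=
  forceLevs (levsOf M.1 M.2.1 M.2.2) fun lev =>
  forceN (β ^ M.2.1.length) fun B =>
  force2 (blocksFull B q U.length (rect (zsix β lev) U V)) fun T =>
  forceN (2 * zw * (s * t)) fun F =>
  forceN M.2.1.length fun m =>
    ps.all fun p =>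
      chain2 (fun a b => settle β F m (rectB B q T b a)) U.length V.length m p.1 p.2.1 p.2.2

/-- Check moves from the points `U` of total `t` to the mesh `M`. -/
noncomputable def checkMove (β t : ℕ) (M : Raw) (U : List Pt) (xs ys : List ℕ) : Bool :=
  forceLevs (levsOf M.1 M.2.1 M.2.2) fun lev =>
  force (U.map (zone β lev)) fun R =>
  forceN M.2.1.length fun m =>
    chain (fun w => settle β t m (dot w R)) U.length m xs ys

/-- Check the truncated mixtures of stored powers. -/
noncomputable def checkBlend (m i : ℕ) (cs : List ℕ) (top : ℕ) (us : List (List ℕ))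
    (vs : List ℕ) : Bool :=
  forceN m fun m =>
  force (unitAt m i) fun u0 =>
  force (unitAt m 0) fun corner =>
    (List.range vs.length).all fun j =>
      sameList
        (blend m ((top, corner) ::
          List.zip cs (u0 :: us.map fun u => unpack m (u.getD j 0))))
        (unpack m (vs.getD j 0))

end Zoom

end Four

end Window

end Vale.Agent.P154
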