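import Vale.Agent.P154.Window.Four.Cvx
import Mathlib.Algebra.BigOperators.NatAntidiagonal
import Mathlib.Data.Nat.Choose.Sum
import Mathlib.Algebra.BigOperators.Field

/-!
A Poisson number of children as a square of the mixture with half the mean, and truncation.
-/

namespace Vale.Agent.P154

namespace Window

namespace Four

variable {g : ℝ → ℝ → ℝ → ℝ} {ι : Type} {L : Lik ι}

lemma mo_le_top {κ : Type} {M : Lik κ} (hg : Cvx g) (hM : Ok M) : mo g M ≤ g 1 0 0 := by
  have hs := hM.hasSum_mass.mul_left (g 1 0 0)
  have key : (∑' y, row g (M y)) ≤ g 1 0 0 * 3 :=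
    hasSum_le (fun y => by
      have := hg.le_corner (hM.nonneg y 0) (hM.nonneg y 1) (hM.nonneg y 2)
      simp only [row, mS, tot]; linarith) (hM.summable_mom hg.dom).hasSum hs
  rw [mo]; linarith

lemma mix_moment {p : ℕ → ℝ} {d : ℝ} (hp : Law p d) (h : Ok L) (hg : Cvx g) :
    HasSum (fun N => p N * mo g (power L N)) (mo g (mix p L)) := by
  have hs := (mix_ok hp h).summable_mom hg.dom
  have hf : ∀ N, HasSum (fun x : Fin N → ι => row g (mix p L ⟨N, x⟩))
      (p N * (3 * mo g (power L N))) := fun N => by
    have := ((power_ok L h N).summable_mom hg.dom).hasSum.mul_left (p N)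
    have e : (3 * mo g (power L N)) = ∑' x, row g (power L N x) := by rw [mo]; ring
    rw [e]
    simpa only [row, mix, hg.hom _ (hp.nonneg N)] using this
  have := (hs.hasSum.sigma hf).div_const 3
  refine (this.congr_fun fun N => ?_)
  ring

lemma mo_power_one (L : Lik ι) (g : ℝ → ℝ → ℝ → ℝ) : mo g (power L 1) = mo g L := by
  have : power L 1 = reindex (Equiv.funUnique (Fin 1) ι) L := by
    funext x i; simp [power, reindex]
  rw [this, mo_reindex]

lemma mo_power_add (L : Lik ι) (g : ℝ → ℝ → ℝ → ℝ) (a b : ℕ) :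
    mo g (pair (power L a) (power L b)) = mo g (power L (a + b)) := by
  have : pair (power L a) (power L b) = reindex (Fin.appendEquiv a b) (power L (a + b)) := by
    funext z i
    simp [pair, power, reindex, Fin.prod_univ_add, Fin.appendEquiv]
  rw [this, mo_reindex]

lemma mo_power_succ (L : Lik ι) (g : ℝ → ℝ → ℝ → ℝ) (k : ℕ) :
    mo g (power L (k + 1)) = mo g (pair (power L k) L) := by
  rw [power_succ, mo_reindex, mo_pair_comm]

lemma power_swap (h : Sw L) (N : ℕ) : Sw (power L N) := power_sw h N

lemma poisson_twice (x : ℝ) (T : ℕ) :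
    ∑ z ∈ Finset.antidiagonal T, poissonLaw x z.1 * poissonLaw x z.2
      = poissonLaw (2 * x) T := by
  have h := (Commute.all x x).add_pow' T
  rw [← two_mul] at h
  simp only [poissonLaw]
  rw [h, Finset.mul_sum, Finset.sum_div]
  refine Finset.sum_congr rfl fun z hz => ?_
  rw [nsmul_eq_mul, Nat.cast_choose ℝ (Nat.le.intro (Finset.mem_antidiagonal.mp hz))]
  have : T - z.1 = z.2 := by have := Finset.mem_antidiagonal.mp hz; omega
  rw [this, show -(2 * x) = -x + -x by ring, Real.exp_add]
  field_simp

/-- A Poisson number with twice the mean is two independent Poisson numbers. -/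
theorem mo_mix_twice {x : ℝ} (hx : 0 < x) (hL : Ok L) (hS : Sw L) (hg : Cvx g) :
    mo g (pair (mix (poissonLaw x) L) (mix (poissonLaw x) L))
      = mo g (mix (poissonLaw (2 * x)) L) := by
  have hp := poisson_law hx
  have hm := mix_ok hp hL
  have hms := mix_sw (poissonLaw x) hS
  set m : ℕ → ℝ := fun N => mo g (power L N) with hmdef
  have m0 : ∀ N, 0 ≤ m N := fun N => (power_ok L hL N).mo_nonneg hg.nonneg
  have m1 : ∀ N, m N ≤ g 1 0 0 := fun N => mo_le_top hg (power_ok L hL N)
  have inner : ∀ a, HasSum (fun b => poissonLaw x b * m (b + a))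
      (mo g (pair (power L a) (mix (poissonLaw x) L))) := fun a => by
    have hA := cvx_avg hg (power_ok L hL a) (power_sw hS a)
    have := mix_moment hp hL hA
    rw [← mo_pair hg hm (power_ok L hL a), mo_pair_comm] at this
    refine this.congr_fun fun b => ?_
    rw [← mo_pair hg (power_ok L hL b) (power_ok L hL a), mo_power_add]
  have outer : HasSum (fun a => poissonLaw x a * mo g (pair (power L a) (mix (poissonLaw x) L)))
      (mo g (pair (mix (poissonLaw x) L) (mix (poissonLaw x) L))) := by
    have := mix_moment hp hL (cvx_avg hg hm hms)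
    rw [← mo_pair hg hm hm] at this
    refine this.congr_fun fun a => ?_
    rw [← mo_pair hg (power_ok L hL a) hm]
  have hsum : Summable fun z : ℕ × ℕ => poissonLaw x z.1 * (poissonLaw x z.2 * m (z.2 + z.1)) := by
    refine Summable.of_nonneg_of_le
      (fun z => mul_nonneg (hp.nonneg _) (mul_nonneg (hp.nonneg _) (m0 _)))
      (fun z => ?_) ((hp.total.summable.mul_of_nonneg hp.total.summable hp.nonneg
        hp.nonneg).mul_right (g 1 0 0))
    rw [← mul_assoc]
    exact mul_le_mul_of_nonneg_left (m1 _) (mul_nonneg (hp.nonneg _) (hp.nonneg _))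
  have hv := hsum.hasSum.prod_fiberwise fun a => (inner a).mul_left (poissonLaw x a)
  have e := hv.unique outer
  have hs := hsum.hasSum
  rw [e] at hs
  have h2 := (Equiv.hasSum_iff (Finset.HasAntidiagonal.sigmaAntidiagonalEquivProd (A := ℕ))).mpr hs
  have h3 := h2.sigma fun T => hasSum_fintype _
  have h4 : HasSum (fun T => poissonLaw (2 * x) T * m T)
      (mo g (pair (mix (poissonLaw x) L) (mix (poissonLaw x) L))) := by
    refine h3.congr_fun fun T => ?_
    rw [← poisson_twice, Finset.sum_mul]
    rw [← Finset.sum_attach (Finset.antidiagonal T)]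
    refine Finset.sum_congr rfl fun z _ => ?_
    have hz := Finset.mem_antidiagonal.mp z.2
    simp only [Function.comp, Finset.HasAntidiagonal.sigmaAntidiagonalEquivProd_apply]
    rw [show z.1.2 + z.1.1 = T by omega]
    ring
  exact h4.unique (mix_moment (poisson_law (by linarith)) hL hg)

/-- Truncation: lower bounds on the first probabilities, the rest to perfect information. -/
theorem mo_mix_trunc {p : ℕ → ℝ} {d : ℝ} (hp : Law p d) (hL : Ok L) (hg : Cvx g) (n : ℕ)
    (q : ℕ → ℝ) (hq : ∀ N < n, q N ≤ p N) :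
    mo g (mix p L) ≤ (∑ N ∈ Finset.range n, q N * mo g (power L N))
      + (1 - ∑ N ∈ Finset.range n, q N) * g 1 0 0 := by
  have h := mix_moment hp hL hg
  have ht := hp.total
  have hb := (ht.mul_right (g 1 0 0)).sub h
  have hpos : ∀ N, 0 ≤ p N * g 1 0 0 - p N * mo g (power L N) := fun N => by
    rw [← mul_sub]
    exact mul_nonneg (hp.nonneg N) (sub_nonneg.mpr (mo_le_top hg (power_ok L hL N)))
  have h1 := sum_le_hasSum (Finset.range n) (fun N _ => hpos N) hb
  have h2 : ∑ N ∈ Finset.range n, (q N * g 1 0 0 - q N * mo g (power L N))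
      ≤ ∑ N ∈ Finset.range n, (p N * g 1 0 0 - p N * mo g (power L N)) := by
    refine Finset.sum_le_sum fun N hN => ?_
    rw [← mul_sub, ← mul_sub]
    exact mul_le_mul_of_nonneg_right (hq N (Finset.mem_range.mp hN))
      (sub_nonneg.mpr (mo_le_top hg (power_ok L hL N)))
  rw [Finset.sum_sub_distrib, ← Finset.sum_mul] at h2
  linarith

end Four

end Window

end Vale.Agent.P154
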