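import Vale.Agent.P154.Window.Four.ZPot
import Vale.Agent.P154.Window.Four.Pois
import Vale.Agent.P154.Window.Four.PRun
import Mathlib.Tactic.IntervalCases

/-!
Turning checked half steps into bounds along the Poisson tree.
-/

namespace Vale.Agent.P154

namespace Window

namespace Four

namespace Zoom

variable {g : ℝ → ℝ → ℝ → ℝ}

lemma zbd_le {ι κ : Type} {L : Lik ι} {L' : Lik κ} {V : List Pt} {t : ℕ} {w : List ℕ}
    (h : ZBd L V t w) (hle : ∀ g, Cvx g → mo g L' ≤ mo g L) : ZBd L' V t w :=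
  ⟨h.1, fun g hg => le_trans
    (mul_le_mul_of_nonneg_left (hle g hg) (by positivity)) (h.2 g hg)⟩

lemma checkSqs_sound {β q t : ℕ} {M : Raw} {U : List Pt} {ps : List (List ℕ × List ℕ)}
    (h : checkSqs β q t M U ps = true) {p : List ℕ × List ℕ} (hp : p ∈ ps) {i : ℕ}
    (hi : i < p.1.length) :
    sqStep β q (gridOf M) t (sqTab β q (gridOf M) U) (unpack U.length (p.1.getD i 0))
      = unpack M.2.1.length (p.2.getD i 0) := by
  simp only [checkSqs, forceLevs_eq, forceN_eq, force2_eq, List.all_eq_true] at h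
  exact chain_sound _ _ _ _ _ (h p hp) i hi

lemma checkMuls_sound {β q s t : ℕ} {M : Raw} {U V : List Pt}
    {ps : List (List ℕ × List ℕ × List ℕ)} (h : checkMuls β q s t M U V ps = true)
    {p : List ℕ × List ℕ × List ℕ} (hp : p ∈ ps) {i : ℕ} (hi : i < p.1.length) :
    mulStep β q (gridOf M) s t (mulTab β q (gridOf M) U V) (unpack U.length (p.1.getD i 0))
      (unpack V.length (p.2.1.getD i 0)) = unpack M.2.1.length (p.2.2.getD i 0) := by
  simp only [checkMuls, forceLevs_eq, forceN_eq, force2_eq, List.all_eq_true] at h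
  exact chain2_sound _ _ _ _ _ _ _ (h p hp) i hi

lemma checkMove_sound {β t : ℕ} {M : Raw} {U : List Pt} {xs ys : List ℕ}
    (h : checkMove β t M U xs ys = true) {i : ℕ} (hi : i < xs.length) :
    moveStep β (gridOf M) t U (unpack U.length (xs.getD i 0))
      = unpack M.2.1.length (ys.getD i 0) := by
  simp only [checkMove, forceLevs_eq, forceN_eq, force_eq] at h
  exact chain_sound _ _ _ _ _ h i hi

/-- The powers entering a truncated mixture at step `j`. -/
noncomputable def powersAt (m i : ℕ) (us : List (List ℕ)) (j : ℕ) : List (List ℕ) :=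
  unitAt m i :: us.map fun u => unpack m (u.getD j 0)

lemma checkBlend_sound {m i top : ℕ} {cs : List ℕ} {us : List (List ℕ)} {vs : List ℕ}
    (h : checkBlend m i cs top us vs = true) {j : ℕ} (hj : j < vs.length) :
    blend m ((top, unitAt m 0) :: List.zip cs (powersAt m i us j))
      = unpack m (vs.getD j 0) := by
  simp only [checkBlend, forceN_eq, force_eq, List.all_eq_true] at h
  exact sameList_eq _ _ (h j (List.mem_range.mpr hj))

lemma axpy_zs (c : ℕ) : ∀ (u r : List ℕ) (G : List ℝ), u.length = G.length → r.length = G.length →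
    (axpy c u r).length = G.length ∧ zs (axpy c u r) G = zs r G + c * zs u G ∧
      (axpy c u r).sum = r.sum + c * u.sum
  | [], [], [], _, _ => by simp [axpy, zs]
  | a :: u, b :: r, x :: G, hu, hr => by
    obtain ⟨e1, e2, e3⟩ := axpy_zs c u r G (by simpa using hu) (by simpa using hr)
    have e : axpy c (a :: u) (b :: r) = (b + c * a) :: axpy c u r := rfl
    rw [e]
    refine ⟨by simp [e1], ?_, ?_⟩
    · simp only [zs, e2]; push_cast; ring
    · simp only [List.sum_cons, e3]; ring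
  | [], _ :: _, [], _, hr => by simp at hr
  | _ :: _, _, [], hu, _ => by simp at hu
  | [], _, _ :: _, hu, _ => by simp at hu
  | _ :: _, [], _ :: _, _, hr => by simp at hr

lemma fold_zs (G : List ℝ) : ∀ cs : List (ℕ × List ℕ),
    (∀ x ∈ cs, x.2.length = G.length ∧ x.2.sum = zw) →
    (cs.foldr (fun x acc => axpy x.1 x.2 acc) (List.replicate G.length 0)).length = G.length ∧
    zs (cs.foldr (fun x acc => axpy x.1 x.2 acc) (List.replicate G.length 0)) G
      = (cs.map fun x => (x.1 : ℝ) * zs x.2 G).sum ∧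
    (cs.foldr (fun x acc => axpy x.1 x.2 acc) (List.replicate G.length 0)).sum
      = zw * (cs.map Prod.fst).sum
  | [], _ => by simp [zs_zero]
  | x :: cs, h => by
    obtain ⟨hx1, hx2⟩ := h x List.mem_cons_self
    obtain ⟨e1, e2, e3⟩ := fold_zs G cs fun y hy => h y (List.mem_cons_of_mem x hy)
    obtain ⟨f1, f2, f3⟩ := axpy_zs x.1 x.2 _ G hx1 e1
    rw [List.foldr_cons]
    refine ⟨f1, ?_, ?_⟩
    · rw [f2, e2, List.map_cons, List.sum_cons]; ring
    · rw [f3, e3, List.map_cons, List.sum_cons, hx2]; ring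

lemma blend_le (hg : Cvx g) {M : Grid} (hM : M.Good) {cs : List (ℕ × List ℕ)}
    (hc : ∀ x ∈ cs, x.2.length = M.V.length ∧ x.2.sum = zw)
    (ht : (cs.map Prod.fst).sum = ctot) :
    (blend M.V.length cs).sum = zw ∧
      (cs.map fun x => (x.1 : ℝ) * zs x.2 (M.V.map (gv g))).sum
        ≤ (ctot : ℝ) * zs (blend M.V.length cs) (M.V.map (gv g)) := by
  obtain ⟨R, hR⟩ := hM.head
  obtain ⟨h0, hle⟩ := top_le hg hM hR
  obtain ⟨e1, e2, e3⟩ := fold_zs (M.V.map (gv g)) cs (by simpa using hc)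
  rw [List.length_map] at e1 e2 e3
  rw [blend, ← e2]
  generalize cs.foldr (fun x acc => axpy x.1 x.2 acc) (List.replicate M.V.length 0) = r at e1 e2 e3
  rw [ht] at e3
  rw [hR] at e1 ⊢
  rcases r with _ | ⟨a, c⟩
  · simp at e1
  simp only [List.map_cons]
  rw [show znorm (Nat.div a ctot :: c.map fun y => Nat.div y ctot)
    = Nat.sub zw (lsum (c.map fun y => Nat.div y ctot)) :: c.map fun y => Nat.div y ctot from rfl,
    lsum_eq, Nat.sub_eq]
  obtain ⟨h1, h2⟩ := round_le (F := ctot) c (R.map (gv g)) (by simpa using e1) hle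
  rw [show (c.map fun y => Nat.div y ctot) = c.map (· / ctot) from rfl]
  generalize c.map (· / ctot) = q at h1 h2 ⊢
  rw [List.sum_cons] at e3
  have hC : (0 : ℕ) < ctot := by norm_num
  have hq : q.sum ≤ zw := by
    have : ctot * q.sum ≤ c.sum := by exact_mod_cast h1
    refine Nat.le_of_mul_le_mul_left (le_trans this ?_) hC
    rw [mul_comm ctot zw]; omega
  refine ⟨by rw [List.sum_cons]; omega, ?_⟩
  simp only [zs]
  rw [Nat.cast_sub hq]
  have hb : ((a : ℝ) + (c.sum : ℕ)) = (ctot : ℝ) * zw := by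
    rw [mul_comm (ctot : ℝ) zw]; exact_mod_cast e3
  have hb' : ((a : ℝ) + (c.sum : ℕ)) * gv g (M.N, 0, 0) = (ctot : ℝ) * zw * gv g (M.N, 0, 0) := by
    rw [hb]
  linarith

lemma unitAt_spec : ∀ (m i : ℕ) (G : List ℝ), G.length = m → i < m →
    (unitAt m i).length = m ∧ (unitAt m i).sum = zw ∧
      zs (unitAt m i) G = zw * G.getD i 0 := by
  intro m i G hG hi
  have e : unitAt m i = (List.replicate m 0).set i zw := by
    refine List.ext_getElem (by simp [unitAt]) fun j h1 h2 => ?_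
    simp only [unitAt, List.getElem_map, List.getElem_range, List.getElem_set, List.getElem_replicate]
    by_cases hij : i = j
    · subst hij; simp [Nat.beq_refl]
    · have : Nat.beq i j = false := by
        cases h : Nat.beq i j with
        | false => rfl
        | true => exact absurd (Nat.eq_of_beq_eq_true h) hij
      simp [this, hij]
  subst hG
  obtain ⟨x, hx⟩ : ∃ x, G[i]? = some x := ⟨G[i], List.getElem?_eq_getElem hi⟩
  obtain ⟨e1, -, e3, e4⟩ := one_aux zw G i x hx
  rw [e, List.getD_eq_getElem?_getD, hx]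
  exact ⟨e1, e3, e4⟩

lemma unpack_len : ∀ m p, (unpack m p).length = m
  | 0, _ => rfl
  | m + 1, p => by
    rw [show unpack (m + 1) p = forceN p fun P => Nat.mod P srad :: unpack m (Nat.div P srad) from rfl,
      forceN_eq, List.length_cons, unpack_len m]

/-- The centre point is at index `i`. -/
def centred (M : Raw) (i : ℕ) : Prop :=
  ∃ c, M.1 = 3 * c ∧ M.2.1[i]? = some (c, c, c)

/-- The probabilities are lower bounds of the Poisson law with mean `x`. -/
def LowerLaw (x : ℝ) (cs : List ℕ) : Prop :=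
  ∀ N < cs.length, ((cs.getD N 0 : ℕ) : ℝ) / ctot ≤ poissonLaw x N

lemma zip_sum : ∀ (cs : List ℕ) (us : List (List ℕ)), cs.length = us.length →
    ((List.zip cs us).map Prod.fst) = cs
  | [], [], _ => rfl
  | c :: cs, u :: us, h => by simp [zip_sum cs us (by simpa using h)]
  | [], _ :: _, h => by simp at h
  | _ :: _, [], h => by simp at h

lemma zip_val (G : List ℝ) : ∀ (cs : List ℕ) (us : List (List ℕ)), cs.length = us.length →
    ((List.zip cs us).map fun x => (x.1 : ℝ) * zs x.2 G).sum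
      = ∑ N ∈ Finset.range cs.length, ((cs.getD N 0 : ℕ) : ℝ) * zs (us.getD N []) G
  | [], [], _ => by simp
  | c :: cs, u :: us, h => by
    rw [List.length_cons, Finset.sum_range_succ', List.zip_cons_cons, List.map_cons, List.sum_cons,
      zip_val G cs us (by simpa using h)]
    simp only [List.getD_cons_succ, List.getD_cons_zero]
    ring
  | [], _ :: _, h => by simp at h
  | _ :: _, [], h => by simp at h

lemma blend_mix {ι : Type} {S : Lik ι} (hS : Ok S) {x : ℝ} (hx : 0 < x) {R : Raw}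
    (hR : (gridOf R).Good) {i top : ℕ} {cs : List ℕ} {ps : List (List ℕ)}
    (hlen : cs.length = ps.length) (hsum : top + cs.sum = ctot) (hlow : LowerLaw x cs)
    (hp : ∀ N < ps.length, (ps.getD N []).length = R.2.1.length ∧
      ZBd (power S N) R.2.1 R.1 (ps.getD N []))
    (_hi : i < R.2.1.length) :
    ZBd (mix (poissonLaw x) S) R.2.1 R.1
      (blend R.2.1.length ((top, unitAt R.2.1.length 0) :: List.zip cs ps)) := by
  obtain ⟨V0, hV⟩ := hR.head
  have hV' : R.2.1 = (R.1, 0, 0) :: V0 := hV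
  have h0m : 0 < R.2.1.length := by rw [hV']; simp
  have hc : ∀ y ∈ (top, unitAt R.2.1.length 0) :: List.zip cs ps,
      y.2.length = R.2.1.length ∧ y.2.sum = zw := by
    intro y hy
    rcases List.mem_cons.mp hy with rfl | hy
    · obtain ⟨a, b, -⟩ := unitAt_spec R.2.1.length 0 (R.2.1.map fun _ => (0 : ℝ)) (by simp) h0m
      exact ⟨a, b⟩
    · obtain ⟨k, hk, e⟩ := List.mem_iff_getElem.mp (List.of_mem_zip (a := y.1) (b := y.2) hy).2
      have := hp k hk
      rw [List.getD_eq_getElem?_getD, List.getElem?_eq_getElem hk, Option.getD_some, e] at this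
      exact ⟨this.1, this.2.1⟩
  have ht : (((top, unitAt R.2.1.length 0) :: List.zip cs ps).map Prod.fst).sum = ctot := by
    rw [List.map_cons, List.sum_cons, zip_sum cs ps hlen]; exact hsum
  have key := fun g (hg : Cvx g) => blend_le (M := gridOf R) hg hR hc ht
  refine ⟨(key _ zero_cvx).1, fun g hg => ?_⟩
  have h1 := (key g hg).2
  simp only [gridOf, List.map_cons, List.sum_cons] at h1
  rw [zip_val _ cs ps hlen] at h1
  obtain ⟨-, -, hu⟩ := unitAt_spec R.2.1.length 0 (R.2.1.map (gv g)) (by simp) h0m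
  have htop : zs (unitAt R.2.1.length 0) (R.2.1.map (gv g)) = (zw : ℝ) * (R.1 * g 1 0 0) := by
    rw [hu, List.getD_eq_getElem?_getD]
    simp only [hV', List.map_cons, List.getElem?_cons_zero, Option.getD_some, gv]
    have := hg.hom R.1 (Nat.cast_nonneg _) 1 0 0
    simp only [mul_one, mul_zero] at this
    rw [Nat.cast_zero, this]
  rw [htop] at h1
  have hq := mo_mix_trunc (poisson_law hx) hS hg cs.length
    (fun N => ((cs.getD N 0 : ℕ) : ℝ) / ctot) hlow
  have hC : (0 : ℝ) < ctot := by norm_num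
  have hW : (0 : ℝ) ≤ (zw : ℝ) * R.1 := by positivity
  have hs' : (∑ N ∈ Finset.range cs.length, ((cs.getD N 0 : ℕ) : ℝ)) = (cs.sum : ℕ) := by
    clear hq h1 key ht hc hp hlow hsum hlen
    induction cs with
    | nil => simp
    | cons c cs ih =>
      rw [List.length_cons, Finset.sum_range_succ', List.sum_cons]
      simp only [List.getD_cons_succ, List.getD_cons_zero, ih]
      push_cast; ring
  have hb : ∑ N ∈ Finset.range cs.length,
      ((cs.getD N 0 : ℕ) : ℝ) * ((zw : ℝ) * R.1 * mo g (power S N))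
      ≤ ∑ N ∈ Finset.range cs.length,
        ((cs.getD N 0 : ℕ) : ℝ) * zs (ps.getD N []) (R.2.1.map (gv g)) := by
    refine Finset.sum_le_sum fun N hN => mul_le_mul_of_nonneg_left ?_ (Nat.cast_nonneg _)
    exact (hp N (hlen ▸ Finset.mem_range.mp hN)).2.2 g hg
  have hq' := mul_le_mul_of_nonneg_left hq (mul_nonneg hC.le hW)
  have e1 : (ctot : ℝ) * ((zw : ℝ) * R.1) *
      ((∑ N ∈ Finset.range cs.length, ((cs.getD N 0 : ℕ) : ℝ) / ctot * mo g (power S N))
        + (1 - ∑ N ∈ Finset.range cs.length, ((cs.getD N 0 : ℕ) : ℝ) / ctot) * g 1 0 0)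
      = (∑ N ∈ Finset.range cs.length,
          ((cs.getD N 0 : ℕ) : ℝ) * ((zw : ℝ) * R.1 * mo g (power S N)))
        + ((ctot : ℝ) - (cs.sum : ℕ)) * ((zw : ℝ) * (R.1 * g 1 0 0)) := by
    rw [← Finset.sum_div, hs', mul_add, Finset.mul_sum]
    congr 1
    · exact Finset.sum_congr rfl fun N _ => by field_simp
    · field_simp
  rw [e1] at hq'
  have htc : (top : ℝ) = (ctot : ℝ) - (cs.sum : ℕ) := by
    have : ((top + cs.sum : ℕ) : ℝ) = (ctot : ℝ) := by rw [hsum]
    push_cast at this; push_cast; linarith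
  rw [htc] at h1
  refine le_of_mul_le_mul_left ?_ hC
  linarith

/-- A segment of the recursion for a Poisson number of children. -/
structure SegP where
  /-- Child mesh. -/
  P : Raw
  /-- Mesh of mixtures. -/
  R : Raw
  /-- Shift of the edge image. -/
  e : ℕ
  /-- Slope of the edge image. -/
  k : ℕ
  /-- Scale of the edge image. -/
  d : ℕ
  /-- Radix of the squares of children. -/
  β1 : ℕ
  /-- Radix of the products with one child. -/
  β2 : ℕ
  /-- Radix of the squares of mixtures. -/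
  β3 : ℕ
  /-- Radix of moves. -/
  β4 : ℕ
  /-- Block length. -/
  q : ℕ
  /-- Index of the centre. -/
  mid : ℕ
  /-- Integer probabilities. -/
  cs : List ℕ
  /-- Integer tail. -/
  top : ℕ
  /-- Measures at the start of each step, then the last one. -/
  ws : List ℕ
  /-- Measures of one to seven children. -/
  t1 : List ℕ
  /-- Two children. -/
  t2 : List ℕ
  /-- Three children. -/
  t3 : List ℕ
  /-- Four children. -/
  t4 : List ℕ
  /-- Five children. -/
  t5 : List ℕ
  /-- Six children. -/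
  t6 : List ℕ
  /-- Seven children. -/
  t7 : List ℕ
  /-- A quarter of the mean. -/
  v0 : List ℕ
  /-- Half of the mean. -/
  v1 : List ℕ
  /-- The whole mean. -/
  v2 : List ℕ

/-- The arithmetic conditions on a segment, for mean `4 x` and parameter `l`. -/
structure SegP.Cond (S : SegP) (l x : ℝ) : Prop where
  hP : (gridOf S.P).Good
  hR : (gridOf S.R).Good
  hx : 0 < x
  l0 : -(1 / 2) ≤ l
  l1 : l ≤ 0
  he : (S.d : ℝ) * ((1 - l) / 3) = S.e
  hk : (S.d : ℝ) * l = -(S.k : ℝ)
  hke : S.k ≤ S.e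
  hd : S.d + S.k = 3 * S.e
  d1 : 1 ≤ S.d
  b1 : 2 * (S.d * S.P.1) ^ 2 * zw ^ 2 < S.β1
  b2 : 2 * (S.R.1 * (S.d * S.P.1)) * zw ^ 2 < S.β2
  b3 : 2 * S.R.1 ^ 2 * zw ^ 2 < S.β3
  b4 : S.d * S.P.1 * zw < S.β4
  b5 : S.R.1 * zw < S.β4
  mid : centred S.R S.mid
  clen : S.cs.length = 8
  csum : S.top + S.cs.sum = ctot
  low : LowerLaw x S.cs

/-- The table checks of a segment. -/
structure SegP.Checked (S : SegP) (n : ℕ) : Prop where
  one : checkMove S.β4 (S.d * S.P.1) S.R (S.P.2.1.map (edgeK S.e S.k)) (S.ws.take n) S.t1 = true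
  two : checkSqs S.β1 S.q (S.d * S.P.1) S.R (S.P.2.1.map (edgeK S.e S.k))
    [(S.ws.take n, S.t2)] = true
  more1 : checkMuls S.β2 S.q S.R.1 (S.d * S.P.1) S.R S.R.2.1 (S.P.2.1.map (edgeK S.e S.k))
    [(S.t2, S.ws.take n, S.t3), (S.t3, S.ws.take n, S.t4)] = true
  more2 : checkMuls S.β2 S.q S.R.1 (S.d * S.P.1) S.R S.R.2.1 (S.P.2.1.map (edgeK S.e S.k))
    [(S.t4, S.ws.take n, S.t5), (S.t5, S.ws.take n, S.t6), (S.t6, S.ws.take n, S.t7)] = true
  mixed : checkBlend S.R.2.1.length S.mid S.cs S.top [S.t1, S.t2, S.t3, S.t4, S.t5, S.t6, S.t7]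
    S.v0 = true
  squares : checkSqs S.β3 S.q S.R.1 S.R S.R.2.1 [(S.v0, S.v1), (S.v1, S.v2)] = true
  back : checkMove S.β4 S.R.1 S.P S.R.2.1 S.v2 (S.ws.drop 1) = true

/-- All stored lists are long enough. -/
def SegP.long (S : SegP) (n : ℕ) : Prop :=
  n ≤ S.ws.length ∧ n ≤ S.t2.length ∧ n ≤ S.t3.length ∧ n ≤ S.t4.length ∧ n ≤ S.t5.length ∧
    n ≤ S.t6.length ∧ n ≤ S.v0.length ∧ n ≤ S.v1.length ∧ n ≤ S.v2.length

/-- The bound at one depth of the Poisson tree. -/
def ReachP (D l : ℝ) (M : Raw) (i : ℕ) (w : List ℕ) : Prop :=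
  ZBd (tab (poissonLaw D) l i) M.2.1 M.1 w

lemma reachP_start {D l : ℝ} {M : Raw} (hM : (gridOf M).Good) {w : List ℕ}
    (hw : w = zw :: List.replicate (M.2.1.length - 1) 0) : ReachP D l M 0 w := by
  obtain ⟨R, hR⟩ := hM.head
  subst hw
  refine ⟨by simp, fun g hg => ?_⟩
  have hz : zs (zw :: List.replicate (M.2.1.length - 1) 0) (M.2.1.map (gv g))
      = zw * gv g (M.1, 0, 0) := by
    rw [show M.2.1 = (M.1, 0, 0) :: R from hR, List.map_cons, zs, zs_zero, add_zero]
  have hm : mo g (tab (poissonLaw D) l 0) = g 1 0 0 := by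
    rw [mo]
    change (∑' s : Fin 3, row g (tab (poissonLaw D) l 0 s)) / 3 = _
    rw [tsum_fintype]
    simp only [leaf_row _ (fun a b e => hg.rot a b e), Finset.sum_const, Finset.card_univ,
      Fintype.card_fin]
    ring
  rw [hz, hm]
  have := hg.hom M.1 (Nat.cast_nonneg _) 1 0 0
  simp only [mul_one, mul_zero] at this
  simp only [gv, Nat.cast_zero, this]
  exact le_of_eq (by ring)

lemma segP_step {S : SegP} {l x : ℝ} {n : ℕ} (hc : S.Cond l x) (hk : S.Checked n)
    (hl : S.long n) {i j : ℕ} (hj : j < n)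
    (h : ReachP (2 * (2 * x)) l S.P i (unpack S.P.2.1.length (S.ws.getD j 0))) :
    ReachP (2 * (2 * x)) l S.P (i + 1) (unpack S.P.2.1.length (S.ws.getD (j + 1) 0)) := by
  obtain ⟨lw, l2, l3, l4, l5, l6, m0, m1, m2⟩ := hl
  have hD : 0 < 2 * (2 * x) := by have := hc.hx; linarith
  have hok := tab_ok (poisson_law hD) hc.l0 (by linarith [hc.l1]) i
  have ho := shift_ok_adm hc.l0 (by linarith [hc.l1]) hok
  have hs := shift_sw l (tab_sw (poissonLaw (2 * (2 * x))) l i)
  have hU : Tot (S.d * S.P.1) (S.P.2.1.map (edgeAt S.e S.k)) :=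
    tot_edgeAt hc.hke hc.hd hc.hP.tot
  have hS := zbd_shift hc.l0 hc.l1 hc.he hc.hk h
  have hdP : 1 ≤ S.d * S.P.1 := Nat.mul_pos hc.d1 hc.hP.pos
  have htk : (S.ws.take n).getD j 0 = S.ws.getD j 0 := take_getD _ hj
  have hlen : j < (S.ws.take n).length := by rw [List.length_take]; omega
  have c1 := checkMove_sound hk.one hlen
  have c2 := checkSqs_sound hk.two (p := (S.ws.take n, S.t2)) (by simp) hlen
  have c3 := checkMuls_sound hk.more1 (p := (S.t2, S.ws.take n, S.t3)) (by simp) (i := j)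
    (by simp; omega)
  have c4 := checkMuls_sound hk.more1 (p := (S.t3, S.ws.take n, S.t4)) (by simp) (i := j)
    (by simp; omega)
  have c5 := checkMuls_sound hk.more2 (p := (S.t4, S.ws.take n, S.t5)) (by simp) (i := j)
    (by simp; omega)
  have c6 := checkMuls_sound hk.more2 (p := (S.t5, S.ws.take n, S.t6)) (by simp) (i := j)
    (by simp; omega)
  have c7 := checkMuls_sound hk.more2 (p := (S.t6, S.ws.take n, S.t7)) (by simp) (i := j)
    (by simp; omega)
  have c8 := checkBlend_sound hk.mixed (j := j) (by omega)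
  have c9 := checkSqs_sound hk.squares (p := (S.v0, S.v1)) (by simp) (i := j) (by simp; omega)
  have c10 := checkSqs_sound hk.squares (p := (S.v1, S.v2)) (by simp) (i := j) (by simp; omega)
  have c11 := checkMove_sound hk.back (i := j) (by omega)
  simp only [edgeK_eq, List.length_map, htk, gridOf] at c1 c2 c3 c4 c5 c6 c7 c9 c10
  rw [drop_getD] at c11
  simp only [gridOf] at c11
  generalize hT : shift l (tab (poissonLaw (2 * (2 * x))) l i) = T at ho hs hS
  have hpow : ∀ N, Ok (power T N) := power_ok T ho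
  have hRgood : (⟨S.R.1, S.R.2.1, S.R.2.2⟩ : Grid).Good := hc.hR
  have hPgood : (⟨S.P.1, S.P.2.1, S.P.2.2⟩ : Grid).Good := hc.hP
  have p1 : ZBd (power T 1) S.R.2.1 S.R.1 (unpack S.R.2.1.length (S.t1.getD j 0)) := by
    have := zbd_move (β := S.β4) hRgood hdP hU hc.b4 hS
    rw [c1] at this
    exact zbd_le this fun g _ => (mo_power_one T g).le
  have p2 : ZBd (power T 2) S.R.2.1 S.R.1 (unpack S.R.2.1.length (S.t2.getD j 0)) := by
    have := zbd_sq (β := S.β1) (q := S.q) ho hs hRgood hdP hU hc.b1 hS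
    rw [c2] at this
    refine zbd_le this fun g hg => le_of_eq ?_
    rw [mo_power_succ, mo_pair hg (hpow 1) ho, mo_power_one, ← mo_pair hg ho ho]
  have next_ : ∀ (N : ℕ) (u : List ℕ), ZBd (power T N) S.R.2.1 S.R.1 u →
      ZBd (power T (N + 1)) S.R.2.1 S.R.1
        (mulStep S.β2 S.q ⟨S.R.1, S.R.2.1, S.R.2.2⟩ S.R.1 (S.d * S.P.1)
          (mulTab S.β2 S.q ⟨S.R.1, S.R.2.1, S.R.2.2⟩ S.R.2.1 (S.P.2.1.map (edgeAt S.e S.k))) u
          (unpack S.P.2.1.length (S.ws.getD j 0))) := fun N u hu =>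
    zbd_le (zbd_mul (β := S.β2) (q := S.q) (M := ⟨S.R.1, S.R.2.1, S.R.2.2⟩) (hpow N) ho hs hRgood
      hc.hR.pos hdP hc.hR.tot hU hc.b2 hu hS) fun g _ => (mo_power_succ T g N).le
  have p3 := next_ 2 _ p2
  rw [c3] at p3
  have p4 := next_ 3 _ p3
  rw [c4] at p4
  have p5 := next_ 4 _ p4
  rw [c5] at p5
  have p6 := next_ 5 _ p5
  rw [c6] at p6
  have p7 := next_ 6 _ p6
  rw [c7] at p7
  obtain ⟨cc, hc3, hmid⟩ := hc.mid
  obtain ⟨hmidlt, -⟩ := List.getElem?_eq_some_iff.mp hmid
  have p0 : ZBd (power T 0) S.R.2.1 S.R.1 (unitAt S.R.2.1.length S.mid) := by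
    refine ⟨(unitAt_spec _ _ (S.R.2.1.map fun _ => (0 : ℝ)) (by simp) hmidlt).2.1,
      fun g hg => ?_⟩
    rw [(unitAt_spec _ _ (S.R.2.1.map (gv g)) (by simp) hmidlt).2.2, List.getD_eq_getElem?_getD,
      List.getElem?_map, hmid, Option.map_some, Option.getD_some, power_zero_mom, hc3, gv]
    have := hg.hom cc (Nat.cast_nonneg _) 1 1 1
    simp only [mul_one] at this
    simp only [this]
    push_cast
    exact le_of_eq (by ring)
  have hlist : ∀ N < (powersAt S.R.2.1.length S.mid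
      [S.t1, S.t2, S.t3, S.t4, S.t5, S.t6, S.t7] j).length,
      ((powersAt S.R.2.1.length S.mid [S.t1, S.t2, S.t3, S.t4, S.t5, S.t6, S.t7] j).getD N []).length
          = S.R.2.1.length ∧
        ZBd (power T N) S.R.2.1 S.R.1
          ((powersAt S.R.2.1.length S.mid [S.t1, S.t2, S.t3, S.t4, S.t5, S.t6, S.t7] j).getD N []) := by
    intro N hN
    simp only [powersAt, List.map_cons, List.map_nil, List.length_cons, List.length_nil] at hN ⊢
    interval_cases N <;> simp only [List.getD_cons_succ, List.getD_cons_zero]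
    · exact ⟨(unitAt_spec _ _ (S.R.2.1.map fun _ => (0 : ℝ)) (by simp) hmidlt).1, p0⟩
    all_goals exact ⟨unpack_len _ _, by assumption⟩
  have q0 := blend_mix (i := S.mid) ho hc.hx hc.hR
    (by simp [powersAt, hc.clen]) hc.csum hc.low hlist hmidlt
  rw [c8] at q0
  have o0 := mix_ok (poisson_law hc.hx) ho
  have w0 := mix_sw (poissonLaw x) hs
  have hx2 : 0 < 2 * x := by have := hc.hx; linarith
  have q1 := zbd_sq (β := S.β3) (q := S.q) o0 w0 hRgood hc.hR.pos hc.hR.tot hc.b3 q0
  simp only [gridOf] at q1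
  rw [c9] at q1
  have q1' := zbd_le (L' := mix (poissonLaw (2 * x)) T) q1
    fun g hg => (mo_mix_twice hc.hx ho hs hg).ge
  have o1 := mix_ok (poisson_law hx2) ho
  have w1 := mix_sw (poissonLaw (2 * x)) hs
  have q2 := zbd_sq (β := S.β3) (q := S.q) o1 w1 hRgood hc.hR.pos hc.hR.tot hc.b3 q1'
  simp only [gridOf] at q2
  rw [c10] at q2
  have q2' := zbd_le (L' := mix (poissonLaw (2 * (2 * x))) T) q2
    fun g hg => (mo_mix_twice hx2 ho hs hg).ge
  have q3 := zbd_move (β := S.β4) hPgood hc.hR.pos hc.hR.tot hc.b5 q2'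
  simp only [gridOf] at q3
  rw [c11] at q3
  refine zbd_le q3 fun g _ => ?_
  rw [mo_tab_succ, hT]

lemma segP_reach {S : SegP} {l x : ℝ} {n : ℕ} (hc : S.Cond l x) (hk : S.Checked n)
    (hl : S.long n) {i : ℕ}
    (h : ReachP (2 * (2 * x)) l S.P i (unpack S.P.2.1.length (S.ws.getD 0 0))) :
    ∀ j, j ≤ n → ReachP (2 * (2 * x)) l S.P (i + j) (unpack S.P.2.1.length (S.ws.getD j 0))
  | 0, _ => h
  | j + 1, hj => by
    rw [← add_assoc]
    exact segP_step hc hk hl (by omega) (segP_reach hc hk hl h j (by omega))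

/-- Ten-cubed scaled potential with weight `3/10`. -/
noncomputable def threeBelow (p r : ℕ) (M : Raw) (w : List ℕ) : Bool :=
  decide (r * dot w (M.2.1.map (score M.1)) ≤ 10 * p * zw * M.1 ^ 4)

lemma dot_three (n : ℕ) (hn : 0 < n) : ∀ (V : List Pt) (w : List ℕ),
    (∀ p ∈ V, p.1 + p.2.1 + p.2.2 = n ∧ p.2.2 ≤ p.2.1 ∧ p.2.1 ≤ p.1) →
    10 * (n : ℝ) ^ 3 * zs w (V.map (gv (mPhi (3 / 10)))) = (dot w (V.map (score n)) : ℕ)
  | [], w, _ => by cases w <;> simp [zs, dot]
  | y :: V, [], _ => by simp [zs, dot]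
  | y :: V, a :: w, h => by
    obtain ⟨h1, h2, h3⟩ := h y List.mem_cons_self
    have ih := dot_three n hn V w fun p hp => h p (List.mem_cons_of_mem y hp)
    rw [List.map_cons, List.map_cons, dot_cons, zs, Nat.cast_add, ← ih, mul_add, Nat.cast_mul]
    congr 1
    have e : 10 * (n : ℝ) ^ 3 * gv (mPhi (3 / 10)) y = (score n y : ℕ) := by
      obtain ⟨p, q, r⟩ := y
      simp only [gv, score] at h1 h2 h3 ⊢
      have ht : tot (p : ℝ) q r = n := by simp only [tot]; exact_mod_cast h1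
      simp only [mPhi, mA, mQ, ht]
      simp only [quad, dif, rc]
      push_cast [Nat.cast_sub h2, Nat.cast_sub h3]
      have : (n : ℝ) ≠ 0 := by exact_mod_cast hn.ne'
      field_simp
      ring
    rw [← e]
    ring

lemma three_mo {ι : Type} {L : Lik ι} {M : Raw} {w : List ℕ} {p r : ℕ} (hs : sortedB M = true)
    (hM : (gridOf M).Good) (hr : 0 < r) (hb : ZBd L M.2.1 M.1 w)
    (ht : threeBelow p r M w = true) : mo (mPhi (3 / 10)) L ≤ (p : ℝ) / r := by
  simp only [threeBelow, decide_eq_true_eq] at ht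
  simp only [sortedB, List.all_eq_true, Bool.and_eq_true] at hs
  have hn : 0 < M.1 := hM.pos
  have h1 := hb.2 _ (cvx_mPhi (show (0 : ℝ) ≤ 3 / 10 by norm_num))
  have h2 := dot_three M.1 hn M.2.1 w fun y hy =>
    ⟨Nat.eq_of_beq_eq_true (hs y hy).1.1, Nat.le_of_ble_eq_true (hs y hy).1.2,
      Nat.le_of_ble_eq_true (hs y hy).2⟩
  have h3 : (r : ℝ) * (dot w (M.2.1.map (score M.1)) : ℕ)
      ≤ 10 * p * zw * (M.1 : ℝ) ^ 4 := by exact_mod_cast ht
  rw [← h2] at h3
  have hN : (0 : ℝ) < 10 * (M.1 : ℝ) ^ 4 * zw := by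
    have : (0 : ℝ) < M.1 := by exact_mod_cast hn
    positivity
  rw [le_div_iff₀ (by exact_mod_cast hr)]
  have h4 := mul_le_mul_of_nonneg_left h1 (by positivity : (0 : ℝ) ≤ 10 * (M.1 : ℝ) ^ 3 * r)
  refine le_of_mul_le_mul_left ?_ hN
  linarith

end Zoom

end Four

end Window

end Vale.Agent.P154
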