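import Vale.Agent.P154.Window.Four.Cvx
import Vale.Agent.P154.Window.Four.Mesh

/-!
Meaning of the packed table entries: each stands for a nonnegative integer combination of mesh
points that bounds the quantity it was built from.
-/

namespace Vale.Agent.P154

namespace Window

namespace Four

variable {g : ℝ → ℝ → ℝ → ℝ}

/-- A function at a lattice point. -/
def gv (g : ℝ → ℝ → ℝ → ℝ) (p : Pt) : ℝ := g p.1 p.2.1 p.2.2

/-- Weighted sum. -/
def zs : List ℕ → List ℝ → ℝ
  | a :: l, x :: r => a * x + zs l r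
  | _, _ => 0

/-- The packed value of a coefficient list. -/
def pk : List ℕ → ℕ
  | [] => 0
  | a :: l => a + slot * pk l

/-- Equal totals. -/
def Tot (t : ℕ) (V : List Pt) : Prop := ∀ p ∈ V, p.1 + p.2.1 + p.2.2 = t

/-- `P` packs coefficients of total at most `T` whose combination of the values `G` is at least
`X`. -/
def Rep (G : List ℝ) (P : ℕ) (X : ℝ) (T : ℕ) : Prop :=
  ∃ c : List ℕ, c.length = G.length ∧ P = pk c ∧ c.sum ≤ T ∧ X ≤ zs c G

lemma zs_zero (G : List ℝ) : ∀ k, zs (List.replicate k 0) G = 0 := by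
  induction G with
  | nil => intro k; cases k <;> rfl
  | cons x r ih => intro k; cases k <;> simp [List.replicate_succ, zs, ih]

lemma pk_zero : ∀ k, pk (List.replicate k 0) = 0
  | 0 => rfl
  | k + 1 => by simp [List.replicate_succ, pk, pk_zero k]

lemma Rep.zero (G : List ℝ) {X : ℝ} (hX : X ≤ 0) (T : ℕ) : Rep G 0 X T :=
  ⟨List.replicate G.length 0, by simp, (pk_zero _).symm, by simp, by rw [zs_zero]; exact hX⟩

lemma Rep.mono {G : List ℝ} {P : ℕ} {X Y : ℝ} {T U : ℕ} (h : Rep G P X T) (hX : Y ≤ X)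
    (hT : T ≤ U) : Rep G P Y U := by
  obtain ⟨c, h1, h2, h3, h4⟩ := h
  exact ⟨c, h1, h2, le_trans h3 hT, le_trans hX h4⟩

lemma add_aux : ∀ (c d : List ℕ) (G : List ℝ), c.length = G.length → d.length = G.length →
    (List.zipWith (fun a b : ℕ => a + b) c d).length = G.length ∧
    pk (List.zipWith (fun a b : ℕ => a + b) c d) = pk c + pk d ∧
    (List.zipWith (fun a b : ℕ => a + b) c d).sum = c.sum + d.sum ∧
    zs (List.zipWith (fun a b : ℕ => a + b) c d) G = zs c G + zs d G
  | [], [], [], _, _ => by simp [pk, zs]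
  | a :: c, b :: d, x :: G, hc, hd => by
    obtain ⟨e1, e2, e3, e4⟩ := add_aux c d G (by simpa using hc) (by simpa using hd)
    refine ⟨by simpa using e1, ?_, ?_, ?_⟩
    · simp only [List.zipWith_cons_cons, pk, e2]; ring
    · simp only [List.zipWith_cons_cons, List.sum_cons, e3]; ring
    · simp only [List.zipWith_cons_cons, zs, e4]; push_cast; ring
  | [], _ :: _, [], _, hd => by simp at hd
  | _ :: _, _, [], hc, _ => by simp at hc
  | [], _, _ :: _, hc, _ => by simp at hc
  | _ :: _, [], _ :: _, _, hd => by simp at hd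

lemma Rep.add {G : List ℝ} {P Q : ℕ} {X Y : ℝ} {T U : ℕ} (h : Rep G P X T) (h' : Rep G Q Y U) :
    Rep G (P + Q) (X + Y) (T + U) := by
  obtain ⟨c, h1, h2, h3, h4⟩ := h
  obtain ⟨d, k1, k2, k3, k4⟩ := h'
  obtain ⟨e1, e2, e3, e4⟩ := add_aux c d G h1 k1
  exact ⟨_, e1, by rw [e2, h2, k2], by rw [e3]; exact add_le_add h3 k3,
    by rw [e4]; exact add_le_add h4 k4⟩

lemma smul_aux (a : ℕ) : ∀ (c : List ℕ) (G : List ℝ),
    pk (c.map fun x => a * x) = a * pk c ∧ (c.map fun x => a * x).sum = a * c.sum ∧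
    zs (c.map fun x => a * x) G = a * zs c G
  | [], G => by cases G <;> simp [pk, zs]
  | x :: c, G => by
    obtain ⟨e2, e3, -⟩ := smul_aux a c []
    refine ⟨?_, ?_, ?_⟩
    · simp only [List.map_cons, pk, e2]; ring
    · simp only [List.map_cons, List.sum_cons, e3]; ring
    · rcases G with _ | ⟨y, G⟩
      · simp [zs]
      · simp only [List.map_cons, zs, (smul_aux a c G).2.2]; push_cast; ring

lemma Rep.smul {G : List ℝ} {P : ℕ} {X : ℝ} {T : ℕ} (a : ℕ) (h : Rep G P X T) :
    Rep G (a * P) (a * X) (a * T) := by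
  obtain ⟨c, h1, h2, h3, h4⟩ := h
  obtain ⟨e2, e3, e4⟩ := smul_aux a c G
  exact ⟨c.map fun x => a * x, by simpa using h1, by rw [e2, h2],
    by rw [e3]; exact Nat.mul_le_mul_left _ h3,
    by rw [e4]; exact mul_le_mul_of_nonneg_left h4 (Nat.cast_nonneg _)⟩

lemma one_aux (c : ℕ) : ∀ (G : List ℝ) (i : ℕ) (x : ℝ), G[i]? = some x →
    ((List.replicate G.length 0).set i c).length = G.length ∧
    pk ((List.replicate G.length 0).set i c) = c * slot ^ i ∧
    ((List.replicate G.length 0).set i c).sum = c ∧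
    zs ((List.replicate G.length 0).set i c) G = c * x
  | [], i, x, h => by simp at h
  | y :: G, 0, x, h => by
    simp at h
    subst h
    simp [List.replicate_succ, pk, zs, pk_zero, zs_zero]
  | y :: G, i + 1, x, h => by
    obtain ⟨e1, e2, e3, e4⟩ := one_aux c G i x (by simpa using h)
    refine ⟨by simp, ?_, ?_, ?_⟩
    · simp only [List.length_cons, List.replicate_succ, List.set_cons_succ, pk, e2, pow_succ]
      ring
    · simp only [List.length_cons, List.replicate_succ, List.set_cons_succ, List.sum_cons, e3,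
        zero_add]
    · simp only [List.length_cons, List.replicate_succ, List.set_cons_succ, zs, e4, Nat.cast_zero,
        zero_mul, zero_add]

/-- All lattice points of total `n` are found in the mesh. -/
def Look (n tb : ℕ) (V : List Pt) : Prop :=
  ∀ a < n + 1, ∀ b < n + 1, a + b ≤ n →
    ∃ p ∈ orders (a, b, n - a - b), V[look n tb a b]? = some p

/-- A test for `Look`. -/
noncomputable def lookB (n : ℕ) : Bool :=
  forceN (lookTab n (mesh n)) fun tb =>
    (List.range (n + 1)).all fun a => (List.range (n + 1 - a)).all fun b =>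
      (orders (a, b, n - a - b)).any fun p => decide ((mesh n)[look n tb a b]? = some p)

lemma forceN_eq {β : Type} (a : ℕ) (k : ℕ → β) : forceN a k = k a := by
  cases a <;> rfl

lemma look_of {n : ℕ} (h : lookB n = true) : Look n (lookTab n (mesh n)) (mesh n) := by
  intro a ha b hb hab
  rw [lookB, forceN_eq] at h
  simp only [List.all_eq_true, List.any_eq_true, decide_eq_true_eq, List.mem_range] at h
  exact h a ha b (by omega)

lemma gv_orders (hg : Cvx g) {q p : Pt} (h : p ∈ orders q) : gv g p = gv g q := by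
  obtain ⟨a, b, c⟩ := q
  simp only [orders, List.mem_cons, List.not_mem_nil, or_false] at h
  rcases h with rfl | rfl | rfl | rfl | rfl | rfl <;> simp only [gv]
  · exact hg.rot _ _ _
  · exact (hg.rot _ _ _).trans (hg.rot _ _ _)
  · exact hg.swap _ _ _
  · exact hg.swap01 _ _ _
  · exact hg.swap02 _ _ _

lemma put_rep (hg : Cvx g) {n tb : ℕ} {V : List Pt} (hl : Look n tb V) {c a b e : ℕ}
    (hn : a + b + e = n) : Rep (V.map (gv g)) (put n tb c a b) (c * gv g (a, b, e)) c := by
  obtain ⟨p, hp, hV⟩ := hl a (by omega) b (by omega) (by omega)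
  obtain ⟨e1, e2, e3, e4⟩ := one_aux c (V.map (gv g)) (look n tb a b) (gv g p)
    (by simp [hV])
  refine ⟨_, e1, ?_, e3.le, ?_⟩
  · rw [e2]; rfl
  · rw [e4, gv_orders hg hp, show n - a - b = e by omega]

lemma three (hg : Cvx g) {n S : ℕ} {p q r : ℕ} {c : Fin 3 → ℕ} {u : Fin 3 → Pt}
    (h1 : c 0 * (u 0).1 + c 1 * (u 1).1 + c 2 * (u 2).1 = n * p)
    (h2 : c 0 * (u 0).2.1 + c 1 * (u 1).2.1 + c 2 * (u 2).2.1 = n * q)
    (h3 : c 0 * (u 0).2.2 + c 1 * (u 1).2.2 + c 2 * (u 2).2.2 = n * r)
    (_hS : p + q + r = S) :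
    (n : ℝ) * gv g (p, q, r)
      ≤ c 0 * gv g (u 0) + c 1 * gv g (u 1) + c 2 * gv g (u 2) := by
  have e : ∀ i, (c i : ℝ) * gv g (u i)
      = g (c i * (u i).1) (c i * (u i).2.1) (c i * (u i).2.2) := fun i =>
    (hg.hom _ (Nat.cast_nonneg _) _ _ _).symm
  have k1 : (n : ℝ) * p = c 0 * (u 0).1 + c 1 * (u 1).1 + c 2 * (u 2).1 := by exact_mod_cast h1.symm
  have k2 : (n : ℝ) * q = c 0 * (u 0).2.1 + c 1 * (u 1).2.1 + c 2 * (u 2).2.1 := by
    exact_mod_cast h2.symm
  have k3 : (n : ℝ) * r = c 0 * (u 0).2.2 + c 1 * (u 1).2.2 + c 2 * (u 2).2.2 := by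
    exact_mod_cast h3.symm
  rw [e, e, e, gv, ← hg.hom _ (Nat.cast_nonneg n), k1, k2, k3]
  refine hg.add3 ?_ ?_ ?_ ?_ ?_ ?_ ?_ ?_ ?_ <;> positivity

lemma split_rep (hg : Cvx g) {n tb : ℕ} {V : List Pt} (_hn : 1 ≤ n) (hl : Look n tb V)
    (p q r : ℕ) : Rep (V.map (gv g)) (split n tb p q r) (n * gv g (p, q, r)) (p + q + r) := by
  simp only [split, forceN_eq, splitAt, Nat.add_eq, Nat.mul_eq, Nat.sub_eq, Nat.succ_eq_add_one]
  generalize hS : p + q + r = S
  have hd : ∀ x, Nat.div x S = x / S := fun x => rfl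
  have hm : ∀ x, Nat.mod x S = x % S := fun x => rfl
  simp only [hd, hm]
  rcases Nat.eq_zero_or_pos S with h0 | hpos
  · obtain ⟨rfl, rfl, rfl⟩ : p = 0 ∧ q = 0 ∧ r = 0 := by omega
    have hz : gv g (0, 0, 0) = 0 := by
      have := hg.hom 0 le_rfl 1 0 0
      simpa [gv] using this
    subst h0
    simp only [Nat.mul_zero, Nat.zero_mod, Nat.zero_div, Nat.add_zero, Nat.beq_refl, cond_true,
      put, Nat.mul_eq, Nat.zero_mul]
    exact Rep.zero _ (by simp [hz]) _
  · have d0 := Nat.div_add_mod (n * p) S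
    have d1 := Nat.div_add_mod (n * q) S
    have d2 := Nat.div_add_mod (n * r) S
    have l0 := Nat.mod_lt (n * p) hpos
    have l1 := Nat.mod_lt (n * q) hpos
    have l2 := Nat.mod_lt (n * r) hpos
    generalize n * p / S = a0 at *
    generalize n * q / S = a1 at *
    generalize n * r / S = a2 at *
    generalize hb0 : n * p % S = b0 at *
    generalize hb1 : n * q % S = b1 at *
    generalize hb2 : n * r % S = b2 at *
    have hsum : S * (a0 + a1 + a2) + (b0 + b1 + b2) = n * S := by
      subst hS; linarith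
    have hle : a0 + a1 + a2 ≤ n :=
      Nat.le_of_mul_le_mul_left (by rw [mul_comm S n]; omega) hpos
    have hge : n < a0 + a1 + a2 + 3 :=
      Nat.lt_of_mul_lt_mul_left (a := S) (by rw [mul_add S _ 3, mul_comm S n]; omega)
    obtain ⟨k, hk, hn'⟩ : ∃ k, b0 + b1 + b2 = k * S ∧ n = a0 + a1 + a2 + k := by
      refine ⟨n - (a0 + a1 + a2), ?_, by omega⟩
      rw [Nat.sub_mul, mul_comm (a0 + a1 + a2) S]
      omega
    have hk3 : k = 0 ∨ k = 1 ∨ k = 2 := by omega
    rcases hk3 with rfl | rfl | rfl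
    · obtain ⟨rfl, rfl, rfl⟩ : b0 = 0 ∧ b1 = 0 ∧ b2 = 0 := by omega
      have f1 : Nat.beq (0 + 0 + 0) S = false := by
        cases h : Nat.beq (0 + 0 + 0) S with
        | false => rfl
        | true => have := Nat.eq_of_beq_eq_true h; omega
      have f2 : Nat.beq (0 + 0 + 0) (2 * S) = false := by
        cases h : Nat.beq (0 + 0 + 0) (2 * S) with
        | false => rfl
        | true => have := Nat.eq_of_beq_eq_true h; omega
      rw [f1, f2]
      refine (put_rep hg hl (e := a2) (by omega)).mono ?_ le_rfl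
      refine le_trans (three (S := S) hg (c := ![S, 0, 0]) (u := fun _ => (a0, a1, a2))
        (by simp; omega) (by simp; omega) (by simp; omega) hS) (by simp)
    · have f1 : Nat.beq (b0 + b1 + b2) S = true := by
        rw [hk, one_mul]; exact Nat.beq_refl _
      rw [f1]
      refine (((put_rep hg hl (e := a2) (by omega)).add (put_rep hg hl (e := a2) (by omega))).add
        (put_rep hg hl (e := a2 + 1) (by omega))).mono ?_ (by omega)
      refine three (S := S) hg (c := ![b0, b1, b2])
        (u := ![(a0 + 1, a1, a2), (a0, a1 + 1, a2), (a0, a1, a2 + 1)]) ?_ ?_ ?_ hS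
      · simp [← d0]; linear_combination a0 * hk
      · simp [← d1]; linear_combination a1 * hk
      · simp [← d2]; linear_combination a2 * hk
    · have f1 : Nat.beq (b0 + b1 + b2) S = false := by
        cases h : Nat.beq (b0 + b1 + b2) S with
        | false => rfl
        | true => have := Nat.eq_of_beq_eq_true h; omega
      have f2 : Nat.beq (b0 + b1 + b2) (2 * S) = true := by
        rw [hk]; exact Nat.beq_refl _
      rw [f1, f2]
      refine (((put_rep hg hl (e := a2 + 1) (by omega)).add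
        (put_rep hg hl (e := a2 + 1) (by omega))).add
        (put_rep hg hl (e := a2) (by omega))).mono ?_ (by omega)
      refine three (S := S) hg (c := ![S - b0, S - b1, S - b2])
        (u := ![(a0, a1 + 1, a2 + 1), (a0 + 1, a1, a2 + 1), (a0 + 1, a1 + 1, a2)]) ?_ ?_ ?_ hS
      · simp [← d0]
        zify [l0.le, l1.le, l2.le] at *
        linear_combination (-(a0 : ℤ) - 1) * hk
      · simp [← d1]
        zify [l0.le, l1.le, l2.le] at *
        linear_combination (-(a1 : ℤ) - 1) * hk
      · simp [← d2]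
        zify [l0.le, l1.le, l2.le] at *
        linear_combination (-(a2 : ℤ) - 1) * hk

/-- The bilinear value of two mesh points. -/
def F6 (g : ℝ → ℝ → ℝ → ℝ) (x y : Pt) : ℝ :=
  sym6 g ![(x.1 : ℝ), x.2.1, x.2.2] ![(y.1 : ℝ), y.2.1, y.2.2]

lemma six_rep (hg : Cvx g) {n tb : ℕ} {V : List Pt} (hn : 1 ≤ n) (hl : Look n tb V) (x y : Pt)
    {t : ℕ} (hx : x.1 + x.2.1 + x.2.2 = t) (hy : y.1 + y.2.1 + y.2.2 = t) :
    Rep (V.map (gv g)) (six n tb x y) (n * F6 g x y) (2 * t ^ 2) := by
  obtain ⟨a, b, c⟩ := x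
  obtain ⟨u, v, w⟩ := y
  simp only [six, forceN_eq, Nat.add_eq, Nat.mul_eq]
  refine ((((((split_rep hg hn hl (a * u) (b * v) (c * w)).add
    (split_rep hg hn hl (a * v) (b * w) (c * u))).add
    (split_rep hg hn hl (a * w) (b * u) (c * v))).add
    (split_rep hg hn hl (a * u) (b * w) (c * v))).add
    (split_rep hg hn hl (a * v) (b * u) (c * w))).add
    (split_rep hg hn hl (a * w) (b * v) (c * u))).mono ?_ ?_
  · simp only [F6, sym6, gv, Matrix.cons_val_zero, Matrix.cons_val_one, Matrix.cons_val,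
      Nat.cast_mul]
    exact le_of_eq (by ring)
  · dsimp only at hx hy
    exact le_of_eq (by rw [sq]; conv_rhs => rw [← mul_assoc]; arg 2; rw [← hy]
                       rw [← hx]; ring)

end Four

end Window

end Vale.Agent.P154
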