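import Vale.Agent.P154.Window.Four.Cvx

/-!
The moment functions of the potential belong to the sublinear symmetric class.
-/

namespace Vale.Agent.P154

namespace Window

namespace Four

lemma cvx_mA : Cvx mA := by
  refine ⟨fun p q r hp hq hr => mA_nonneg hp hq hr, fun a b c x y z ha hb hc hx hy hz => ?_,
    fun k _ => mA_scale k, mA_rot, mA_swap⟩
  rcases eq_or_lt_of_le (tot_nonneg ha hb hc) with h | h
  · simp only [tot] at h
    obtain ⟨rfl, rfl, rfl⟩ : a = 0 ∧ b = 0 ∧ c = 0 := ⟨by linarith, by linarith, by linarith⟩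
    simp [mA, quad, dif, rc, tot]
  rcases eq_or_lt_of_le (tot_nonneg hx hy hz) with h' | h'
  · simp only [tot] at h'
    obtain ⟨rfl, rfl, rfl⟩ : x = 0 ∧ y = 0 ∧ z = 0 := ⟨by linarith, by linarith, by linarith⟩
    simp [mA, quad, dif, rc, tot]
  have ht : tot (a + x) (b + y) (c + z) = tot a b c + tot x y z := by simp only [tot]; ring
  simp only [mA, ht]
  rw [div_add_div _ _ h.ne' h'.ne', div_le_div_iff₀ (add_pos h h') (mul_pos h h')]
  generalize hs : tot a b c = s at *
  generalize hu : tot x y z = u at *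
  simp only [quad, dif, rc]
  push_cast
  linarith [sq_nonneg (u * (a - b) - s * (x - y)), sq_nonneg (u * (b - c) - s * (y - z)),
    sq_nonneg (u * (a - c) - s * (x - z))]

lemma mQ_eq {p q r : ℝ} : mQ p q r = mA p q r ^ 2 / tot p q r := by
  rw [mQ, mA, div_pow, div_div]
  ring_nf

lemma cvx_mQ : Cvx mQ := by
  refine ⟨fun p q r hp hq hr => mQ_nonneg hp hq hr, fun a b c x y z ha hb hc hx hy hz => ?_,
    fun k _ => mQ_scale k, fun p q r => ?_, fun p q r => ?_⟩
  · rcases eq_or_lt_of_le (tot_nonneg ha hb hc) with h | h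
    · simp only [tot] at h
      obtain ⟨rfl, rfl, rfl⟩ : a = 0 ∧ b = 0 ∧ c = 0 := ⟨by linarith, by linarith, by linarith⟩
      simp [mQ, quad, dif, rc, tot]
    rcases eq_or_lt_of_le (tot_nonneg hx hy hz) with h' | h'
    · simp only [tot] at h'
      obtain ⟨rfl, rfl, rfl⟩ : x = 0 ∧ y = 0 ∧ z = 0 := ⟨by linarith, by linarith, by linarith⟩
      simp [mQ, quad, dif, rc, tot]
    have h1 := cvx_mA.add a b c x y z ha hb hc hx hy hz
    have h0 : 0 ≤ mA (a + x) (b + y) (c + z) :=
      mA_nonneg (add_nonneg ha hx) (add_nonneg hb hy) (add_nonneg hc hz)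
    have ht : tot (a + x) (b + y) (c + z) = tot a b c + tot x y z := by simp only [tot]; ring
    simp only [mQ_eq, ht]
    refine le_trans (div_le_div_of_nonneg_right (pow_le_pow_left₀ h0 h1 2) (add_pos h h').le) ?_
    generalize mA a b c = A
    generalize mA x y z = B
    generalize tot a b c = s at h
    generalize tot x y z = u at h'
    rw [div_add_div _ _ h.ne' h'.ne', div_le_div_iff₀ (add_pos h h') (mul_pos h h')]
    linarith [sq_nonneg (A * u - B * s)]
  · simp only [mQ, quad_rot p q r, tot_rot p q r]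
  · simp only [mQ, quad_swap p q r, tot_swap p q r]

lemma cvx_mPhi {k : ℝ} (hk : 0 ≤ k) : Cvx (mPhi k) := by
  refine ⟨fun p q r hp hq hr => ?_, fun a b c x y z ha hb hc hx hy hz => ?_,
    fun t _ => mPhi_scale k t, fun p q r => ?_, fun p q r => ?_⟩
  · exact add_nonneg (mA_nonneg hp hq hr) (mul_nonneg hk (mQ_nonneg hp hq hr))
  · simp only [mPhi]
    have := cvx_mA.add a b c x y z ha hb hc hx hy hz
    have := mul_le_mul_of_nonneg_left (cvx_mQ.add a b c x y z ha hb hc hx hy hz) hk
    linarith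
  · simp only [mPhi, mA_rot p q r, cvx_mQ.rot p q r]
  · simp only [mPhi, mA_swap p q r, cvx_mQ.swap p q r]

end Four

end Window

end Vale.Agent.P154
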