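import Vale.Agent.P154.Window.Four.Steps
import Vale.Agent.P154.Window.Four.CheckC
import Vale.Agent.P154.Window.Four.Pot

/-!
Four children per vertex at the antiferromagnetic extreme: the potential gets down to one fifth.
-/

namespace Vale.Agent.P154

namespace Window

namespace Four

lemma look26 : lookB 26 = true := by decide +kernel

lemma look28 : lookB 28 = true := by decide +kernel

/-- A test of the totals and the head of a mesh. -/
def shapeB (n : ℕ) : Bool :=
  (mesh n).all (fun p => decide (p.1 + p.2.1 + p.2.2 = n))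
    && decide ((mesh n).head? = some (n, 0, 0))

lemma fine_of {n : ℕ} (hn : 1 ≤ n) (h : shapeB n = true) (hl : lookB n = true) : Fine n := by
  simp only [shapeB, Bool.and_eq_true, List.all_eq_true, decide_eq_true_eq] at h
  refine ⟨hn, h.1, ?_, look_of hl⟩
  rcases hm : mesh n with _ | ⟨x, R⟩
  · rw [hm] at h; simp at h
  · rw [hm] at h
    simp only [List.head?_cons, Option.some.injEq] at h
    exact ⟨R, by rw [h.2]⟩

lemma fine26 : Fine 26 := fine_of (by norm_num) (by decide +kernel) look26

lemma fine28 : Fine 28 := fine_of (by norm_num) (by decide +kernel) look28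

lemma dot_score (n : ℕ) (hn : 0 < n) : ∀ (V : List Pt) (w : List ℕ),
    (∀ p ∈ V, p.1 + p.2.1 + p.2.2 = n ∧ p.2.2 ≤ p.2.1 ∧ p.2.1 ≤ p.1) →
    10 * (n : ℝ) ^ 3 * zs w (V.map (gv (mPhi (3 / 10)))) = (dot w (V.map (score n)) : ℕ)
  | [], w, _ => by cases w <;> simp [zs, dot]
  | x :: V, [], _ => by simp [zs, dot]
  | x :: V, a :: w, h => by
    obtain ⟨h1, h2, h3⟩ := h x List.mem_cons_self
    have ih := dot_score n hn V w fun p hp => h p (List.mem_cons_of_mem x hp)
    rw [List.map_cons, List.map_cons, dot_cons, zs, Nat.cast_add, ← ih, mul_add, Nat.cast_mul]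
    congr 1
    have e : 10 * (n : ℝ) ^ 3 * gv (mPhi (3 / 10)) x = (score n x : ℕ) := by
      obtain ⟨p, q, r⟩ := x
      simp only [gv, score] at h1 h2 h3 ⊢
      have ht : tot (p : ℝ) q r = n := by simp only [tot]; exact_mod_cast h1
      simp only [mPhi, mA, mQ, ht]
      simp only [quad, dif, rc]
      push_cast [Nat.cast_sub h2, Nat.cast_sub h3]
      have : (n : ℝ) ≠ 0 := by exact_mod_cast hn.ne'
      field_simp
      ring
    rw [← e]
    ring

lemma sorted26 : (mesh 26).all (fun p => decide (p.1 + p.2.1 + p.2.2 = 26 ∧ p.2.2 ≤ p.2.1 ∧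
    p.2.1 ≤ p.1)) = true := by decide +kernel

end Four

open Four in
/-- The potential gets down to one fifth. -/
theorem four_reach : ∃ n, mo (mPhi (3 / 10)) (tab (regularLaw 4) (-(1 / 2)) n) ≤ 1 / 5 := by
  have s1 : 2 * (2 * 26) ^ 2 * wtot ^ 2 < slot := by norm_num
  have s2 : 2 * 28 ^ 2 * wtot ^ 2 < slot := by norm_num
  have g0 := good_start fine26
  rw [mesh_len] at g0
  obtain ⟨v, hv, e⟩ := run_good fine26 fine28 s1 s2 g0 check_a
  simp only [decide_eq_true_eq] at e
  subst e
  obtain ⟨v, hv, e⟩ := run_good fine26 fine28 s1 s2 hv check_b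
  simp only [decide_eq_true_eq] at e
  subst e
  obtain ⟨v, hv, e⟩ := run_good fine26 fine28 s1 s2 hv check_c
  refine ⟨0 + 57 + 56 + 56, ?_⟩
  have hb := hv.2 _ (cvx_mPhi (show (0 : ℝ) ≤ 3 / 10 by norm_num))
  simp only [below, decide_eq_true_eq] at e
  have hd : ((dot v ((mesh 26).map (score 26)) : ℕ) : ℝ) ≤ ((2 * wtot * 26 ^ 4 : ℕ) : ℝ) := by
    exact_mod_cast e
  have hs := sorted26
  simp only [List.all_eq_true, decide_eq_true_eq] at hs
  rw [← dot_score 26 (by norm_num) _ _ hs] at hd
  norm_num at hd hb ⊢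
  linarith

end Window

end Vale.Agent.P154
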