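import Vale.Agent.P154.Window.Four.Pack

/-!
One half step of the recursion keeps an upper bound for every sublinear symmetric moment.
-/

namespace Vale.Agent.P154

namespace Window

namespace Four

variable {g : ℝ → ℝ → ℝ → ℝ}

/-- The double sum of the bilinear values. -/
def dsum (g : ℝ → ℝ → ℝ → ℝ) (w : List ℕ) (V : List Pt) : ℝ :=
  zs w (V.map fun x => zs w (V.map (F6 g x)))

lemma zs_lin {α : Type} (c : ℝ) : ∀ (w : List ℕ) (V : List α) (f h : α → ℝ),
    zs w (V.map fun y => c * f y + h y) = c * zs w (V.map f) + zs w (V.map h)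
  | [], _, _, _ => by simp [zs]
  | _ :: _, [], _, _ => by simp [zs]
  | a :: w, x :: V, f, h => by
    simp only [List.map_cons, zs, zs_lin c w V f h]; ring

lemma zs_mono {α : Type} : ∀ (w : List ℕ) (V : List α) (f h : α → ℝ),
    (∀ x ∈ V, f x ≤ h x) → zs w (V.map f) ≤ zs w (V.map h)
  | [], _, _, _, _ => by simp [zs]
  | _ :: _, [], _, _, _ => by simp [zs]
  | a :: w, x :: V, f, h, H => by
    simp only [List.map_cons, zs]
    exact add_le_add (mul_le_mul_of_nonneg_left (H x List.mem_cons_self) (Nat.cast_nonneg a))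
      (zs_mono w V f h fun y hy => H y (List.mem_cons_of_mem x hy))

lemma zs_mul {α : Type} (c : ℝ) (w : List ℕ) (V : List α) (f : α → ℝ) :
    zs w (V.map fun y => c * f y) = c * zs w (V.map f) := by
  have h0 : zs w (V.map fun _ => (0 : ℝ)) = 0 := by
    have := zs_lin (-1) w V (fun _ => (0 : ℝ)) (fun _ => 0)
    simp only [mul_zero, add_zero] at this
    linarith
  have := zs_lin c w V f (fun _ => 0)
  simp only [add_zero] at this
  rw [this, h0, add_zero]

lemma F6_comm (hg : Cvx g) (x y : Pt) : F6 g x y = F6 g y x := sym6_comm hg _ _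

lemma dsum_cons (hg : Cvx g) (a : ℕ) (x : Pt) (w : List ℕ) (V : List Pt) :
    dsum g (a :: w) (x :: V)
      = a * (a * F6 g x x + 2 * zs w (V.map (F6 g x))) + dsum g w V := by
  simp only [dsum, List.map_cons, zs]
  rw [zs_lin (a : ℝ) w V (fun y => F6 g y x) fun y => zs w (V.map (F6 g y))]
  simp only [F6_comm hg _ x]
  ring

lemma dot_cons (a b : ℕ) (l r : List ℕ) : dot (a :: l) (b :: r) = a * b + dot l r := rfl

lemma dot_rep (hg : Cvx g) {n tb : ℕ} {V' : List Pt} (hn : 1 ≤ n) (hl : Look n tb V') {t : ℕ}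
    {x : Pt} (hx : x.1 + x.2.1 + x.2.2 = t) : ∀ (w : List ℕ) (r : List Pt), Tot t r →
    Rep (V'.map (gv g)) (dot w (r.map fun y => Nat.mul 2 (six n tb x y)))
      (2 * (n * zs w (r.map (F6 g x)))) (4 * t ^ 2 * w.sum)
  | [], r, _ => by
    refine Rep.zero _ (by simp [zs]) _
  | a :: w, [], _ => by
    refine Rep.zero _ (by simp [zs]) _
  | a :: w, y :: r, hr => by
    have h1 := ((six_rep hg hn hl x y hx (hr y List.mem_cons_self)).smul 2).smul a
    have h2 := dot_rep hg hn hl hx w r fun p hp => hr p (List.mem_cons_of_mem y hp)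
    rw [List.map_cons, dot_cons, List.map_cons, Nat.mul_eq]
    refine (h1.add h2).mono (le_of_eq ?_) (le_of_eq ?_)
    · simp only [zs]; push_cast; ring
    · rw [List.sum_cons]; ring

lemma tri_rep (hg : Cvx g) {n tb : ℕ} {V' : List Pt} (hn : 1 ≤ n) (hl : Look n tb V') {t : ℕ} :
    ∀ (w : List ℕ) (U : List Pt), Tot t U →
    Rep (V'.map (gv g)) (tri w (rowsOf (six n tb) U)) (n * dsum g w U) (2 * t ^ 2 * w.sum ^ 2)
  | [], U, _ => Rep.zero _ (by simp [dsum, zs]) _
  | a :: w, [], _ => Rep.zero _ (by simp [dsum, zs]) _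
  | a :: w, x :: U, hU => by
    have hx := hU x List.mem_cons_self
    have hr : Tot t U := fun p hp => hU p (List.mem_cons_of_mem x hp)
    have h1 := (((six_rep hg hn hl x x hx hx).smul a).add (dot_rep hg hn hl hx w U hr)).smul a
    have h2 := tri_rep hg hn hl w U hr
    rw [show tri (a :: w) (rowsOf (six n tb) (x :: U))
      = a * (a * six n tb x x + dot w (U.map fun y => Nat.mul 2 (six n tb x y)))
        + tri w (rowsOf (six n tb) U) from rfl]
    refine (h1.add h2).mono (le_of_eq ?_) (le_of_eq ?_)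
    · rw [dsum_cons hg]; ring
    · rw [List.sum_cons]; ring

lemma digs_succ (F m P : ℕ) :
    digs F (m + 1) P = P % slot / F :: digs F m (P / slot) := by
  exact forceN_eq P fun P => Nat.div (Nat.mod P slot) F :: digs F m (Nat.div P slot)

lemma digs_pk (F : ℕ) : ∀ c : List ℕ, (∀ x ∈ c, x < slot) →
    digs F c.length (pk c) = c.map (· / F)
  | [], _ => rfl
  | a :: c, h => by
    have ha := h a List.mem_cons_self
    rw [List.length_cons, digs_succ, List.map_cons, pk, Nat.add_mul_mod_self_left,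
      Nat.mod_eq_of_lt ha, Nat.add_mul_div_left _ _ (Nat.pos_of_ne_zero (by omega)),
      Nat.div_eq_of_lt ha, zero_add, digs_pk F c fun x hx => h x (List.mem_cons_of_mem a hx)]

lemma lsum_eq : ∀ l : List ℕ, lsum l = l.sum
  | [] => rfl
  | a :: l => by
    show Nat.add a (lsum l) = _
    rw [lsum_eq l, Nat.add_eq, List.sum_cons]

lemma round_le {F : ℕ} {G0 : ℝ} : ∀ (c : List ℕ) (G : List ℝ), c.length = G.length →
    (∀ x ∈ G, x ≤ G0) → (F : ℝ) * ((c.map (· / F)).sum : ℕ) ≤ (c.sum : ℕ) ∧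
    zs c G - (c.sum : ℕ) * G0
      ≤ F * (zs (c.map (· / F)) G - ((c.map (· / F)).sum : ℕ) * G0)
  | [], [], _, _ => by simp [zs]
  | a :: c, x :: G, hl, hG => by
    obtain ⟨h1, h2⟩ := round_le (F := F) c G (by simpa using hl)
      fun y hy => hG y (List.mem_cons_of_mem x hy)
    have hd : ((F : ℝ) * (a / F : ℕ)) ≤ a := by exact_mod_cast Nat.mul_div_le a F
    have hx := hG x List.mem_cons_self
    have hm := mul_le_mul_of_nonneg_left hx (sub_nonneg.mpr hd)
    simp only [List.map_cons, List.sum_cons, zs, Nat.cast_add]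
    constructor <;> linarith
  | [], _ :: _, h, _ => by simp at h
  | _ :: _, [], h, _ => by simp at h

/-- The target of a half step is a usable mesh. -/
structure Fine (n : ℕ) : Prop where
  pos : 1 ≤ n
  tot : Tot n (mesh n)
  head : ∃ R, mesh n = (n, 0, 0) :: R
  look : Look n (lookTab n (mesh n)) (mesh n)

lemma half_rep (hg : Cvx g) {n : ℕ} (hn : Fine n) {t F : ℕ} (hF : F = 2 * wtot * t ^ 2)
    (hs : 2 * t ^ 2 * wtot ^ 2 < slot) (ht : 1 ≤ t) {U : List Pt} (hU : Tot t U) {w : List ℕ}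
    (hw : w.sum = wtot) :
    (half F (mesh n).length (rowsOf (six n (lookTab n (mesh n))) U) w).sum = wtot ∧
    n * dsum g w U ≤ F * zs (half F (mesh n).length (rowsOf (six n (lookTab n (mesh n))) U) w)
      ((mesh n).map (gv g)) := by
  obtain ⟨R, hR⟩ := hn.head
  obtain ⟨c, hc, hP, hT, hX⟩ := tri_rep hg hn.pos hn.look w U hU
  rw [hw] at hT
  have hFT : 2 * t ^ 2 * wtot ^ 2 = F * wtot := by rw [hF]; ring
  have hlt : ∀ x ∈ c, x < slot := fun x hx =>
    lt_of_le_of_lt (le_trans (List.le_sum_of_mem hx) hT) hs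
  rw [List.length_map] at hc
  unfold half
  rw [hP, ← hc, digs_pk F c hlt]
  rw [hR] at hc hX ⊢
  rcases c with _ | ⟨a, c⟩
  · simp at hc
  simp only [List.map_cons, List.length_cons, zs] at hc hX ⊢
  rw [show norm1 (a / F :: c.map (· / F))
    = Nat.sub wtot (lsum (c.map (· / F))) :: c.map (· / F) from rfl, lsum_eq, Nat.sub_eq]
  have hG : ∀ y ∈ R.map (gv g), y ≤ gv g (n, 0, 0) := by
    intro y hy
    obtain ⟨p, hp, rfl⟩ := List.mem_map.mp hy
    have htot := hn.tot p (by rw [hR]; exact List.mem_cons_of_mem _ hp)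
    have e0 : gv g (n, 0, 0) = n * g 1 0 0 := by
      have := hg.hom n (Nat.cast_nonneg n) 1 0 0
      simpa [gv] using this
    rw [e0, gv]
    refine le_trans (hg.le_corner (Nat.cast_nonneg _) (Nat.cast_nonneg _) (Nat.cast_nonneg _))
      (le_of_eq ?_)
    congr 1
    exact_mod_cast htot
  obtain ⟨h1, h2⟩ := round_le (F := F) c (R.map (gv g)) (by simpa using hc) hG
  generalize c.map (· / F) = q at h1 h2 ⊢
  have hsum : a + c.sum ≤ F * wtot := by
    rw [← hFT]; simpa using hT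
  have hFpos : 0 < F := by rw [hF]; positivity
  have hq : q.sum ≤ wtot := by
    have : F * q.sum ≤ c.sum := by exact_mod_cast h1
    exact Nat.le_of_mul_le_mul_left (le_trans this (by omega)) hFpos
  refine ⟨by rw [List.sum_cons]; omega, ?_⟩
  simp only [zs]
  rw [Nat.cast_sub hq]
  have h0 : 0 ≤ gv g (n, 0, 0) :=
    hg.nonneg _ _ _ (Nat.cast_nonneg _) (Nat.cast_nonneg _) (Nat.cast_nonneg _)
  have hb : ((a : ℝ) + (c.sum : ℕ)) ≤ F * wtot := by exact_mod_cast hsum
  have hb' := mul_le_mul_of_nonneg_right hb h0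
  linarith

/-- A finite upper bound in convex order: total weight `wtot`, points `V` of total `t`. -/
def Bd {ι : Type} (L : Lik ι) (V : List Pt) (t : ℕ) (w : List ℕ) : Prop :=
  w.sum = wtot ∧
    ∀ g, Cvx g → (wtot : ℝ) * t * mo g L ≤ zs w (V.map (gv g))

lemma bd_pair {ι : Type} {L : Lik ι} (hL : Ok L) (hS : Sw L) {U : List Pt} {t : ℕ} {w : List ℕ}
    (hb : Bd L U t w) (hg : Cvx g) :
    2 * ((wtot : ℝ) * t) ^ 2 * mo g (pair L L) ≤ dsum g w U := by
  have hc : (0 : ℝ) ≤ (wtot : ℝ) * t := by positivity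
  rw [mo_pair hg hL hL]
  have h1 := mul_le_mul_of_nonneg_left (hb.2 _ (cvx_avg hg hL hS))
    (by positivity : (0 : ℝ) ≤ 2 * ((wtot : ℝ) * t))
  rw [← zs_mul] at h1
  refine le_trans (le_of_eq (by ring)) (le_trans h1 (zs_mono _ _ _ _ fun x _ => ?_))
  have hv : ∀ i, (0 : ℝ) ≤ ![(x.1 : ℝ), x.2.1, x.2.2] i := fun i => by fin_cases i <;> simp
  have e := avg_sym6 hg hL hS hv
  simp only [Matrix.cons_val_zero, Matrix.cons_val_one, Matrix.cons_val] at e
  have h2 := hb.2 _ (cvx_sym6 hg hv)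
  have h3 : zs w (U.map (gv fun p q r => sym6 g ![(x.1 : ℝ), x.2.1, x.2.2] ![p, q, r]))
      = zs w (U.map (F6 g x)) := rfl
  rw [h3] at h2
  simp only [gv]
  refine le_trans (le_of_eq ?_) h2
  rw [show mo (fun p q r => sym6 g ![(x.1 : ℝ), x.2.1, x.2.2] ![p, q, r]) L
      = 2 * avg g L x.1 x.2.1 x.2.2 by linarith]
  ring

lemma bd_half {ι : Type} {L : Lik ι} (hL : Ok L) (hS : Sw L) {U : List Pt} {t n : ℕ} {w : List ℕ}
    (hn : Fine n) (ht : 1 ≤ t) (hU : Tot t U) (hs : 2 * t ^ 2 * wtot ^ 2 < slot)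
    (hb : Bd L U t w) :
    Bd (pair L L) (mesh n) n
      (half (2 * wtot * t ^ 2) (mesh n).length (rowsOf (six n (lookTab n (mesh n))) U) w) := by
  have hz : Cvx fun _ _ _ => (0 : ℝ) := by constructor <;> intros <;> simp
  refine ⟨(half_rep hz hn rfl hs ht hU hb.1).1, fun g hg => ?_⟩
  have h1 := (half_rep hg hn rfl hs ht hU hb.1).2
  have h2 := mul_le_mul_of_nonneg_left (bd_pair hL hS hb hg) (Nat.cast_nonneg (α := ℝ) n)
  have hp : (0 : ℝ) < ((2 * wtot * t ^ 2 : ℕ) : ℝ) := by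
    have : 0 < 2 * wtot * t ^ 2 := by positivity
    exact_mod_cast this
  refine le_of_mul_le_mul_left ?_ hp
  refine le_trans (le_of_eq ?_) (le_trans h2 h1)
  push_cast; ring

/-- The doubled edge map as a function of a row. -/
noncomputable def pull (g : ℝ → ℝ → ℝ → ℝ) : ℝ → ℝ → ℝ → ℝ :=
  fun p q r => g ((q + r) / 2) ((p + r) / 2) ((p + q) / 2)

lemma cvx_pull (hg : Cvx g) : Cvx (pull g) := by
  refine ⟨fun p q r hp hq hr => hg.nonneg _ _ _ (by positivity) (by positivity) (by positivity),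
    fun a b c x y z ha hb hc hx hy hz => ?_, fun k hk p q r => ?_, fun p q r => ?_,
    fun p q r => ?_⟩ <;> simp only [pull]
  · refine le_trans (le_of_eq ?_) (hg.add _ _ _ _ _ _ (by positivity) (by positivity)
      (by positivity) (by positivity) (by positivity) (by positivity))
    congr 1 <;> ring
  · rw [← hg.hom k hk]; congr 1 <;> ring
  · rw [← hg.rot ((q + r) / 2)]; congr 1 <;> ring
  · rw [← hg.swap]; congr 1 <;> ring

lemma mo_shift_half {ι : Type} (L : Lik ι) (g : ℝ → ℝ → ℝ → ℝ) :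
    mo g (shift (-(1 / 2)) L) = mo (pull g) L := by
  rw [mo, mo]
  congr 1
  refine tsum_congr fun x => ?_
  simp only [row, pull, shift_eq]
  congr 1 <;> ring

lemma bd_shift {ι : Type} {L : Lik ι} {V : List Pt} {t : ℕ} {w : List ℕ} (hb : Bd L V t w) :
    Bd (shift (-(1 / 2)) L) (V.map edge) (2 * t) w := by
  refine ⟨hb.1, fun g hg => ?_⟩
  have h := mul_le_mul_of_nonneg_left (hb.2 _ (cvx_pull hg)) (zero_le_two (α := ℝ))
  rw [← zs_mul] at h
  rw [mo_shift_half, List.map_map]
  refine le_trans (le_of_eq (by push_cast; ring)) (le_trans h (zs_mono _ _ _ _ fun p _ => ?_))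
  obtain ⟨a, b, c⟩ := p
  simp only [gv, pull, Function.comp, edge]
  rw [← hg.hom 2 zero_le_two]
  exact le_of_eq (by congr 1 <;> push_cast <;> ring)

lemma tot_edge {t : ℕ} {V : List Pt} (h : Tot t V) : Tot (2 * t) (V.map edge) := by
  intro p hp
  obtain ⟨⟨a, b, c⟩, hq, rfl⟩ := List.mem_map.mp hp
  have := h _ hq
  simp only [edge] at this ⊢
  omega

end Four

end Window

end Vale.Agent.P154
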