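import Vale.Agent.P154.Window.Four.Mesh

/-!
Stored intermediate measures of the four-child recursion.
-/

namespace Vale.Agent.P154

namespace Window

namespace Four

/-- The measure after 57 steps. -/
def state1 : List ℕ :=
  [1145681, 436816, 328519, 38456, 244592, 42511, 201413, 28161, 11377, 179713,
   21394, 15340, 167372, 17873, 10892, 5785, 159333, 15413, 8917, 8162,
   158065, 13693, 7598, 6558, 3154, 155235, 12652, 6745, 5675, 5026,
   156569, 11833, 6149, 4973, 4466, 1975, 160833, 11271, 5752, 4567,
   3962, 3529, 169063, 10984, 5446, 4173, 3841, 3084, 1580, 95784,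
   10881, 5407, 4087, 3601, 3040, 2873, 2672, 3985, 3471, 2833,
   2615, 1271, 1679, 2728, 2572, 2595, 1268, 2438, 1210, 1123]

/-- The measure after 113 steps. -/
def state2 : List ℕ :=
  [326028, 364497, 312037, 97673, 243103, 121555, 206330, 83799, 35735, 185370,
   65695, 47983, 172039, 55353, 35270, 17563, 163613, 48189, 29108, 25749,
   160059, 43124, 25038, 21494, 9773, 155811, 39838, 22337, 18643, 16153,
   155605, 37527, 20555, 16620, 14491, 6560, 156611, 35915, 19312, 15418,
   12925, 11706, 158289, 35046, 18361, 14166, 12416, 10486, 5239, 81512,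
   34555, 18045, 13807, 11636, 10084, 9568, 8980, 13629, 11263, 9515,
   8879, 4286, 5539, 9236, 8727, 8538, 4260, 8131, 4072, 3835]

end Four

end Window

end Vale.Agent.P154
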