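import Vale.Agent.P154.Window.Four.Sound

/-!
Iterating the half steps along the tree with four children per vertex.
-/

namespace Vale.Agent.P154

namespace Window

namespace Four

lemma force_eq {β : Type} : ∀ (l : List ℕ) (k : List ℕ → β), force l k = k l
  | [], _ => rfl
  | a :: l, k => by
    exact (forceN_eq a fun a' => force l fun l' => k (a' :: l')).trans
      (force_eq l fun l' => k (a :: l'))

lemma force2_eq {β : Type} : ∀ (l : List (List ℕ)) (k : List (List ℕ) → β), force2 l k = k l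
  | [], _ => rfl
  | a :: l, k => by
    exact (force_eq a fun a' => force2 l fun l' => k (a' :: l')).trans
      (force2_eq l fun l' => k (a :: l'))

/-- The equality test against a stored measure. -/
def same (v w : List ℕ) : Bool := decide (w = v)

lemma ok4 : ∀ i, Ok (tab (regularLaw 4) (-(1 / 2)) i) :=
  tab_ok (regular_law 4) (by norm_num) (by norm_num)

lemma mo_mix_four {ι : Type} (L : Lik ι) {g : ℝ → ℝ → ℝ → ℝ} (hg : Cvx g) :
    mo g (mix (regularLaw 4) L) = mo g (power L 4) := by
  rw [mo, mo]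
  congr 1
  have h0 : g 0 0 0 = 0 := by
    have := hg.hom 0 le_rfl 1 0 0
    simpa using this
  have hi : Function.Injective (fun x : Fin 4 → ι => (⟨4, x⟩ : Σ N, Fin N → ι)) :=
    sigma_mk_injective (β := fun N => Fin N → ι)
  rw [← hi.tsum_eq (f := fun s => row g (mix (regularLaw 4) L s))]
  · exact tsum_congr fun x => by simp [row, mix, regularLaw]
  · rintro ⟨N, x⟩ hs
    by_cases hN : N = 4
    · subst hN; exact ⟨x, rfl⟩
    · exact absurd (by simp [row, mix, regularLaw, hN, h0]) hs

/-- Four coordinates as two pairs. -/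
def fourEquiv (ι : Type) : (Fin 4 → ι) ≃ (ι × ι) × ι × ι where
  toFun f := ((f 0, f 1), (f 2, f 3))
  invFun z := ![z.1.1, z.1.2, z.2.1, z.2.2]
  left_inv f := by funext i; fin_cases i <;> rfl
  right_inv _ := rfl

lemma power_four {ι : Type} (L : Lik ι) :
    power L 4 = reindex (fourEquiv ι) (pair (pair L L) (pair L L)) := by
  funext x i
  show ∏ j, L (x j) i = L (x 0) i * L (x 1) i * (L (x 2) i * L (x 3) i)
  rw [Fin.prod_univ_four]; ring

/-- The bound at one depth on the child mesh. -/
def Good (n1 i : ℕ) (w : List ℕ) : Prop :=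
  Bd (tab (regularLaw 4) (-(1 / 2)) i) (mesh n1) n1 w

lemma step_good {n1 n2 : ℕ} (h1 : Fine n1) (h2 : Fine n2)
    (s1 : 2 * (2 * n1) ^ 2 * wtot ^ 2 < slot) (s2 : 2 * n2 ^ 2 * wtot ^ 2 < slot) {i : ℕ}
    {w : List ℕ} (hw : Good n1 i w) :
    Good n1 (i + 1) (half (2 * wtot * n2 ^ 2) (mesh n1).length
      (rowsOf (six n1 (lookTab n1 (mesh n1))) (mesh n2))
      (half (2 * wtot * (2 * n1) ^ 2) (mesh n2).length
        (rowsOf (six n2 (lookTab n2 (mesh n2))) ((mesh n1).map edge)) w)) := by
  have ho := shift_ok_adm (l := -(1 / 2)) (by norm_num) (by norm_num) (ok4 i)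
  have hs := shift_sw (-(1 / 2)) (tab_sw (regularLaw 4) (-(1 / 2)) i)
  have p1 := bd_half ho hs h2 (by have := h1.pos; omega) (tot_edge h1.tot) s1 (bd_shift hw)
  have p2 := bd_half (pair_ok ho ho) (pair_sw hs hs) h1 h2.pos h2.tot s2 p1
  refine ⟨p2.1, fun g hg => ?_⟩
  rw [mo_tab_succ, mo_mix_four _ hg, power_four, mo_reindex]
  exact p2.2 g hg

lemma run_good {n1 n2 : ℕ} (h1 : Fine n1) (h2 : Fine n2)
    (s1 : 2 * (2 * n1) ^ 2 * wtot ^ 2 < slot) (s2 : 2 * n2 ^ 2 * wtot ^ 2 < slot) {i k : ℕ}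
    {w : List ℕ} {test : List ℕ → Bool} (hw : Good n1 i w)
    (hr : run n1 n2 k w test = true) : ∃ v, Good n1 (i + k) v ∧ test v = true := by
  simp only [run, forceN_eq, force2_eq, force_eq] at hr
  induction k generalizing i w with
  | zero => exact ⟨w, hw, hr⟩
  | succ k ih =>
    have e : iter (2 * wtot * (2 * n1) ^ 2) (2 * wtot * n2 ^ 2) (mesh n1).length (mesh n2).length
        (rowsOf (six n2 (lookTab n2 (mesh n2))) ((mesh n1).map edge))
        (rowsOf (six n1 (lookTab n1 (mesh n1))) (mesh n2)) test (k + 1) w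
      = force _ fun u => force _ fun v => iter _ _ _ _ _ _ test k v := rfl
    rw [e, force_eq, force_eq] at hr
    obtain ⟨v, hv, ht⟩ := ih (step_good h1 h2 s1 s2 hw) hr
    exact ⟨v, by rwa [Nat.add_comm k 1, ← Nat.add_assoc], ht⟩

lemma good_start {n : ℕ} (hn : Fine n) : Good n 0 (start (mesh n).length) := by
  obtain ⟨R, hR⟩ := hn.head
  refine ⟨by simp [start], fun g hg => ?_⟩
  have hz : zs (start (mesh n).length) ((mesh n).map (gv g)) = wtot * gv g (n, 0, 0) := by
    rw [hR, start, List.map_cons, zs, zs_zero, add_zero]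
  have hm : mo g (tab (regularLaw 4) (-(1 / 2)) 0) = g 1 0 0 := by
    rw [mo]
    change (∑' s : Fin 3, row g (tab (regularLaw 4) (-(1 / 2)) 0 s)) / 3 = _
    rw [tsum_fintype]
    simp only [leaf_row _ (fun a b e => hg.rot a b e), Finset.sum_const, Finset.card_univ,
      Fintype.card_fin]
    ring
  rw [hz, hm]
  have := hg.hom n (Nat.cast_nonneg n) 1 0 0
  simp only [mul_one, mul_zero] at this
  simp only [gv, Nat.cast_zero, this]
  exact le_of_eq (by ring)

end Four

end Window

end Vale.Agent.P154
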