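import Vale.Agent.P154.Window.Four.ZRep

/-!
The blocked forms agree with the plain ones when every row stays below the block radix.
-/

namespace Vale.Agent.P154

namespace Window

namespace Four

namespace Zoom

variable {B q : ℕ}

lemma skip_succ (j a : ℕ) (w : List ℕ) : skip (j + 1) (a :: w) = skip j w := rfl

lemma skip_nil : ∀ j, skip j [] = []
  | 0 => rfl
  | _ + 1 => rfl

lemma dot_zipB (B : ℕ) : ∀ (w x c : List ℕ), x.length = c.length →
    dot w (List.zipWith (fun a b => Nat.add a (Nat.mul B b)) x c) = dot w x + B * dot w c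
  | [], _, _, _ => by simp [dot]
  | _ :: _, [], [], _ => by simp [dot]
  | a :: w, x :: xs, c :: cs, h => by
    rw [List.zipWith_cons_cons, dot_cons, dot_zipB B w xs cs (by simpa using h), dot_cons, dot_cons]
    simp only [Nat.add_eq, Nat.mul_eq]
    ring
  | _ :: _, [], _ :: _, h => by simp at h
  | _ :: _, _ :: _, [], h => by simp at h

lemma dot_shift : ∀ (w c : List ℕ), dot w (0 :: c) = dot w.tail c
  | [], c => by simp [dot]
  | a :: w, c => by rw [dot_cons, Nat.mul_zero, zero_add, List.tail_cons]

/-- Rows of a triangular table: lengths match and every row value is below `B`. -/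
def Small (B : ℕ) : List ℕ → List (List ℕ) → Prop
  | _, [] => True
  | w, row :: R => dot w row < B ∧ row.length = R.length + 1 ∧ Small B w.tail R

lemma blockCols_len : ∀ (row : List ℕ) (R : List (List ℕ)) (w : List ℕ),
    Small B w (row :: R) → ∀ j,
      (blockCols B ((row :: R).take (j + 1))).length = row.length
  | row, [], _, _, j => by simp [blockCols]
  | row, row' :: R, w, h, 0 => by simp [blockCols]
  | row, row' :: R, w, h, j + 1 => by
    obtain ⟨-, hl, h'⟩ := h
    have ih := blockCols_len row' R w.tail h' j
    rw [List.take_succ_cons] at ih ⊢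
    rw [List.take_succ_cons]
    simp only [blockCols, onTop, List.length_zipWith, List.length_cons, ih]
    have := h'.2.1
    simp only [List.length_cons] at hl
    omega

lemma tri_nil (R : List (List ℕ)) : tri [] R = 0 := rfl

lemma tri_cons (a : ℕ) (w row : List ℕ) (R : List (List ℕ)) :
    tri (a :: w) (row :: R) = a * dot (a :: w) row + tri w R := rfl

lemma comb_nil (B : ℕ) : ∀ j R, comb B j [] R = 0
  | 0, _ => rfl
  | _ + 1, _ => rfl

lemma comb_succ (B j a : ℕ) (w : List ℕ) (R : ℕ) :
    comb B (j + 1) (a :: w) R = a * (R % B) + comb B j w (R / B) :=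
  forceN_eq R fun R => Nat.add (Nat.mul a (Nat.mod R B)) (comb B j w (Nat.div R B))

lemma comb_zero (B : ℕ) : ∀ j (w : List ℕ), comb B j w 0 = 0
  | _, [] => comb_nil B _ _
  | 0, _ :: _ => rfl
  | j + 1, a :: w => by
    rw [comb_succ, Nat.zero_mod, Nat.zero_div, comb_zero B j w]; simp

lemma comb_block : ∀ (q : ℕ) (w : List ℕ) (row : List ℕ) (R : List (List ℕ)),
    Small B w (row :: R) →
    comb B q w (dot w (blockCols B ((row :: R).take (q + 1))))
      = tri w ((row :: R).take (q + 1))
  | q, [], row, R, _ => by rw [comb_nil, tri_nil]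
  | 0, a :: w, row, R, _ => by
    simp only [List.take_succ_cons, List.take_zero, blockCols, tri_cons]
    rw [show tri w [] = 0 by cases w <;> rfl, add_zero]
    rfl
  | q + 1, a :: w, row, [], h => by
    have hlt := h.1
    rw [List.take_succ_cons, List.take_nil, blockCols, comb_succ, Nat.mod_eq_of_lt hlt,
      Nat.div_eq_of_lt hlt, comb_zero, tri_cons, show tri w [] = 0 by cases w <;> rfl]
  | q + 1, a :: w, row, row' :: R, h => by
    obtain ⟨hlt, hl, h'⟩ := h
    have hl2 := blockCols_len row' R w h' q
    rw [List.take_succ_cons] at hl2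
    rw [List.take_succ_cons, List.take_succ_cons]
    simp only [blockCols, onTop]
    rw [dot_zipB, dot_shift, List.tail_cons, comb_succ, Nat.add_mul_mod_self_left,
      Nat.mod_eq_of_lt hlt, Nat.add_mul_div_left _ _ (Nat.pos_of_ne_zero (by omega)),
      Nat.div_eq_of_lt hlt, zero_add, tri_cons a w row]
    · have ih := comb_block q w row' R h'
      rw [List.take_succ_cons] at ih
      rw [ih]
    · have := h'.2.1
      simp only [List.length_cons] at hl ⊢
      omega

lemma tri_split : ∀ (j : ℕ) (w : List ℕ) (R : List (List ℕ)),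
    tri w R = tri w (R.take j) + tri (skip j w) (R.drop j)
  | 0, w, R => by
    rw [List.take_zero, List.drop_zero, show tri w [] = 0 by cases w <;> rfl, zero_add]
    rfl
  | j + 1, [], R => by simp [tri_nil, skip_nil]
  | j + 1, a :: w, [] => by
    simp [show ∀ v, tri v [] = 0 from fun v => by cases v <;> rfl]
  | j + 1, a :: w, row :: R => by
    rw [List.take_succ_cons, List.drop_succ_cons, skip_succ, tri_cons, tri_cons,
      tri_split j w R]
    ring

lemma small_drop : ∀ (j : ℕ) (w : List ℕ) (R : List (List ℕ)),
    Small B w R → Small B (skip j w) (R.drop j)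
  | 0, _, _, h => h
  | j + 1, w, [], _ => trivial
  | j + 1, [], row :: R, h => by
    rw [List.drop_succ_cons, skip_nil]
    have := small_drop j [] R h.2.2
    rwa [skip_nil] at this
  | j + 1, a :: w, row :: R, h => by
    rw [List.drop_succ_cons, skip_succ]
    exact small_drop j w R h.2.2

lemma triB_cons (B q : ℕ) (cols : List ℕ) (bl : List (List ℕ)) (w : List ℕ) :
    triB B q (cols :: bl) w = comb B q w (dot w cols) + triB B q bl (skip (q + 1) w) := rfl

lemma triB_eq : ∀ (f : ℕ) (w : List ℕ) (R : List (List ℕ)), R.length ≤ f → Small B w R →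
    triB B q (blocks B q f R) w = tri w R
  | f, w, [], _, _ => by
    cases f <;> (cases w <;> rfl)
  | 0, w, row :: R, h, _ => by simp at h
  | f + 1, w, row :: R, hf, h => by
    simp only [blocks]
    rw [triB_cons, comb_block q w row R h, triB_eq f _ _ (by
      simp only [List.length_drop, List.length_cons] at hf ⊢; omega) (small_drop (q + 1) w _ h),
      ← tri_split]

/-- The plain bilinear form of a full table. -/
noncomputable def bil : List ℕ → List ℕ → List (List ℕ) → ℕ
  | a :: w, v, row :: R => a * dot v row + bil w v R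
  | _, _, _ => 0

/-- Rows of a full table: equal lengths and values below `B`. -/
def SmallF (B : ℕ) (v : List ℕ) (R : List (List ℕ)) (L : ℕ) : Prop :=
  ∀ row ∈ R, row.length = L ∧ dot v row < B

lemma bil_empty (w v : List ℕ) : bil w v [] = 0 := by cases w <;> rfl

lemma blockFull_len {L : ℕ} : ∀ (R : List (List ℕ)), R ≠ [] → (∀ row ∈ R, row.length = L) →
    (blockFull B R).length = L
  | [], h, _ => absurd rfl h
  | [row], _, h => h row List.mem_cons_self
  | row :: row' :: R, _, h => by
    simp only [blockFull, List.length_zipWith]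
    rw [blockFull_len (row' :: R) (by simp) fun r hr => h r (List.mem_cons_of_mem row hr),
      h row List.mem_cons_self, min_self]

lemma comb_full {L : ℕ} : ∀ (q : ℕ) (w v : List ℕ) (R : List (List ℕ)), R ≠ [] →
    SmallF B v R L →
    comb B q w (dot v (blockFull B (R.take (q + 1)))) = bil w v (R.take (q + 1))
  | q, w, v, [], h, _ => absurd rfl h
  | q, [], v, row :: R, _, _ => by rw [comb_nil]; rfl
  | 0, a :: w, v, row :: R, _, _ => by
    simp only [List.take_succ_cons, List.take_zero, blockFull, bil, bil_empty, add_zero]
    rfl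
  | q + 1, a :: w, v, [row], _, h => by
    have hlt := (h row List.mem_cons_self).2
    simp only [List.take_succ_cons, List.take_nil, blockFull, bil, bil_empty]
    rw [comb_succ, Nat.mod_eq_of_lt hlt, Nat.div_eq_of_lt hlt, comb_zero]
  | q + 1, a :: w, v, row :: row' :: R, _, h => by
    have hlt := (h row List.mem_cons_self).2
    have h' : SmallF B v (row' :: R) L := fun r hr => h r (List.mem_cons_of_mem row hr)
    have hl2 := blockFull_len (B := B) (L := L) ((row' :: R).take (q + 1)) (by simp)
      fun r hr => (h' r (List.mem_of_mem_take hr)).1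
    rw [List.take_succ_cons] at hl2
    simp only [List.take_succ_cons, blockFull]
    rw [dot_zipB, comb_succ, Nat.add_mul_mod_self_left, Nat.mod_eq_of_lt hlt,
      Nat.add_mul_div_left _ _ (Nat.pos_of_ne_zero (by omega)), Nat.div_eq_of_lt hlt, zero_add]
    · have ih := comb_full q w v (row' :: R) (by simp) h'
      rw [List.take_succ_cons] at ih
      rw [ih]
      rfl
    · rw [hl2]; exact (h row List.mem_cons_self).1

lemma bil_split : ∀ (j : ℕ) (w v : List ℕ) (R : List (List ℕ)),
    bil w v R = bil w v (R.take j) + bil (skip j w) v (R.drop j)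
  | 0, w, v, R => by rw [List.take_zero, List.drop_zero, bil_empty, zero_add]; rfl
  | j + 1, [], v, R => by simp [bil, skip_nil]
  | j + 1, a :: w, v, [] => by simp [bil_empty]
  | j + 1, a :: w, v, row :: R => by
    rw [List.take_succ_cons, List.drop_succ_cons, skip_succ]
    simp only [bil]
    rw [bil_split j w v R]
    ring

lemma rectB_cons (B q : ℕ) (cols : List ℕ) (bl : List (List ℕ)) (v w : List ℕ) :
    rectB B q (cols :: bl) v w
      = comb B q w (dot v cols) + rectB B q bl v (skip (q + 1) w) := rfl

lemma rectB_eq {L : ℕ} : ∀ (f : ℕ) (w v : List ℕ) (R : List (List ℕ)), R.length ≤ f →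
    SmallF B v R L → rectB B q (blocksFull B q f R) v w = bil w v R
  | f, w, v, [], _, _ => by cases f <;> exact (bil_empty w v).symm
  | 0, w, v, row :: R, h, _ => by simp at h
  | f + 1, w, v, row :: R, hf, h => by
    simp only [blocksFull]
    rw [rectB_cons, comb_full q w v (row :: R) (by simp) h, rectB_eq f _ v _ (by
      simp only [List.length_drop, List.length_cons] at hf ⊢; omega)
      (fun r hr => h r (List.mem_of_mem_drop hr)), ← bil_split]

end Zoom

end Four

end Window

end Vale.Agent.P154
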