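import Vale.Agent.P154.Window.Four.ZRep

/-!
Soundness of the index tables and of the split over the levels.
-/

namespace Vale.Agent.P154

namespace Window

namespace Four

namespace Zoom

variable {g : ℝ → ℝ → ℝ → ℝ}

lemma entry_eq (tb c : ℕ) : entry tb c = tb / cell ^ c % cell := rfl

lemma entry_zero (c : ℕ) : entry 0 c = 0 := by simp [entry_eq]

lemma entry_add {tb c i c' : ℕ} (h : entry tb c = 0) (hi : i < cell) :
    entry (tb + i * cell ^ c) c' = if c' = c then i else entry tb c' := by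
  have hc : (0 : ℕ) < cell := by norm_num
  simp only [entry_eq] at h ⊢
  generalize cell = X at h hi hc ⊢
  have hp : ∀ k, 0 < X ^ k := fun k => pow_pos hc k
  rcases lt_trichotomy c' c with hlt | rfl | hgt
  · rw [if_neg hlt.ne]
    obtain ⟨d, rfl⟩ : ∃ d, c = c' + 1 + d := ⟨c - c' - 1, by omega⟩
    rw [show tb + i * X ^ (c' + 1 + d) = tb + X ^ c' * (X * (i * X ^ d)) by
        rw [pow_add, pow_succ]; ring,
      Nat.add_mul_div_left _ _ (hp c'), Nat.add_mul_mod_self_left]
  · rw [if_pos rfl, mul_comm i, Nat.add_mul_div_left _ _ (hp c'), Nat.add_mod, h, zero_add,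
      Nat.mod_mod, Nat.mod_eq_of_lt hi]
  · rw [if_neg hgt.ne']
    obtain ⟨d, rfl⟩ : ∃ d, c' = c + 1 + d := ⟨c' - c - 1, by omega⟩
    rw [pow_add, pow_succ, ← Nat.div_div_eq_div_mul, ← Nat.div_div_eq_div_mul,
      ← Nat.div_div_eq_div_mul, ← Nat.div_div_eq_div_mul, mul_comm i,
      Nat.add_mul_div_left _ _ (hp c)]
    congr 2
    have := Nat.div_add_mod (tb / X ^ c) X
    rw [h, add_zero] at this
    rw [← this, Nat.mul_add_div hc, Nat.div_eq_of_lt hi, add_zero, Nat.mul_div_cancel_left _ hc]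

/-- An index table only points at mesh points of the right orbit. -/
def OkTab (n s : ℕ) (V : List Pt) (tb : ℕ) : Prop :=
  ∀ a b e, a + b + e = n → entry tb (a * (n + 1) + b) ≠ 0 →
    ∀ g, Cvx g → (V.map (gv g))[entry tb (a * (n + 1) + b) - 1]?
      = some (gv g (a * s, b * s, e * s))

lemma orders_tot {p q : Pt} (h : q ∈ orders p) :
    q.1 + q.2.1 + q.2.2 = p.1 + p.2.1 + p.2.2 := by
  obtain ⟨a, b, c⟩ := p
  simp only [orders, List.mem_cons, List.not_mem_nil, or_false] at h
  rcases h with rfl | rfl | rfl | rfl | rfl | rfl <;> simp <;> ring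

lemma mark_ok {n s : ℕ} (hs : 1 ≤ s) {V : List Pt} {tb i : ℕ} (h : OkTab n s V tb) {q p : Pt}
    (hi : i + 1 < cell) (hp : V[i]? = some p) (hq : q ∈ orders p)
    (ht : q.1 + q.2.1 + q.2.2 = n * s) : OkTab n s V (mark n s (i + 1) tb q) := by
  obtain ⟨x, y, z⟩ := q
  simp only [mark]
  cases hd : Bool.and (Bool.and (Nat.beq (Nat.mod x s) 0) (Nat.beq (Nat.mod y s) 0))
      (Nat.beq (Nat.mod z s) 0) with
  | false => exact h
  | true =>
    simp only [cond_true, write]
    simp only [Bool.and_eq_true] at hd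
    obtain ⟨⟨hx, hy⟩, hz⟩ := hd
    have hx' : x % s = 0 := Nat.eq_of_beq_eq_true hx
    have hy' : y % s = 0 := Nat.eq_of_beq_eq_true hy
    have hz' : z % s = 0 := Nat.eq_of_beq_eq_true hz
    obtain ⟨x1, rfl⟩ := Nat.dvd_of_mod_eq_zero hx'
    obtain ⟨y1, rfl⟩ := Nat.dvd_of_mod_eq_zero hy'
    obtain ⟨z1, rfl⟩ := Nat.dvd_of_mod_eq_zero hz'
    have hsum : x1 + y1 + z1 = n := by
      dsimp only at ht
      refine Nat.eq_of_mul_eq_mul_left (by omega : 0 < s) ?_
      rw [mul_add, mul_add, ht, mul_comm]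
    have hdiv : ∀ k, Nat.div (s * k) s = k := fun k => Nat.mul_div_cancel_left k (by omega)
    rw [hdiv, hdiv, Nat.add_eq, Nat.mul_eq, Nat.succ_eq_add_one]
    cases he : Nat.beq (entry tb (x1 * (n + 1) + y1)) 0 with
    | false => exact h
    | true =>
      simp only [cond_true, Nat.add_eq, Nat.mul_eq]
      have he' : entry tb (x1 * (n + 1) + y1) = 0 := Nat.eq_of_beq_eq_true he
      intro a b e habe hne g hg
      rw [show Nat.pow cell (x1 * (n + 1) + y1) = cell ^ (x1 * (n + 1) + y1) from rfl,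
        entry_add he' hi] at hne ⊢
      split_ifs at hne ⊢ with hc
      · have ea : a = x1 := by
          have := congrArg (· / (n + 1)) hc
          simp only [Nat.mul_comm _ (n + 1),
            Nat.mul_add_div (Nat.succ_pos n), Nat.div_eq_of_lt (show b < n + 1 by omega),
            Nat.div_eq_of_lt (show y1 < n + 1 by omega), add_zero] at this
          exact this
        subst ea
        have eb : b = y1 := by omega
        subst eb
        have ee : e = z1 := by omega
        subst ee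
        simp only [Nat.add_sub_cancel, List.getElem?_map, hp, Option.map_some, Option.some.injEq]
        rw [← gv_orders hg hq]
        simp only [mul_comm s]
      · exact h a b e habe hne g hg

lemma marks_cons (n s : ℕ) (x : ℕ × Pt) (l : List (ℕ × Pt)) (tb : ℕ) :
    marks n s (x :: l) tb = marks n s l (mark n s x.1 tb x.2) :=
  forceN_eq _ (marks n s l)

lemma marks_ok {n s : ℕ} (hs : 1 ≤ s) {V : List Pt} :
    ∀ (l : List (ℕ × Pt)) (tb : ℕ), OkTab n s V tb →
    (∀ x ∈ l, ∃ i p, x.1 = i + 1 ∧ i + 1 < cell ∧ V[i]? = some p ∧ x.2 ∈ orders p ∧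
      x.2.1 + x.2.2.1 + x.2.2.2 = n * s) →
    OkTab n s V (marks n s l tb)
  | [], _, h, _ => h
  | x :: l, tb, h, H => by
    obtain ⟨i, p, e1, e2, e3, e4, e5⟩ := H x List.mem_cons_self
    rw [marks_cons, e1]
    exact marks_ok hs l _ (mark_ok hs h e2 e3 e4 e5)
      fun y hy => H y (List.mem_cons_of_mem x hy)

lemma numbered_mem : ∀ (W : List Pt) (i : ℕ) (x : ℕ × Pt), x ∈ numbered (i + 1) W →
    ∃ j p, x.1 = i + j + 1 ∧ W[j]? = some p ∧ x.2 ∈ orders p
  | [], _, _, h => by simp [numbered] at h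
  | p :: r, i, x, h => by
    simp only [numbered, List.mem_append, List.mem_map] at h
    rcases h with ⟨q, hq, rfl⟩ | h
    · exact ⟨0, p, by simp, by simp, hq⟩
    · obtain ⟨j, p', e1, e2, e3⟩ := numbered_mem r (i + 1) x h
      exact ⟨j + 1, p', by rw [e1]; ring, by simpa using e2, e3⟩

lemma levelTab_ok {n s N : ℕ} {V : List Pt} (hN : n * s = N) (hpos : 1 ≤ N) (hV : Tot N V)
    (hl : V.length < cell) : OkTab n s V (levelTab n s V) := by
  have hs : 1 ≤ s := by
    rcases Nat.eq_zero_or_pos s with h | h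
    · subst h; simp at hN; omega
    · exact h
  refine marks_ok hs _ 0 (fun a b e _ h => absurd (entry_zero _) h) fun x hx => ?_
  obtain ⟨j, p, e1, e2, e3⟩ := numbered_mem V 0 x hx
  obtain ⟨hj, rfl⟩ := List.getElem?_eq_some_iff.mp e2
  exact ⟨j, V[j], by omega, by omega, e2, e3,
    by rw [orders_tot e3, hN]; exact hV _ (List.getElem_mem hj)⟩

/-- A usable mesh with its levels. -/
structure Grid where
  /-- Total of every point. -/
  N : ℕ
  /-- The points, the corner first. -/
  V : List Pt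
  /-- The numbers of steps of the levels, finest first. -/
  ns : List ℕ

/-- The evaluated levels of a mesh. -/
noncomputable def Grid.levs (M : Grid) : List Lev :=
  M.ns.map fun n => (n, levelTab n (M.N / n) M.V)

/-- A test for meshes. -/
def Grid.goodB (M : Grid) : Bool :=
  decide (1 ≤ M.N) && decide (M.V.head? = some (M.N, 0, 0)) && decide (M.V.length < cell) &&
    M.V.all (fun p => Nat.beq (p.1 + p.2.1 + p.2.2) M.N) &&
    M.ns.all (fun n => Nat.beq (n * (M.N / n)) M.N)

/-- The properties of a mesh that the recursion uses. -/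
structure Grid.Good (M : Grid) : Prop where
  pos : 1 ≤ M.N
  head : ∃ R, M.V = (M.N, 0, 0) :: R
  tot : Tot M.N M.V
  small : M.V.length < cell
  dvd : ∀ n ∈ M.ns, n * (M.N / n) = M.N

lemma Grid.good_of (M : Grid) (h : M.goodB = true) : M.Good := by
  simp only [Grid.goodB, Bool.and_eq_true, decide_eq_true_eq, List.all_eq_true] at h
  obtain ⟨⟨⟨⟨h1, h2⟩, h3⟩, h4⟩, h5⟩ := h
  refine ⟨h1, ?_, fun p hp => Nat.eq_of_beq_eq_true (h4 p hp), h3,
    fun n hn => Nat.eq_of_beq_eq_true (h5 n hn)⟩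
  rcases hm : M.V with _ | ⟨x, R⟩
  · rw [hm] at h2; simp at h2
  · rw [hm] at h2
    simp only [List.head?_cons, Option.some.injEq] at h2
    exact ⟨R, by rw [h2]⟩

lemma tryTri_rep {β : ℕ} {G : List ℝ} {c0 c1 c2 e0 e1 e2 other S : ℕ} {X : ℝ} {x0 x1 x2 : ℝ}
    (ho : RepB β G other X S) (hS : c0 + c1 + c2 ≤ S)
    (hh : e0 ≠ 0 → e1 ≠ 0 → e2 ≠ 0 → G[e0 - 1]? = some x0 ∧
      (c1 = 0 ∨ G[e1 - 1]? = some x1) ∧ (c2 = 0 ∨ G[e2 - 1]? = some x2) ∧
      X ≤ c0 * x0 + c1 * x1 + c2 * x2) :
    RepB β G (tryTri β c0 c1 c2 e0 e1 e2 other) X S := by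
  simp only [tryTri, zput, Nat.add_eq, Nat.mul_eq, Nat.sub_eq]
  cases hb : Nat.beq (e0 * (e1 * e2)) 0 with
  | true => exact ho
  | false =>
    have hne : e0 * (e1 * e2) ≠ 0 := fun h => by rw [h] at hb; simp at hb
    obtain ⟨n0, n12⟩ := mul_ne_zero_iff.mp hne
    obtain ⟨n1, n2⟩ := mul_ne_zero_iff.mp n12
    obtain ⟨g0, g1, g2, hX⟩ := hh n0 n1 n2
    have aux : ∀ c e x, (c = 0 ∨ G[e - 1]? = some x) →
        RepB β G (c * Nat.pow β (e - 1)) (c * x) c := by
      rintro c e x (rfl | h)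
      · rw [zero_mul]; exact RepB.zero _ (by simp) _
      · exact RepB.one β c _ h
    exact (((aux c0 e0 x0 (Or.inr g0)).add (aux c1 e1 x1 g1)).add (aux c2 e2 x2 g2)).mono hX hS

lemma tryAt_rep (hg : Cvx g) {β n s tb : ℕ} {V : List Pt} (hs : 1 ≤ s)
    (ht : OkTab n s V tb) {p q r S other : ℕ} (hS : p + q + r = S) (hpos : 0 < S)
    (ho : RepB β (V.map (gv g)) other ((n * s : ℕ) * gv g (p, q, r)) S) :
    RepB β (V.map (gv g))
      (tryAt β n tb S (Nat.div (Nat.mul n p) S) (Nat.div (Nat.mul n q) S)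
        (Nat.mod (Nat.mul n p) S) (Nat.mod (Nat.mul n q) S) (Nat.mod (Nat.mul n r) S) other)
      ((n * s : ℕ) * gv g (p, q, r)) S := by
  simp only [tryAt, look, forceN_eq, Nat.mul_eq, Nat.add_eq, Nat.sub_eq, Nat.succ_eq_add_one]
  have hd : ∀ x, Nat.div x S = x / S := fun x => rfl
  have hm : ∀ x, Nat.mod x S = x % S := fun x => rfl
  simp only [hd, hm]
  have d0 := Nat.div_add_mod (n * p) S
  have d1 := Nat.div_add_mod (n * q) S
  have d2 := Nat.div_add_mod (n * r) S
  have l0 := Nat.mod_lt (n * p) hpos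
  have l1 := Nat.mod_lt (n * q) hpos
  have l2 := Nat.mod_lt (n * r) hpos
  generalize n * p / S = a0 at *
  generalize n * q / S = a1 at *
  generalize n * r / S = a2 at *
  generalize n * p % S = b0 at *
  generalize n * q % S = b1 at *
  generalize n * r % S = b2 at *
  have hsum : S * (a0 + a1 + a2) + (b0 + b1 + b2) = n * S := by
    subst hS; linarith
  have hle : a0 + a1 + a2 ≤ n :=
    Nat.le_of_mul_le_mul_left (by rw [mul_comm S n]; omega) hpos
  have hge : n < a0 + a1 + a2 + 3 :=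
    Nat.lt_of_mul_lt_mul_left (a := S) (by rw [mul_add S _ 3, mul_comm S n]; omega)
  obtain ⟨k, hk, hn'⟩ : ∃ k, b0 + b1 + b2 = k * S ∧ n = a0 + a1 + a2 + k := by
    refine ⟨n - (a0 + a1 + a2), ?_, by omega⟩
    rw [Nat.sub_mul, mul_comm (a0 + a1 + a2) S]
    omega
  have hk3 : k = 0 ∨ k = 1 ∨ k = 2 := by omega
  have scaled : ∀ x0 x1 x2 : Pt, ((n : ℝ) * gv g (p, q, r)
        ≤ (x0.1 : ℝ) * gv g (x0.2.1, x0.2.2, n - x0.2.1 - x0.2.2)
          + (x1.1 : ℝ) * gv g (x1.2.1, x1.2.2, n - x1.2.1 - x1.2.2)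
          + (x2.1 : ℝ) * gv g (x2.2.1, x2.2.2, n - x2.2.1 - x2.2.2)) →
      ((n * s : ℕ) : ℝ) * gv g (p, q, r)
        ≤ (x0.1 : ℝ) * gv g (x0.2.1 * s, x0.2.2 * s, (n - x0.2.1 - x0.2.2) * s)
          + (x1.1 : ℝ) * gv g (x1.2.1 * s, x1.2.2 * s, (n - x1.2.1 - x1.2.2) * s)
          + (x2.1 : ℝ) * gv g (x2.2.1 * s, x2.2.2 * s, (n - x2.2.1 - x2.2.2) * s) := by
    intro x0 x1 x2 h
    have e : ∀ a b c : ℕ, gv g (a * s, b * s, c * s) = (s : ℝ) * gv g (a, b, c) := fun a b c => by
      simp only [gv, Nat.cast_mul, mul_comm _ (s : ℝ)]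
      exact hg.hom _ (Nat.cast_nonneg s) _ _ _
    have := mul_le_mul_of_nonneg_left h (Nat.cast_nonneg (α := ℝ) s)
    rw [e, e, e, Nat.cast_mul]
    linarith
  rcases hk3 with rfl | rfl | rfl
  · obtain ⟨rfl, rfl, rfl⟩ : b0 = 0 ∧ b1 = 0 ∧ b2 = 0 := by omega
    have f1 : Nat.beq (0 + 0 + 0) S = false := by
      cases h : Nat.beq (0 + 0 + 0) S with
      | false => rfl
      | true => have := Nat.eq_of_beq_eq_true h; omega
    have f2 : Nat.beq (0 + 0 + 0) (2 * S) = false := by
      cases h : Nat.beq (0 + 0 + 0) (2 * S) with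
      | false => rfl
      | true => have := Nat.eq_of_beq_eq_true h; omega
    rw [f1, f2]
    refine tryTri_rep (x1 := 0) (x2 := 0) ho (by omega) fun n0 _ _ =>
      ⟨ht a0 a1 a2 (by omega) n0 g hg, Or.inl rfl, Or.inl rfl, ?_⟩
    have := scaled (S, a0, a1) (0, a0, a1) (0, a0, a1) (le_trans
      (three (S := S) hg (c := ![S, 0, 0]) (u := fun _ => (a0, a1, a2))
        (by simp; omega) (by simp; omega) (by simp; omega) hS)
      (by simp [show n - a0 - a1 = a2 by omega]))
    simpa [show n - a0 - a1 = a2 by omega] using this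
  · have f1 : Nat.beq (b0 + b1 + b2) S = true := by rw [hk, one_mul]; exact Nat.beq_refl _
    rw [f1]
    refine tryTri_rep ho (by omega) fun n0 n1 n2 => ⟨ht (a0 + 1) a1 a2 (by omega) n0 g hg,
      Or.inr (ht a0 (a1 + 1) a2 (by omega) n1 g hg),
      Or.inr (ht a0 a1 (a2 + 1) (by omega) n2 g hg), ?_⟩
    have h3 := three (S := S) hg (p := p) (q := q) (r := r) (n := n) (c := ![b0, b1, b2])
        (u := ![(a0 + 1, a1, a2), (a0, a1 + 1, a2), (a0, a1, a2 + 1)])
        (by simp [← d0]; linear_combination a0 * hk)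
        (by simp [← d1]; linear_combination a1 * hk)
        (by simp [← d2]; linear_combination a2 * hk) hS
    have := scaled (b0, a0 + 1, a1) (b1, a0, a1 + 1) (b2, a0, a1) (le_trans h3 (by
      simp [show n - (a0 + 1) - a1 = a2 by omega, show n - a0 - (a1 + 1) = a2 by omega,
        show n - a0 - a1 = a2 + 1 by omega]))
    simpa [show n - (a0 + 1) - a1 = a2 by omega, show n - a0 - (a1 + 1) = a2 by omega,
      show n - a0 - a1 = a2 + 1 by omega] using this
  · have f1 : Nat.beq (b0 + b1 + b2) S = false := by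
      cases h : Nat.beq (b0 + b1 + b2) S with
      | false => rfl
      | true => have := Nat.eq_of_beq_eq_true h; omega
    have f2 : Nat.beq (b0 + b1 + b2) (2 * S) = true := by rw [hk]; exact Nat.beq_refl _
    rw [f1, f2]
    refine tryTri_rep ho (by omega) fun n0 n1 n2 => ⟨ht a0 (a1 + 1) (a2 + 1) (by omega) n0 g hg,
      Or.inr (ht (a0 + 1) a1 (a2 + 1) (by omega) n1 g hg),
      Or.inr (ht (a0 + 1) (a1 + 1) a2 (by omega) n2 g hg), ?_⟩
    have h3 := three (S := S) hg (p := p) (q := q) (r := r) (n := n)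
        (c := ![S - b0, S - b1, S - b2])
        (u := ![(a0, a1 + 1, a2 + 1), (a0 + 1, a1, a2 + 1), (a0 + 1, a1 + 1, a2)])
        (by simp [← d0]; zify [l0.le, l1.le, l2.le] at *; linear_combination (-(a0 : ℤ) - 1) * hk)
        (by simp [← d1]; zify [l0.le, l1.le, l2.le] at *; linear_combination (-(a1 : ℤ) - 1) * hk)
        (by simp [← d2]; zify [l0.le, l1.le, l2.le] at *; linear_combination (-(a2 : ℤ) - 1) * hk)
        hS
    have := scaled (S - b0, a0, a1 + 1) (S - b1, a0 + 1, a1) (S - b2, a0 + 1, a1 + 1)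
      (le_trans h3 (by
        simp [show n - a0 - (a1 + 1) = a2 + 1 by omega, show n - (a0 + 1) - a1 = a2 + 1 by omega,
          show n - (a0 + 1) - (a1 + 1) = a2 by omega]))
    simpa [show n - a0 - (a1 + 1) = a2 + 1 by omega, show n - (a0 + 1) - a1 = a2 + 1 by omega,
      show n - (a0 + 1) - (a1 + 1) = a2 by omega] using this

lemma zsplit_rep (hg : Cvx g) {M : Grid} (hM : M.Good) (β p q r : ℕ) :
    RepB β (M.V.map (gv g)) (zsplit β M.levs p q r) (M.N * gv g (p, q, r)) (p + q + r) := by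
  simp only [zsplit, forceN_eq, Nat.add_eq, Grid.levs]
  obtain ⟨R, hR⟩ := hM.head
  have hbase : RepB β (M.V.map (gv g)) (p + q + r) (M.N * gv g (p, q, r)) (p + q + r) := by
    have h := RepB.one (G := M.V.map (gv g)) β (p + q + r) 0 (x := gv g (M.N, 0, 0)) (by rw [hR]; rfl)
    rw [pow_zero, mul_one] at h
    refine h.mono ?_ le_rfl
    have e0 : gv g (M.N, 0, 0) = M.N * g 1 0 0 := by
      have := hg.hom M.N (Nat.cast_nonneg _) 1 0 0
      simpa [gv] using this
    rw [e0, gv]
    have := mul_le_mul_of_nonneg_left (hg.le_corner (Nat.cast_nonneg (α := ℝ) p)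
      (Nat.cast_nonneg q) (Nat.cast_nonneg r)) (Nat.cast_nonneg (α := ℝ) M.N)
    push_cast
    linarith
  rcases Nat.eq_zero_or_pos (p + q + r) with h0 | hpos
  · obtain ⟨rfl, rfl, rfl⟩ : p = 0 ∧ q = 0 ∧ r = 0 := by omega
    have hz : gv g (0, 0, 0) = 0 := by
      have := hg.hom 0 le_rfl 1 0 0
      simpa [gv] using this
    induction M.ns with
    | nil => exact hbase
    | cons n ns ih =>
      simp only [List.map_cons]
      have z : ∀ m, Nat.mod (Nat.mul m 0) (0 + 0 + 0) = 0 := fun m => by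
        show m * 0 % (0 + 0 + 0) = 0
        simp
      generalize hrest : List.rec (motive := fun _ => ℕ) (0 + 0 + 0) _
        (List.map (fun n => (n, levelTab n (M.N / n) M.V)) ns) = rest at ih ⊢
      simp only [tryAt, z, Nat.add_eq, Nat.add_zero, Nat.beq_refl, cond_true]
      simp only [tryTri, zput, Nat.add_eq, Nat.mul_eq]
      cases Nat.beq _ 0 with
      | true => exact ih
      | false =>
        simp only [cond_false, Nat.zero_mul, Nat.add_zero]
        exact RepB.zero _ (by simp [hz]) _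
  · have H := hM.dvd
    generalize M.ns = ns at H
    induction ns with
    | nil => exact hbase
    | cons n ns ih =>
      have e := H n List.mem_cons_self
      have hs : 1 ≤ M.N / n := by
        rcases Nat.eq_zero_or_pos (M.N / n) with h | h
        · rw [h, mul_zero] at e; have := hM.pos; omega
        · exact h
      simp only [List.map_cons]
      have := tryAt_rep hg hs (levelTab_ok e hM.pos hM.tot hM.small) (β := β) rfl hpos
        (p := p) (q := q) (r := r) (other := _)
        (by rw [e]; exact ih fun m hm => H m (List.mem_cons_of_mem n hm))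
      rw [e] at this
      exact this

lemma zsix_rep (hg : Cvx g) {M : Grid} (hM : M.Good) (β : ℕ) (x y : Pt) {s t : ℕ}
    (hx : x.1 + x.2.1 + x.2.2 = s) (hy : y.1 + y.2.1 + y.2.2 = t) :
    RepB β (M.V.map (gv g)) (zsix β M.levs x y) (M.N * F6 g x y) (2 * (s * t)) := by
  obtain ⟨a, b, c⟩ := x
  obtain ⟨u, v, w⟩ := y
  simp only [zsix, Nat.add_eq, Nat.mul_eq]
  refine ((((((zsplit_rep hg hM β (a * u) (b * v) (c * w)).add
    (zsplit_rep hg hM β (a * v) (b * w) (c * u))).add
    (zsplit_rep hg hM β (a * w) (b * u) (c * v))).add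
    (zsplit_rep hg hM β (a * u) (b * w) (c * v))).add
    (zsplit_rep hg hM β (a * v) (b * u) (c * w))).add
    (zsplit_rep hg hM β (a * w) (b * v) (c * u))).mono ?_ ?_
  · simp only [F6, sym6, gv, Matrix.cons_val_zero, Matrix.cons_val_one, Matrix.cons_val,
      Nat.cast_mul]
    exact le_of_eq (by ring)
  · dsimp only at hx hy
    subst hx hy
    exact le_of_eq (by ring)

end Zoom

end Four

end Window

end Vale.Agent.P154
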