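import Vale.Agent.P154.Window.Four.ZSteps
import Vale.Agent.P154.Window.Four.Pot

/-!
Reading the potential with weight one quarter off a stored measure.
-/

namespace Vale.Agent.P154

namespace Window

namespace Four

namespace Zoom

lemma dot_quarter (n : ℕ) (hn : 0 < n) : ∀ (V : List Pt) (w : List ℕ),
    (∀ p ∈ V, p.1 + p.2.1 + p.2.2 = n ∧ p.2.2 ≤ p.2.1 ∧ p.2.1 ≤ p.1) →
    4 * (n : ℝ) ^ 3 * zs w (V.map (gv (mPhi (1 / 4)))) = (dot w (V.map (quarterScore n)) : ℕ)
  | [], w, _ => by cases w <;> simp [zs, dot]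
  | x :: V, [], _ => by simp [zs, dot]
  | x :: V, a :: w, h => by
    obtain ⟨h1, h2, h3⟩ := h x List.mem_cons_self
    have ih := dot_quarter n hn V w fun p hp => h p (List.mem_cons_of_mem x hp)
    rw [List.map_cons, List.map_cons, dot_cons, zs, Nat.cast_add, ← ih, mul_add, Nat.cast_mul]
    congr 1
    have e : 4 * (n : ℝ) ^ 3 * gv (mPhi (1 / 4)) x = (quarterScore n x : ℕ) := by
      obtain ⟨p, q, r⟩ := x
      simp only [gv, quarterScore] at h1 h2 h3 ⊢
      have ht : tot (p : ℝ) q r = n := by simp only [tot]; exact_mod_cast h1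
      simp only [mPhi, mA, mQ, ht]
      simp only [quad, dif, rc]
      push_cast [Nat.cast_sub h2, Nat.cast_sub h3]
      have : (n : ℝ) ≠ 0 := by exact_mod_cast hn.ne'
      field_simp
      ring
    rw [← e]
    ring

/-- The points are listed in decreasing order of coordinates. -/
def sortedB (M : Raw) : Bool :=
  M.2.1.all fun p => Nat.beq (p.1 + p.2.1 + p.2.2) M.1 && Nat.ble p.2.2 p.2.1 && Nat.ble p.2.1 p.1

lemma below_mo {ι : Type} {L : Lik ι} {M : Raw} {w : List ℕ} {p r : ℕ} (hs : sortedB M = true)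
    (hM : (gridOf M).Good) (hr : 0 < r) (hb : ZBd L M.2.1 M.1 w)
    (ht : quarterBelow p r M.1 M.2.1 w = true) : mo (mPhi (1 / 4)) L ≤ (p : ℝ) / r := by
  simp only [quarterBelow, decide_eq_true_eq] at ht
  simp only [sortedB, List.all_eq_true, Bool.and_eq_true] at hs
  have hn : 0 < M.1 := hM.pos
  have h1 := hb.2 _ (cvx_mPhi (show (0 : ℝ) ≤ 1 / 4 by norm_num))
  have h2 := dot_quarter M.1 hn M.2.1 w fun x hx =>
    ⟨Nat.eq_of_beq_eq_true (hs x hx).1.1, Nat.le_of_ble_eq_true (hs x hx).1.2,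
      Nat.le_of_ble_eq_true (hs x hx).2⟩
  have h3 : (r : ℝ) * (dot w (M.2.1.map (quarterScore M.1)) : ℕ)
      ≤ 4 * p * zw * (M.1 : ℝ) ^ 4 := by exact_mod_cast ht
  rw [← h2] at h3
  have hN : (0 : ℝ) < 4 * (M.1 : ℝ) ^ 4 * zw := by
    have : (0 : ℝ) < M.1 := by exact_mod_cast hn
    positivity
  rw [le_div_iff₀ (by exact_mod_cast hr)]
  have h4 := mul_le_mul_of_nonneg_left h1 (by positivity : (0 : ℝ) ≤ 4 * (M.1 : ℝ) ^ 3 * r)
  refine le_of_mul_le_mul_left ?_ hN
  linarith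

end Zoom

end Four

end Window

end Vale.Agent.P154
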