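import Vale.Agent.P154.Window.Four.Mesh

/-!
Lattice meshes refined near the centre, and a blocked form of the quadratic step.
A product row is split over the finest level that holds all vertices of its lattice triangle;
if no level does, its mass goes to the corner.
-/

namespace Vale.Agent.P154

namespace Window

namespace Four

namespace Zoom

/-- Total weight. -/
abbrev zw : ℕ := 67108864

/-- Radix of one table of node indices. -/
abbrev cell : ℕ := 1024

/-- Read one cell. -/
def entry (tb c : ℕ) : ℕ := Nat.mod (Nat.div tb (Nat.pow cell c)) cell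

/-- Read one cell through an evaluated address. -/
noncomputable def look (tb c : ℕ) : ℕ := forceN c fun c => entry tb c

/-- Write an empty cell. -/
noncomputable def write (tb c i : ℕ) : ℕ :=
  cond (Nat.beq (entry tb c) 0) (Nat.add tb (Nat.mul i (Nat.pow cell c))) tb

/-- Record one order of a point at a level with `n` steps of size `s`. -/
noncomputable def mark (n s i tb : ℕ) : Pt → ℕ
  | (a, b, c) =>
    cond (Bool.and (Bool.and (Nat.beq (Nat.mod a s) 0) (Nat.beq (Nat.mod b s) 0))
        (Nat.beq (Nat.mod c s) 0))
      (write tb (Nat.add (Nat.mul (Nat.div a s) (Nat.succ n)) (Nat.div b s)) i) tb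

/-- Record every order of every point. -/
noncomputable def marks (n s : ℕ) (l : List (ℕ × Pt)) : ℕ → ℕ :=
  List.rec (fun tb => tb) (fun x _ ih tb => forceN (mark n s x.1 tb x.2) ih) l

/-- The orders of the points of a mesh, each with its number counted from one. -/
def numbered : ℕ → List Pt → List (ℕ × Pt)
  | _, [] => []
  | i, p :: r => (orders p).map (fun q => (i, q)) ++ numbered (i + 1) r

/-- The index table of one level. -/
noncomputable def levelTab (n s : ℕ) (V : List Pt) : ℕ := marks n s (numbered 1 V) 0

/-- One packed coefficient at a numbered point. -/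
def zput (β c e : ℕ) : ℕ := Nat.mul c (Nat.pow β (Nat.sub e 1))

/-- Use a triangle if all its vertices are present. -/
noncomputable def tryTri (β c0 c1 c2 e0 e1 e2 : ℕ) (other : ℕ) : ℕ :=
  cond (Nat.beq (Nat.mul e0 (Nat.mul e1 e2)) 0) other
    (Nat.add (Nat.add (zput β c0 e0) (zput β c1 e1)) (zput β c2 e2))

/-- Try one level. -/
noncomputable def tryAt (β n tb S a0 a1 b0 b1 b2 other : ℕ) : ℕ :=
  cond (Nat.beq (Nat.add (Nat.add b0 b1) b2) S)
    (tryTri β b0 b1 b2 (look tb (Nat.add (Nat.mul (Nat.succ a0) (Nat.succ n)) a1))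
      (look tb (Nat.add (Nat.mul a0 (Nat.succ n)) (Nat.succ a1)))
      (look tb (Nat.add (Nat.mul a0 (Nat.succ n)) a1)) other)
    (cond (Nat.beq (Nat.add (Nat.add b0 b1) b2) (Nat.mul 2 S))
      (tryTri β (Nat.sub S b0) (Nat.sub S b1) (Nat.sub S b2)
        (look tb (Nat.add (Nat.mul a0 (Nat.succ n)) (Nat.succ a1)))
        (look tb (Nat.add (Nat.mul (Nat.succ a0) (Nat.succ n)) a1))
        (look tb (Nat.add (Nat.mul (Nat.succ a0) (Nat.succ n)) (Nat.succ a1))) other)
      (tryTri β S 0 0 (look tb (Nat.add (Nat.mul a0 (Nat.succ n)) a1)) 1 1 other))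

/-- A level: its steps, and its index table. -/
abbrev Lev := ℕ × ℕ

/-- Split one row over the levels, finest first. -/
noncomputable def zsplit (β : ℕ) (ls : List Lev) (p q r : ℕ) : ℕ :=
  forceN (Nat.add (Nat.add p q) r) fun S =>
  List.rec S
    (fun lv _ ih =>
      tryAt β lv.1 lv.2 S (Nat.div (Nat.mul lv.1 p) S) (Nat.div (Nat.mul lv.1 q) S)
        (Nat.mod (Nat.mul lv.1 p) S) (Nat.mod (Nat.mul lv.1 q) S) (Nat.mod (Nat.mul lv.1 r) S) ih)
    ls

/-- All six relative orders of two points. -/
noncomputable def zsix (β : ℕ) (ls : List Lev) : Pt → Pt → ℕ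
  | (a, b, c), (x, y, z) =>
    Nat.add (Nat.add (Nat.add (Nat.add (Nat.add
      (zsplit β ls (Nat.mul a x) (Nat.mul b y) (Nat.mul c z))
      (zsplit β ls (Nat.mul a y) (Nat.mul b z) (Nat.mul c x)))
      (zsplit β ls (Nat.mul a z) (Nat.mul b x) (Nat.mul c y)))
      (zsplit β ls (Nat.mul a x) (Nat.mul b z) (Nat.mul c y)))
      (zsplit β ls (Nat.mul a y) (Nat.mul b x) (Nat.mul c z)))
      (zsplit β ls (Nat.mul a z) (Nat.mul b y) (Nat.mul c x))

/-- A single point. -/
noncomputable def zone (β : ℕ) (ls : List Lev) : Pt → ℕ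
  | (a, b, c) => zsplit β ls a b c

/-- The rectangular table of two meshes. -/
noncomputable def rect (N : Pt → Pt → ℕ) (U : List Pt) (V : List Pt) : List (List ℕ) :=
  U.map fun x => V.map fun y => N x y

/-- Put one row on top of shifted columns. -/
noncomputable def onTop (B : ℕ) (row cols : List ℕ) : List ℕ :=
  List.zipWith (fun x c => Nat.add x (Nat.mul B c)) row (0 :: cols)

/-- The columns of a block of rows. -/
noncomputable def blockCols (B : ℕ) : List (List ℕ) → List ℕ
  | [] => []
  | [row] => row
  | row :: row' :: rest => onTop B row (blockCols B (row' :: rest))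

/-- Cut a table into blocks of `q + 1` rows. -/
noncomputable def blocks (B q : ℕ) : ℕ → List (List ℕ) → List (List ℕ)
  | 0, _ => []
  | _, [] => []
  | f + 1, R => blockCols B (R.take (q + 1)) :: blocks B q f (R.drop (q + 1))

/-- Combine the slots of a block. -/
noncomputable def comb (B : ℕ) (j : ℕ) : List ℕ → ℕ → ℕ :=
  Nat.rec (fun w R => List.rec 0 (fun a _ _ => Nat.mul a R) w)
    (fun _ ih w R => List.rec 0
      (fun a t _ => forceN R fun R =>
        Nat.add (Nat.mul a (Nat.mod R B)) (ih t (Nat.div R B))) w) j

/-- Drop entries from the front. -/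
noncomputable def skip (j : ℕ) : List ℕ → List ℕ :=
  Nat.rec (fun w => w) (fun _ ih w => List.rec [] (fun _ t _ => ih t) w) j

/-- The quadratic form of a blocked table. -/
noncomputable def triB (B q : ℕ) (bl : List (List ℕ)) : List ℕ → ℕ :=
  List.rec (fun _ => 0)
    (fun cols _ ih w => Nat.add (comb B q w (dot w cols)) (ih (skip (q + 1) w))) bl

/-- The columns of a block of full rows. -/
noncomputable def blockFull (B : ℕ) : List (List ℕ) → List ℕ
  | [] => []
  | [row] => row
  | row :: row' :: rest =>
    List.zipWith (fun x c => Nat.add x (Nat.mul B c)) row (blockFull B (row' :: rest))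

/-- Cut a full table into blocks of `q + 1` rows. -/
noncomputable def blocksFull (B q : ℕ) : ℕ → List (List ℕ) → List (List ℕ)
  | 0, _ => []
  | _, [] => []
  | f + 1, R => blockFull B (R.take (q + 1)) :: blocksFull B q f (R.drop (q + 1))

/-- The bilinear form of a blocked full table. -/
noncomputable def rectB (B q : ℕ) (bl : List (List ℕ)) (v : List ℕ) : List ℕ → ℕ :=
  List.rec (fun _ => 0)
    (fun cols _ ih w => Nat.add (comb B q w (dot v cols)) (ih (skip (q + 1) w))) bl

/-- The linear form of a list of packed points. -/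
noncomputable def carry (R w : List ℕ) : ℕ := dot w R

/-- Read the coefficients and divide. -/
noncomputable def zdigs (β F : ℕ) (m : ℕ) : ℕ → List ℕ :=
  Nat.rec (fun _ => [])
    (fun _ ih P => forceN P fun P => Nat.div (Nat.mod P β) F :: ih (Nat.div P β)) m

/-- Give the remainder to the corner. -/
noncomputable def znorm (l : List ℕ) : List ℕ :=
  List.rec [] (fun _ t _ => (Nat.sub zw (lsum t)) :: t) l

/-- Round down, the remainder to the corner. -/
noncomputable def settle (β F m P : ℕ) : List ℕ := znorm (zdigs β F m P)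

end Zoom

end Four

end Window

end Vale.Agent.P154
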