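import Vale.Agent.P154.Window.Four.Sound
import Vale.Agent.P154.Window.Four.Zoom

/-!
Packed coefficient vectors in an arbitrary radix, and rounding them to stored weights.
-/

namespace Vale.Agent.P154

namespace Window

namespace Four

namespace Zoom

/-- The packed value of a coefficient list in radix `β`. -/
def pkb (β : ℕ) : List ℕ → ℕ
  | [] => 0
  | a :: l => a + β * pkb β l

/-- `P` packs coefficients of total at most `T` whose combination of `G` is at least `X`. -/
def RepB (β : ℕ) (G : List ℝ) (P : ℕ) (X : ℝ) (T : ℕ) : Prop :=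
  ∃ c : List ℕ, c.length = G.length ∧ P = pkb β c ∧ c.sum ≤ T ∧ X ≤ zs c G

variable {β : ℕ} {G : List ℝ} {P Q : ℕ} {X Y : ℝ} {T U : ℕ}

lemma pkb_zero (β : ℕ) : ∀ k, pkb β (List.replicate k 0) = 0
  | 0 => rfl
  | k + 1 => by simp [List.replicate_succ, pkb, pkb_zero β k]

lemma RepB.zero (G : List ℝ) (hX : X ≤ 0) (T : ℕ) : RepB β G 0 X T :=
  ⟨List.replicate G.length 0, by simp, (pkb_zero β _).symm, by simp,
    by rw [zs_zero]; exact hX⟩

lemma RepB.mono (h : RepB β G P X T) (hX : Y ≤ X) (hT : T ≤ U) : RepB β G P Y U := by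
  obtain ⟨c, h1, h2, h3, h4⟩ := h
  exact ⟨c, h1, h2, le_trans h3 hT, le_trans hX h4⟩

lemma pkb_add (β : ℕ) : ∀ c d : List ℕ, c.length = d.length →
    pkb β (List.zipWith (fun a b : ℕ => a + b) c d) = pkb β c + pkb β d
  | [], [], _ => rfl
  | a :: c, b :: d, h => by
    simp only [List.zipWith_cons_cons, pkb, pkb_add β c d (by simpa using h)]; ring
  | [], _ :: _, h => by simp at h
  | _ :: _, [], h => by simp at h

lemma pkb_smul (β a : ℕ) : ∀ c : List ℕ, pkb β (c.map fun x => a * x) = a * pkb β c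
  | [] => by simp [pkb]
  | x :: c => by simp only [List.map_cons, pkb, pkb_smul β a c]; ring

lemma RepB.add (h : RepB β G P X T) (h' : RepB β G Q Y U) :
    RepB β G (P + Q) (X + Y) (T + U) := by
  obtain ⟨c, h1, h2, h3, h4⟩ := h
  obtain ⟨d, k1, k2, k3, k4⟩ := h'
  obtain ⟨e1, -, e3, e4⟩ := add_aux c d G h1 k1
  exact ⟨_, e1, by rw [pkb_add β c d (h1.trans k1.symm), h2, k2],
    by rw [e3]; exact add_le_add h3 k3, by rw [e4]; exact add_le_add h4 k4⟩

lemma RepB.smul (a : ℕ) (h : RepB β G P X T) : RepB β G (a * P) (a * X) (a * T) := by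
  obtain ⟨c, h1, h2, h3, h4⟩ := h
  obtain ⟨-, e3, e4⟩ := smul_aux a c G
  exact ⟨c.map fun x => a * x, by simpa using h1, by rw [pkb_smul, h2],
    by rw [e3]; exact Nat.mul_le_mul_left _ h3,
    by rw [e4]; exact mul_le_mul_of_nonneg_left h4 (Nat.cast_nonneg _)⟩

lemma pkb_set (β c : ℕ) : ∀ k i : ℕ, i < k →
    pkb β ((List.replicate k 0).set i c) = c * β ^ i
  | 0, i, h => absurd h (by omega)
  | k + 1, 0, _ => by simp [List.replicate_succ, pkb, pkb_zero]
  | k + 1, i + 1, h => by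
    simp only [List.replicate_succ, List.set_cons_succ, pkb, pkb_set β c k i (by omega), pow_succ]
    ring

lemma RepB.one (β c i : ℕ) {x : ℝ} (h : G[i]? = some x) : RepB β G (c * β ^ i) (c * x) c := by
  obtain ⟨e1, -, e3, e4⟩ := one_aux c G i x h
  obtain ⟨hi, -⟩ := List.getElem?_eq_some_iff.mp h
  exact ⟨_, e1, (pkb_set β c _ i hi).symm, e3.le, e4.ge⟩

lemma pkb_lt : ∀ c : List ℕ, c.sum < β → pkb β c < β ^ c.length
  | [], _ => by simp [pkb]
  | a :: c, h => by
    rw [List.sum_cons] at h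
    have ih := pkb_lt c (by omega)
    rw [pkb, List.length_cons, pow_succ']
    calc a + β * pkb β c < β + β * pkb β c := by omega
      _ = β * (pkb β c + 1) := by ring
      _ ≤ β * β ^ c.length := Nat.mul_le_mul_left _ ih

lemma RepB.lt (h : RepB β G P X T) (hT : T < β) : P < β ^ G.length := by
  obtain ⟨c, h1, h2, h3, -⟩ := h
  rw [h2, ← h1]
  exact pkb_lt c (lt_of_le_of_lt h3 hT)

lemma zdigs_succ (β F m P : ℕ) :
    zdigs β F (m + 1) P = P % β / F :: zdigs β F m (P / β) := by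
  exact forceN_eq P fun P => Nat.div (Nat.mod P β) F :: zdigs β F m (Nat.div P β)

lemma zdigs_pkb (F : ℕ) : ∀ c : List ℕ, (∀ x ∈ c, x < β) →
    zdigs β F c.length (pkb β c) = c.map (· / F)
  | [], _ => rfl
  | a :: c, h => by
    have ha := h a List.mem_cons_self
    rw [List.length_cons, zdigs_succ, List.map_cons, pkb, Nat.add_mul_mod_self_left,
      Nat.mod_eq_of_lt ha, Nat.add_mul_div_left _ _ (Nat.pos_of_ne_zero (by omega)),
      Nat.div_eq_of_lt ha, zero_add, zdigs_pkb F c fun x hx => h x (List.mem_cons_of_mem a hx)]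

/-- Rounding keeps the bound. -/
lemma settle_rep {F : ℕ} (hF : 0 < F) {G0 : ℝ} {R : List ℝ} (h0 : 0 ≤ G0) (hR : ∀ y ∈ R, y ≤ G0)
    (hβ : F * zw < β) (h : RepB β (G0 :: R) P X (F * zw)) :
    (settle β F (R.length + 1) P).sum = zw ∧
      X ≤ F * zs (settle β F (R.length + 1) P) (G0 :: R) := by
  obtain ⟨c, hc, hP, hT, hX⟩ := h
  rcases c with _ | ⟨a, c⟩
  · simp at hc
  have hlt : ∀ x ∈ a :: c, x < β := fun x hx =>
    lt_of_le_of_lt (le_trans (List.le_sum_of_mem hx) hT) hβ
  have hl : R.length + 1 = (a :: c).length := by simpa using hc.symm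
  rw [settle, hP, hl, zdigs_pkb F _ hlt, List.map_cons]
  rw [show znorm (a / F :: c.map (· / F))
    = Nat.sub zw (lsum (c.map (· / F))) :: c.map (· / F) from rfl, lsum_eq, Nat.sub_eq]
  obtain ⟨h1, h2⟩ := round_le (F := F) c R (by simpa using hc) hR
  generalize c.map (· / F) = q at h1 h2 ⊢
  rw [List.sum_cons] at hT
  have hq : q.sum ≤ zw := by
    have : F * q.sum ≤ c.sum := by exact_mod_cast h1
    exact Nat.le_of_mul_le_mul_left (le_trans this (by omega)) hF
  refine ⟨by rw [List.sum_cons]; omega, ?_⟩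
  simp only [zs] at hX ⊢
  rw [Nat.cast_sub hq]
  have hb : ((a : ℝ) + (c.sum : ℕ)) ≤ F * zw := by exact_mod_cast hT
  have hb' := mul_le_mul_of_nonneg_right hb h0
  linarith

end Zoom

end Four

end Window

end Vale.Agent.P154
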