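import Vale.Agent.P154.Window.Four.Zoom

/-!
Kernel-evaluated drivers of the refined recursion for four and for five children.
-/

namespace Vale.Agent.P154

namespace Window

namespace Four

namespace Zoom

/-- Evaluate index tables before going on. -/
noncomputable def forceLevs {γ : Type} (l : List Lev) : (List Lev → γ) → γ :=
  List.rec (fun k => k [])
    (fun a _ ih k => forceN a.2 fun t => ih fun l' => k ((a.1, t) :: l')) l

/-- The levels of a stored mesh. -/
noncomputable def levsOf (N : ℕ) (V : List Pt) (ns : List ℕ) : List Lev :=
  ns.map fun n => (n, levelTab n (N / n) V)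

/-- The image of a point under an edge, as used by the drivers. -/
def edgeK (e k : ℕ) : Pt → Pt
  | (a, b, c) => (e * (a + b + c) - k * a, e * (a + b + c) - k * b, e * (a + b + c) - k * c)

/-- The final test: ten-cubed scaled potential with weight `1/4`. -/
def quarterScore (n : ℕ) : Pt → ℕ
  | (a, b, c) => 4 * ((a - b) ^ 2 + (a - b) * (b - c) + (b - c) ^ 2) * n ^ 2
      + ((a - b) ^ 2 + (a - b) * (b - c) + (b - c) ^ 2) ^ 2

/-- The potential is at most `p / r`. -/
noncomputable def quarterBelow (p r N : ℕ) (V : List Pt) (w : List ℕ) : Bool :=
  decide (r * dot w (V.map (quarterScore N)) ≤ 4 * p * zw * N ^ 4)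

/-- Radix of a stored measure. -/
abbrev srad : ℕ := 134217757

/-- Decode a stored measure. -/
noncomputable def unpack (m : ℕ) : ℕ → List ℕ :=
  Nat.rec (fun _ => []) (fun _ ih P => forceN P fun P => Nat.mod P srad :: ih (Nat.div P srad)) m

/-- Equality of two lists. -/
noncomputable def sameList (l : List ℕ) : List ℕ → Bool :=
  List.rec (fun r => List.rec true (fun _ _ _ => false) r)
    (fun a _ ih r => List.rec false (fun b r' _ => Bool.and (Nat.beq a b) (ih r')) r) l

/-- A stored mesh: total, points, levels. -/
abbrev Raw := ℕ × List Pt × List ℕ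

/-- A half step with one table reproduces every stored output. -/
noncomputable def chain (f : List ℕ → List ℕ) (m m' : ℕ) (xs : List ℕ) : List ℕ → Bool :=
  List.rec (fun ys => List.rec true (fun _ _ _ => false) ys)
    (fun x _ ih ys => List.rec false
      (fun y ys' _ =>
        force (unpack m x) fun w => force (f w) fun u =>
          Bool.and (sameList u (unpack m' y)) (ih ys')) ys) xs

/-- A half step with two arguments reproduces every stored output. -/
noncomputable def chain2 (f : List ℕ → List ℕ → List ℕ) (m n m' : ℕ) (xs : List ℕ) :
    List ℕ → List ℕ → Bool :=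
  List.rec (fun _ zs => List.rec true (fun _ _ _ => false) zs)
    (fun x _ ih ys zs => List.rec false
      (fun y ys' _ => List.rec false
        (fun z zs' _ =>
          force (unpack m x) fun a => force (unpack n y) fun b => force (f a b) fun u =>
            Bool.and (sameList u (unpack m' z)) (ih ys' zs')) zs) ys) xs

/-- Check the squaring half steps on the mesh `U` into the mesh `M`. -/
noncomputable def checkSq (β q t : ℕ) (M : Raw) (U : List Pt) (xs ys : List ℕ) : Bool :=
  forceLevs (levsOf M.1 M.2.1 M.2.2) fun lev =>
  forceN (β ^ M.2.1.length) fun B =>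
  force2 (blocks B q U.length (rowsOf (zsix β lev) U)) fun T =>
  forceN (2 * zw * t ^ 2) fun F =>
  forceN M.2.1.length fun m =>
    chain (fun w => settle β F m (triB B q T w)) U.length m xs ys

/-- Check the half steps of two meshes `U`, `V` into the mesh `M`. -/
noncomputable def checkMul (β q s t : ℕ) (M : Raw) (U V : List Pt) (xs ys zs : List ℕ) : Bool :=
  forceLevs (levsOf M.1 M.2.1 M.2.2) fun lev =>
  forceN (β ^ M.2.1.length) fun B =>
  force2 (blocksFull B q U.length (rect (zsix β lev) U V)) fun T =>
  forceN (2 * zw * (s * t)) fun F =>
  forceN M.2.1.length fun m =>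
    chain2 (fun a b => settle β F m (rectB B q T b a)) U.length V.length m xs ys zs

/-- Move a stored measure to another mesh. -/
noncomputable def moved (β : ℕ) (P P' : Raw) (w : List ℕ) : List ℕ :=
  settle β P.1 P'.2.1.length (dot w (P.2.1.map (zone β (levsOf P'.1 P'.2.1 P'.2.2))))

end Zoom

end Four

end Window

end Vale.Agent.P154
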