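import Vale.Agent.P154.Window.Four.ZLook
import Vale.Agent.P154.Window.Four.ZBlock

/-!
Combining and moving upper bounds between refined meshes.
-/

namespace Vale.Agent.P154

namespace Window

namespace Four

namespace Zoom

variable {g : ℝ → ℝ → ℝ → ℝ} {β q : ℕ} {M : Grid}

/-- The double sum over two meshes. -/
def dsum2 (g : ℝ → ℝ → ℝ → ℝ) (a b : List ℕ) (U V : List Pt) : ℝ :=
  zs a (U.map fun x => zs b (V.map (F6 g x)))

lemma rowsOf_len (N : Pt → Pt → ℕ) : ∀ U : List Pt, (rowsOf N U).length = U.length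
  | [] => rfl
  | x :: r => by simp [rowsOf, rowsOf_len N r]

lemma dot_twice (hg : Cvx g) (hM : M.Good) {t : ℕ} {x : Pt}
    (hx : x.1 + x.2.1 + x.2.2 = t) : ∀ (w : List ℕ) (r : List Pt), Tot t r →
    RepB β (M.V.map (gv g)) (dot w (r.map fun y => Nat.mul 2 (zsix β M.levs x y)))
      (2 * (M.N * zs w (r.map (F6 g x)))) (4 * t ^ 2 * w.sum)
  | [], r, _ => RepB.zero _ (by simp [zs]) _
  | _ :: _, [], _ => RepB.zero _ (by simp [zs]) _
  | a :: w, y :: r, hr => by
    have h1 := ((zsix_rep hg hM β x y hx (hr y List.mem_cons_self)).smul 2).smul a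
    have h2 := dot_twice hg hM hx w r fun p hp => hr p (List.mem_cons_of_mem y hp)
    rw [List.map_cons, dot_cons, List.map_cons, Nat.mul_eq]
    refine (h1.add h2).mono (le_of_eq ?_) (le_of_eq ?_)
    · simp only [zs]; push_cast; ring
    · rw [List.sum_cons]; ring

lemma tri_zrep (hg : Cvx g) (hM : M.Good) {t : ℕ} :
    ∀ (U : List Pt) (w : List ℕ), Tot t U →
    RepB β (M.V.map (gv g)) (tri w (rowsOf (zsix β M.levs) U)) (M.N * dsum g w U)
      (2 * t ^ 2 * w.sum ^ 2) ∧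
    (4 * t ^ 2 * w.sum < β → Small (β ^ M.V.length) w (rowsOf (zsix β M.levs) U))
  | [], w, _ => by
    refine ⟨?_, fun _ => trivial⟩
    cases w <;> exact RepB.zero _ (by simp [dsum, zs]) _
  | x :: U, [], hU => by
    obtain ⟨-, hs⟩ := tri_zrep hg hM U [] fun p hp => hU p (List.mem_cons_of_mem x hp)
    refine ⟨RepB.zero _ (by simp [dsum, zs]) _, fun h => ?_⟩
    simp only [rowsOf]
    exact ⟨by simpa [dot] using pow_pos (by omega : 0 < β) _,
      by simp [rowsOf_len], hs (by simpa using h)⟩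
  | x :: U, a :: w, hU => by
    have hx := hU x List.mem_cons_self
    have hr : Tot t U := fun p hp => hU p (List.mem_cons_of_mem x hp)
    have hrow := ((zsix_rep hg hM β x x hx hx).smul a).add (dot_twice (β := β) hg hM hx w U hr)
    have h1 := hrow.smul a
    obtain ⟨h2, hs⟩ := tri_zrep hg hM U w hr
    refine ⟨?_, fun h => ?_⟩
    · rw [show tri (a :: w) (rowsOf (zsix β M.levs) (x :: U))
        = a * (a * zsix β M.levs x x + dot w (U.map fun y => Nat.mul 2 (zsix β M.levs x y)))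
          + tri w (rowsOf (zsix β M.levs) U) from rfl]
      refine (h1.add h2).mono (le_of_eq ?_) (le_of_eq ?_)
      · rw [dsum_cons hg]; ring
      · rw [List.sum_cons]; ring
    · rw [List.sum_cons, mul_add] at h
      simp only [rowsOf]
      refine ⟨?_, by simp [rowsOf_len], hs (by omega)⟩
      rw [dot_cons, ← List.length_map (gv g)]
      refine hrow.lt (lt_of_le_of_lt ?_ h)
      have : a * (2 * (t * t)) ≤ 4 * t ^ 2 * a := by nlinarith [Nat.zero_le (a * (t * t))]
      omega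

lemma dot_rect (hg : Cvx g) (hM : M.Good) {s t : ℕ} {x : Pt}
    (hx : x.1 + x.2.1 + x.2.2 = s) : ∀ (b : List ℕ) (V : List Pt), Tot t V →
    RepB β (M.V.map (gv g)) (dot b (V.map fun y => zsix β M.levs x y))
      (M.N * zs b (V.map (F6 g x))) (2 * (s * t) * b.sum)
  | [], V, _ => RepB.zero _ (by simp [zs]) _
  | _ :: _, [], _ => RepB.zero _ (by simp [zs]) _
  | a :: b, y :: V, hV => by
    have h1 := (zsix_rep hg hM β x y hx (hV y List.mem_cons_self)).smul a
    have h2 := dot_rect hg hM hx b V fun p hp => hV p (List.mem_cons_of_mem y hp)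
    rw [List.map_cons, dot_cons, List.map_cons]
    refine (h1.add h2).mono (le_of_eq ?_) (le_of_eq ?_)
    · simp only [zs]; ring
    · rw [List.sum_cons]; ring

lemma bil_zrep (hg : Cvx g) (hM : M.Good) {s t : ℕ} {b : List ℕ} {V : List Pt} (hV : Tot t V) :
    ∀ (U : List Pt) (a : List ℕ), Tot s U →
    RepB β (M.V.map (gv g)) (bil a b (rect (zsix β M.levs) U V)) (M.N * dsum2 g a b U V)
      (2 * (s * t) * b.sum * a.sum)
  | [], a, _ => by
    rw [show rect (zsix β M.levs) [] V = [] from rfl, bil_empty]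
    exact RepB.zero _ (by cases a <;> simp [dsum2, zs]) _
  | x :: U, [], _ => RepB.zero _ (by simp [dsum2, zs]) _
  | x :: U, a :: w, hU => by
    have h1 := (dot_rect (β := β) hg hM (hU x List.mem_cons_self) b V hV).smul a
    have h2 := bil_zrep hg hM (b := b) hV U w fun p hp => hU p (List.mem_cons_of_mem x hp)
    rw [show bil (a :: w) b (rect (zsix β M.levs) (x :: U) V)
      = a * dot b (V.map fun y => zsix β M.levs x y) + bil w b (rect (zsix β M.levs) U V) from rfl]
    refine (h1.add h2).mono (le_of_eq ?_) (le_of_eq ?_)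
    · simp only [dsum2, List.map_cons, zs]; ring
    · rw [List.sum_cons]; ring

lemma carry_zrep (hg : Cvx g) (hM : M.Good) {t : ℕ} : ∀ (w : List ℕ) (U : List Pt), Tot t U →
    RepB β (M.V.map (gv g)) (dot w (U.map (zone β M.levs))) (M.N * zs w (U.map (gv g)))
      (t * w.sum)
  | [], U, _ => RepB.zero _ (by simp [zs]) _
  | _ :: _, [], _ => RepB.zero _ (by simp [zs]) _
  | a :: w, x :: U, hU => by
    obtain ⟨p, r, s⟩ := x
    have hx : p + r + s = t := hU (p, r, s) List.mem_cons_self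
    have h1 := (zsplit_rep hg hM β p r s).smul a
    have h2 := carry_zrep hg hM w U fun y hy => hU y (List.mem_cons_of_mem _ hy)
    rw [List.map_cons, dot_cons, List.map_cons]
    refine (h1.add h2).mono (le_of_eq ?_) (le_of_eq ?_)
    · simp only [zs]; ring
    · rw [List.sum_cons, hx]; ring

/-- A finite upper bound in convex order. -/
def ZBd {ι : Type} (L : Lik ι) (V : List Pt) (t : ℕ) (w : List ℕ) : Prop :=
  w.sum = zw ∧
    ∀ g, Cvx g → (zw : ℝ) * t * mo g L ≤ zs w (V.map (gv g))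

lemma zbd_pair {ι κ : Type} {L : Lik ι} {L' : Lik κ} (hL : Ok L) (hL' : Ok L') (hS : Sw L')
    {U V : List Pt} {s t : ℕ} {a b : List ℕ} (ha : ZBd L U s a) (hb : ZBd L' V t b) (hg : Cvx g) :
    2 * ((zw : ℝ) * s) * ((zw : ℝ) * t) * mo g (pair L L') ≤ dsum2 g a b U V := by
  rw [mo_pair hg hL hL']
  have h1 := mul_le_mul_of_nonneg_left (ha.2 _ (cvx_avg hg hL' hS))
    (by positivity : (0 : ℝ) ≤ 2 * ((zw : ℝ) * t))
  rw [← zs_mul] at h1
  refine le_trans (le_of_eq (by ring)) (le_trans h1 (zs_mono _ _ _ _ fun x _ => ?_))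
  have hv : ∀ i, (0 : ℝ) ≤ ![(x.1 : ℝ), x.2.1, x.2.2] i := fun i => by fin_cases i <;> simp
  have e := avg_sym6 hg hL' hS hv
  simp only [Matrix.cons_val_zero, Matrix.cons_val_one, Matrix.cons_val] at e
  have h2 := hb.2 _ (cvx_sym6 hg hv)
  have h3 : zs b (V.map (gv fun p q r => sym6 g ![(x.1 : ℝ), x.2.1, x.2.2] ![p, q, r]))
      = zs b (V.map (F6 g x)) := rfl
  rw [h3] at h2
  simp only [gv]
  refine le_trans (le_of_eq ?_) h2
  rw [show mo (fun p q r => sym6 g ![(x.1 : ℝ), x.2.1, x.2.2] ![p, q, r]) L'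
      = 2 * avg g L' x.1 x.2.1 x.2.2 by linarith]
  ring

lemma zero_cvx : Cvx fun _ _ _ => (0 : ℝ) := by constructor <;> intros <;> simp

lemma top_le (hg : Cvx g) (hM : M.Good) {R : List Pt} (hR : M.V = (M.N, 0, 0) :: R) :
    0 ≤ gv g (M.N, 0, 0) ∧ ∀ y ∈ R.map (gv g), y ≤ gv g (M.N, 0, 0) := by
  refine ⟨hg.nonneg _ _ _ (Nat.cast_nonneg _) (Nat.cast_nonneg _) (Nat.cast_nonneg _),
    fun y hy => ?_⟩
  obtain ⟨p, hp, rfl⟩ := List.mem_map.mp hy
  have htot := hM.tot p (by rw [hR]; exact List.mem_cons_of_mem _ hp)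
  have e0 : gv g (M.N, 0, 0) = M.N * g 1 0 0 := by
    have := hg.hom M.N (Nat.cast_nonneg _) 1 0 0
    simpa [gv] using this
  rw [e0, gv]
  refine le_trans (hg.le_corner (Nat.cast_nonneg _) (Nat.cast_nonneg _) (Nat.cast_nonneg _))
    (le_of_eq ?_)
  congr 1
  exact_mod_cast htot

lemma settle_grid (hg : Cvx g) (hM : M.Good) {P F : ℕ} {X : ℝ} (hF : 0 < F)
    (hβ : F * zw < β) (h : RepB β (M.V.map (gv g)) P X (F * zw)) :
    (settle β F M.V.length P).sum = zw ∧
      X ≤ F * zs (settle β F M.V.length P) (M.V.map (gv g)) := by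
  obtain ⟨R, hR⟩ := hM.head
  obtain ⟨h0, hle⟩ := top_le hg hM hR
  rw [hR, List.map_cons] at h ⊢
  have e := settle_rep hF h0 hle hβ h
  rwa [List.length_map] at e

/-- The half step of a channel with itself. -/
noncomputable def sqStep (β q : ℕ) (M : Grid) (t : ℕ) (bl : List (List ℕ)) (w : List ℕ) : List ℕ :=
  settle β (2 * zw * t ^ 2) M.V.length (triB (β ^ M.V.length) q bl w)

/-- The blocked table of a mesh with itself. -/
noncomputable def sqTab (β q : ℕ) (M : Grid) (U : List Pt) : List (List ℕ) :=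
  blocks (β ^ M.V.length) q U.length (rowsOf (zsix β M.levs) U)

lemma zbd_sq {ι : Type} {L : Lik ι} (hL : Ok L) (hS : Sw L) {U : List Pt} {t : ℕ} {w : List ℕ}
    (hM : M.Good) (ht : 1 ≤ t) (hU : Tot t U) (hβ : 2 * t ^ 2 * zw ^ 2 < β)
    (hb : ZBd L U t w) :
    ZBd (pair L L) M.V M.N (sqStep β q M t (sqTab β q M U) w) := by
  have hF : 0 < 2 * zw * t ^ 2 := by positivity
  have hw : w.sum = zw := hb.1
  have key : ∀ g, Cvx g → (sqStep β q M t (sqTab β q M U) w).sum = zw ∧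
      M.N * dsum g w U
        ≤ ((2 * zw * t ^ 2 : ℕ) : ℝ) * zs (sqStep β q M t (sqTab β q M U) w) (M.V.map (gv g)) := by
    intro g hg
    obtain ⟨h1, h2⟩ := tri_zrep (β := β) hg hM U w hU
    rw [hw] at h1 h2
    have hs := h2 (lt_of_le_of_lt (by
      have : 4 * t ^ 2 * zw ≤ 2 * t ^ 2 * zw ^ 2 := by
        rw [show 4 * t ^ 2 * zw = 2 * t ^ 2 * zw * 2 by ring,
          show 2 * t ^ 2 * zw ^ 2 = 2 * t ^ 2 * zw * zw by ring]
        exact Nat.mul_le_mul_left _ (by norm_num)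
      exact this) hβ)
    unfold sqStep sqTab
    rw [triB_eq _ _ _ (rowsOf_len _ U).le hs]
    exact settle_grid hg hM hF (lt_of_le_of_lt (le_of_eq (by ring)) hβ)
      (h1.mono le_rfl (le_of_eq (by ring)))
  refine ⟨(key _ zero_cvx).1, fun g hg => ?_⟩
  have h1 := (key g hg).2
  have h2 := mul_le_mul_of_nonneg_left (zbd_pair hL hL hS hb hb hg) (Nat.cast_nonneg (α := ℝ) M.N)
  rw [show dsum2 g w w U U = dsum g w U from rfl] at h2
  have hp : (0 : ℝ) < ((2 * zw * t ^ 2 : ℕ) : ℝ) := by exact_mod_cast hF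
  refine le_of_mul_le_mul_left ?_ hp
  refine le_trans (le_of_eq ?_) (le_trans h2 h1)
  push_cast; ring

/-- The half step of two channels. -/
noncomputable def mulStep (β q : ℕ) (M : Grid) (s t : ℕ) (bl : List (List ℕ)) (a b : List ℕ) :
    List ℕ :=
  settle β (2 * zw * (s * t)) M.V.length (rectB (β ^ M.V.length) q bl b a)

/-- The blocked table of two meshes. -/
noncomputable def mulTab (β q : ℕ) (M : Grid) (U V : List Pt) : List (List ℕ) :=
  blocksFull (β ^ M.V.length) q U.length (rect (zsix β M.levs) U V)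

lemma zbd_mul {ι κ : Type} {L : Lik ι} {L' : Lik κ} (hL : Ok L) (hL' : Ok L') (hS : Sw L')
    {U V : List Pt} {s t : ℕ} {a b : List ℕ} (hM : M.Good) (hs : 1 ≤ s) (ht : 1 ≤ t)
    (hU : Tot s U) (hV : Tot t V) (hβ : 2 * (s * t) * zw ^ 2 < β)
    (ha : ZBd L U s a) (hb : ZBd L' V t b) :
    ZBd (pair L L') M.V M.N (mulStep β q M s t (mulTab β q M U V) a b) := by
  have hF : 0 < 2 * zw * (s * t) := by positivity
  have key : ∀ g, Cvx g → (mulStep β q M s t (mulTab β q M U V) a b).sum = zw ∧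
      M.N * dsum2 g a b U V ≤ ((2 * zw * (s * t) : ℕ) : ℝ)
        * zs (mulStep β q M s t (mulTab β q M U V) a b) (M.V.map (gv g)) := by
    intro g hg
    have h1 := bil_zrep (β := β) hg hM (b := b) hV U a hU
    rw [ha.1, hb.1] at h1
    have hsm : SmallF (β ^ M.V.length) b (rect (zsix β M.levs) U V) V.length := by
      intro row hrow
      obtain ⟨x, hx, rfl⟩ := List.mem_map.mp hrow
      refine ⟨List.length_map _, ?_⟩
      rw [← List.length_map (gv g)]
      refine (dot_rect hg hM (hU x hx) b V hV).lt (lt_of_le_of_lt ?_ hβ)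
      rw [hb.1]
      exact Nat.mul_le_mul_left _ (by norm_num)
    unfold mulStep mulTab
    rw [rectB_eq _ _ _ _ (by simp [rect]) hsm]
    exact settle_grid hg hM hF (lt_of_le_of_lt (le_of_eq (by ring)) hβ)
      (h1.mono le_rfl (le_of_eq (by ring)))
  refine ⟨(key _ zero_cvx).1, fun g hg => ?_⟩
  have h1 := (key g hg).2
  have h2 := mul_le_mul_of_nonneg_left (zbd_pair hL hL' hS ha hb hg) (Nat.cast_nonneg (α := ℝ) M.N)
  have hp : (0 : ℝ) < ((2 * zw * (s * t) : ℕ) : ℝ) := by exact_mod_cast hF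
  refine le_of_mul_le_mul_left ?_ hp
  refine le_trans (le_of_eq ?_) (le_trans h2 h1)
  push_cast; ring

/-- Move a bound to another mesh. -/
noncomputable def moveStep (β : ℕ) (M : Grid) (t : ℕ) (U : List Pt) (w : List ℕ) : List ℕ :=
  settle β t M.V.length (dot w (U.map (zone β M.levs)))

lemma zbd_move {ι : Type} {L : Lik ι} {U : List Pt} {t : ℕ} {w : List ℕ} (hM : M.Good)
    (ht : 1 ≤ t) (hU : Tot t U) (hβ : t * zw < β) (hb : ZBd L U t w) :
    ZBd L M.V M.N (moveStep β M t U w) := by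
  have key : ∀ g, Cvx g → (moveStep β M t U w).sum = zw ∧
      M.N * zs w (U.map (gv g)) ≤ (t : ℝ) * zs (moveStep β M t U w) (M.V.map (gv g)) := by
    intro g hg
    have h1 := carry_zrep (β := β) hg hM w U hU
    rw [hb.1] at h1
    exact settle_grid hg hM ht hβ h1
  refine ⟨(key _ zero_cvx).1, fun g hg => ?_⟩
  have h1 := (key g hg).2
  have h2 := mul_le_mul_of_nonneg_left (hb.2 g hg) (Nat.cast_nonneg (α := ℝ) M.N)
  have hp : (0 : ℝ) < (t : ℝ) := by exact_mod_cast ht
  refine le_of_mul_le_mul_left ?_ hp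
  refine le_trans (le_of_eq ?_) (le_trans h2 h1)
  ring

/-- The image of a point under the channel with parameter `-(k / (3 * den))`, scaled by `den`. -/
def edgeAt (e k : ℕ) : Pt → Pt
  | (a, b, c) => (e * (a + b + c) - k * a, e * (a + b + c) - k * b, e * (a + b + c) - k * c)

/-- The image of a row under the same channel. -/
noncomputable def pullAt (l : ℝ) (g : ℝ → ℝ → ℝ → ℝ) : ℝ → ℝ → ℝ → ℝ :=
  fun p q r => g (l * p + (1 - l) / 3 * (p + q + r)) (l * q + (1 - l) / 3 * (p + q + r))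
    (l * r + (1 - l) / 3 * (p + q + r))

lemma cvx_pullAt {l : ℝ} (h0 : -(1 / 2) ≤ l) (h1 : l ≤ 0) (hg : Cvx g) : Cvx (pullAt l g) := by
  have pos : ∀ p q r : ℝ, 0 ≤ p → 0 ≤ q → 0 ≤ r → 0 ≤ l * p + (1 - l) / 3 * (p + q + r) := by
    intro p q r hp hq hr
    have a := mul_nonneg (by linarith : (0 : ℝ) ≤ (1 + 2 * l) / 3) hp
    have b := mul_nonneg (by linarith : (0 : ℝ) ≤ (1 - l) / 3) (add_nonneg hq hr)
    linarith
  have pos1 : ∀ p q r : ℝ, 0 ≤ p → 0 ≤ q → 0 ≤ r → 0 ≤ l * q + (1 - l) / 3 * (p + q + r) :=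
    fun p q r hp hq hr => by
      have := pos q p r hq hp hr
      rwa [add_comm q p] at this
  have pos2 : ∀ p q r : ℝ, 0 ≤ p → 0 ≤ q → 0 ≤ r → 0 ≤ l * r + (1 - l) / 3 * (p + q + r) :=
    fun p q r hp hq hr => by
      have := pos r q p hr hq hp
      rwa [show r + q + p = p + q + r by ring] at this
  refine ⟨fun p q r hp hq hr => hg.nonneg _ _ _ (pos p q r hp hq hr) (pos1 p q r hp hq hr)
      (pos2 p q r hp hq hr),
    fun a b c x y z ha hb hc hx hy hz => ?_, fun k hk p q r => ?_, fun p q r => ?_,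
    fun p q r => ?_⟩ <;> simp only [pullAt]
  · refine le_trans (le_of_eq ?_) (hg.add _ _ _ _ _ _ (pos a b c ha hb hc) (pos1 a b c ha hb hc)
      (pos2 a b c ha hb hc) (pos x y z hx hy hz) (pos1 x y z hx hy hz) (pos2 x y z hx hy hz))
    congr 1 <;> ring
  · rw [← hg.hom k hk]; congr 1 <;> ring
  · rw [← hg.rot (l * p + (1 - l) / 3 * (p + q + r))]; congr 1 <;> ring
  · rw [← hg.swap]; congr 1 <;> ring

lemma mo_shiftAt {ι : Type} (L : Lik ι) (l : ℝ) (g : ℝ → ℝ → ℝ → ℝ) :
    mo g (shift l L) = mo (pullAt l g) L := by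
  rw [mo, mo]
  congr 1
  exact tsum_congr fun x => by simp only [row, pullAt, shift_eq]

lemma zbd_shift {ι : Type} {L : Lik ι} {V : List Pt} {t : ℕ} {w : List ℕ} {l : ℝ} {e k d : ℕ}
    (h0 : -(1 / 2) ≤ l) (h1 : l ≤ 0) (he : (d : ℝ) * ((1 - l) / 3) = e) (hk : (d : ℝ) * l = -k)
    (hb : ZBd L V t w) : ZBd (shift l L) (V.map (edgeAt e k)) (d * t) w := by
  refine ⟨hb.1, fun g hg => ?_⟩
  have h := mul_le_mul_of_nonneg_left (hb.2 _ (cvx_pullAt h0 h1 hg)) (Nat.cast_nonneg (α := ℝ) d)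
  rw [← zs_mul] at h
  rw [mo_shiftAt, List.map_map]
  refine le_trans (le_of_eq (by push_cast; ring)) (le_trans h (zs_mono _ _ _ _ fun p _ => ?_))
  obtain ⟨a, b, c⟩ := p
  have hek : k ≤ e := by
    have hd : (0 : ℝ) ≤ (d : ℝ) * (1 + 2 * l) :=
      mul_nonneg (Nat.cast_nonneg d) (by linarith)
    have : (k : ℝ) ≤ e := by linarith
    exact_mod_cast this
  have hsub : ∀ x, x ≤ a + b + c → k * x ≤ e * (a + b + c) := fun x hx =>
    Nat.mul_le_mul hek hx
  simp only [gv, pullAt, Function.comp, edgeAt]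
  rw [← hg.hom d (Nat.cast_nonneg d), Nat.cast_sub (hsub a (by omega)),
    Nat.cast_sub (hsub b (by omega)), Nat.cast_sub (hsub c (by omega))]
  push_cast
  refine le_of_eq ?_
  congr 1 <;> rw [mul_add, ← mul_assoc, ← mul_assoc, hk, he] <;> ring

lemma tot_edgeAt {t e k d : ℕ} {V : List Pt} (hk : k ≤ e) (hd : d + k = 3 * e) (h : Tot t V) :
    Tot (d * t) (V.map (edgeAt e k)) := by
  intro p hp
  obtain ⟨⟨a, b, c⟩, hq, rfl⟩ := List.mem_map.mp hp
  have ht : a + b + c = t := h (a, b, c) hq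
  have ha : k * a ≤ e * t := Nat.mul_le_mul hk (by omega)
  have hb : k * b ≤ e * t := Nat.mul_le_mul hk (by omega)
  have hc : k * c ≤ e * t := Nat.mul_le_mul hk (by omega)
  simp only [edgeAt, ht]
  have e1 : k * a + k * b + k * c = k * t := by rw [← ht]; ring
  have e2 : d * t + k * t = 3 * (e * t) := by rw [← Nat.add_mul, hd, Nat.mul_assoc]
  omega

end Zoom

end Four

end Window

end Vale.Agent.P154
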