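import Vale.Agent.P154.Window.Four.ZSound
import Vale.Agent.P154.Window.Four.ZRun
import Vale.Agent.P154.Window.Four.Steps

/-!
Turning checked half steps into bounds along the regular trees with four and five children.
-/

namespace Vale.Agent.P154

namespace Window

namespace Four

namespace Zoom

/-- The mesh of a stored mesh. -/
def gridOf (M : Raw) : Grid := ⟨M.1, M.2.1, M.2.2⟩

lemma forceLevs_eq {γ : Type} : ∀ (l : List Lev) (k : List Lev → γ), forceLevs l k = k l
  | [], _ => rfl
  | a :: l, k => by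
    exact (forceN_eq a.2 fun t => forceLevs l fun l' => k ((a.1, t) :: l')).trans
      (forceLevs_eq l fun l' => k (a :: l'))

lemma levsOf_eq (M : Raw) : levsOf M.1 M.2.1 M.2.2 = (gridOf M).levs := rfl

lemma edgeK_eq (e k : ℕ) : edgeK e k = edgeAt e k := funext fun ⟨_, _, _⟩ => rfl

lemma sameList_eq : ∀ l r : List ℕ, sameList l r = true → l = r
  | [], [], _ => rfl
  | [], _ :: _, h => Bool.noConfusion h
  | _ :: _, [], h => Bool.noConfusion h
  | a :: l, b :: r, h => by
    have h' : (Nat.beq a b && sameList l r) = true := h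
    rw [Bool.and_eq_true] at h'
    rw [Nat.eq_of_beq_eq_true h'.1, sameList_eq l r h'.2]

lemma chain_sound (f : List ℕ → List ℕ) (m m' : ℕ) :
    ∀ xs ys : List ℕ, chain f m m' xs ys = true →
      ∀ i, i < xs.length → f (unpack m (xs.getD i 0)) = unpack m' (ys.getD i 0)
  | [], _, _, i, hi => absurd hi (by simp)
  | _ :: _, [], h, _, _ => Bool.noConfusion h
  | x :: xs, y :: ys, h, i, hi => by
    have h' : (force (unpack m x) fun w => force (f w) fun u =>
        Bool.and (sameList u (unpack m' y)) (chain f m m' xs ys)) = true := h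
    simp only [force_eq, Bool.and_eq_true] at h'
    rcases i with _ | i
    · simpa using sameList_eq _ _ h'.1
    · simpa using chain_sound f m m' xs ys h'.2 i (by simpa using hi)

lemma chain2_sound (f : List ℕ → List ℕ → List ℕ) (m n m' : ℕ) :
    ∀ xs ys zs : List ℕ, chain2 f m n m' xs ys zs = true →
      ∀ i, i < xs.length →
        f (unpack m (xs.getD i 0)) (unpack n (ys.getD i 0)) = unpack m' (zs.getD i 0)
  | [], _, _, _, i, hi => absurd hi (by simp)
  | _ :: _, [], _, h, _, _ => Bool.noConfusion h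
  | _ :: _, _ :: _, [], h, _, _ => Bool.noConfusion h
  | x :: xs, y :: ys, z :: zs, h, i, hi => by
    have h' : (force (unpack m x) fun a => force (unpack n y) fun b => force (f a b) fun u =>
        Bool.and (sameList u (unpack m' z)) (chain2 f m n m' xs ys zs)) = true := h
    simp only [force_eq, Bool.and_eq_true] at h'
    rcases i with _ | i
    · simpa using sameList_eq _ _ h'.1
    · simpa using chain2_sound f m n m' xs ys zs h'.2 i (by simpa using hi)

lemma checkSq_sound {β q t : ℕ} {M : Raw} {U : List Pt} {xs ys : List ℕ}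
    (h : checkSq β q t M U xs ys = true) {i : ℕ} (hi : i < xs.length) :
    sqStep β q (gridOf M) t (sqTab β q (gridOf M) U) (unpack U.length (xs.getD i 0))
      = unpack M.2.1.length (ys.getD i 0) := by
  simp only [checkSq, forceLevs_eq, forceN_eq, force2_eq] at h
  exact chain_sound _ _ _ _ _ h i hi

lemma checkMul_sound {β q s t : ℕ} {M : Raw} {U V : List Pt} {xs ys zs : List ℕ}
    (h : checkMul β q s t M U V xs ys zs = true) {i : ℕ} (hi : i < xs.length) :
    mulStep β q (gridOf M) s t (mulTab β q (gridOf M) U V) (unpack U.length (xs.getD i 0))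
      (unpack V.length (ys.getD i 0)) = unpack M.2.1.length (zs.getD i 0) := by
  simp only [checkMul, forceLevs_eq, forceN_eq, force2_eq] at h
  exact chain2_sound _ _ _ _ _ _ _ h i hi

lemma mo_mix_regular {ι : Type} (d : ℕ) (L : Lik ι) {g : ℝ → ℝ → ℝ → ℝ} (hg : Cvx g) :
    mo g (mix (regularLaw d) L) = mo g (power L d) := by
  rw [mo, mo]
  congr 1
  have h0 : g 0 0 0 = 0 := by
    have := hg.hom 0 le_rfl 1 0 0
    simpa using this
  have hi : Function.Injective (fun x : Fin d → ι => (⟨d, x⟩ : Σ N, Fin N → ι)) :=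
    sigma_mk_injective (β := fun N => Fin N → ι)
  rw [← hi.tsum_eq (f := fun s => row g (mix (regularLaw d) L s))]
  · exact tsum_congr fun x => by simp [row, mix, regularLaw]
  · rintro ⟨N, x⟩ hs
    by_cases hN : N = d
    · subst hN; exact ⟨x, rfl⟩
    · exact absurd (by simp [row, mix, regularLaw, hN, h0]) hs

/-- Five coordinates as two pairs and one more. -/
def fiveEquiv (ι : Type) : (Fin 5 → ι) ≃ ((ι × ι) × ι × ι) × ι where
  toFun f := (((f 0, f 1), (f 2, f 3)), f 4)
  invFun z := ![z.1.1.1, z.1.1.2, z.1.2.1, z.1.2.2, z.2]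
  left_inv f := by funext i; fin_cases i <;> rfl
  right_inv _ := rfl

lemma power_five {ι : Type} (L : Lik ι) :
    power L 5 = reindex (fiveEquiv ι) (pair (pair (pair L L) (pair L L)) L) := by
  funext x i
  show ∏ j, L (x j) i = L (x 0) i * L (x 1) i * (L (x 2) i * L (x 3) i) * L (x 4) i
  rw [Fin.prod_univ_five]; ring

/-- The bound at one depth of the regular tree with `d` children. -/
def Reach (d : ℕ) (l : ℝ) (M : Raw) (i : ℕ) (w : List ℕ) : Prop :=
  ZBd (tab (regularLaw d) l i) M.2.1 M.1 w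

lemma reach_start {d : ℕ} {l : ℝ} {M : Raw} (hM : (gridOf M).Good) {w : List ℕ}
    (hw : w = zw :: List.replicate (M.2.1.length - 1) 0) : Reach d l M 0 w := by
  obtain ⟨R, hR⟩ := hM.head
  subst hw
  refine ⟨by simp, fun g hg => ?_⟩
  have hz : zs (zw :: List.replicate (M.2.1.length - 1) 0) (M.2.1.map (gv g))
      = zw * gv g (M.1, 0, 0) := by
    rw [show M.2.1 = (M.1, 0, 0) :: R from hR, List.map_cons, zs, zs_zero, add_zero]
  have hm : mo g (tab (regularLaw d) l 0) = g 1 0 0 := by
    rw [mo]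
    change (∑' s : Fin 3, row g (tab (regularLaw d) l 0 s)) / 3 = _
    rw [tsum_fintype]
    simp only [leaf_row _ (fun a b e => hg.rot a b e), Finset.sum_const, Finset.card_univ,
      Fintype.card_fin]
    ring
  rw [hz, hm]
  have := hg.hom M.1 (Nat.cast_nonneg _) 1 0 0
  simp only [mul_one, mul_zero] at this
  simp only [gv, Nat.cast_zero, this]
  exact le_of_eq (by ring)

lemma reach_move {d : ℕ} {l : ℝ} {P P' : Raw} {i β : ℕ} {w : List ℕ} (hP : (gridOf P).Good)
    (hP' : (gridOf P').Good) (hβ : P.1 * zw < β) (h : Reach d l P i w) :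
    Reach d l P' i (moved β P P' w) :=
  zbd_move (M := gridOf P') hP' hP.pos hP.tot hβ h

/-- The data of a segment with four children at parameter `-1/2`. -/
structure Seg4 where
  /-- Child mesh. -/
  P : Raw
  /-- Mesh of pairs. -/
  Q : Raw
  /-- Radix of the first half step. -/
  β1 : ℕ
  /-- Radix of the second half step. -/
  β2 : ℕ
  /-- Block length. -/
  q : ℕ
  /-- Measures at the start of each step, then the last one. -/
  ws : List ℕ
  /-- Measures after the first half step. -/
  us : List ℕ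

/-- The arithmetic conditions on a segment. -/
def Seg4.Cond (S : Seg4) : Prop :=
  (gridOf S.P).Good ∧ (gridOf S.Q).Good ∧
    2 * (2 * S.P.1) ^ 2 * zw ^ 2 < S.β1 ∧ 2 * S.Q.1 ^ 2 * zw ^ 2 < S.β2

/-- The two table checks of a segment. -/
def Seg4.Checked (S : Seg4) (n : ℕ) : Prop :=
  checkSq S.β1 S.q (2 * S.P.1) S.Q (S.P.2.1.map (edgeK 1 1)) (S.ws.take n) S.us = true ∧
  checkSq S.β2 S.q S.Q.1 S.P S.Q.2.1 S.us (S.ws.drop 1) = true

lemma take_getD (ws : List ℕ) {n i : ℕ} (hi : i < n) : (ws.take n).getD i 0 = ws.getD i 0 := by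
  simp [List.getD_eq_getElem?_getD, List.getElem?_take, hi]

lemma drop_getD (ws : List ℕ) (i : ℕ) : (ws.drop 1).getD i 0 = ws.getD (i + 1) 0 := by
  simp [List.getD_eq_getElem?_getD, List.getElem?_drop, add_comm]

lemma seg4_reach {S : Seg4} {n : ℕ} (hc : S.Cond) (hk : S.Checked n) (hlen : n ≤ S.ws.length)
    (hu : n ≤ S.us.length) {i : ℕ}
    (h : Reach 4 (-(1 / 2)) S.P i (unpack S.P.2.1.length (S.ws.getD 0 0))) :
    ∀ j, j ≤ n → Reach 4 (-(1 / 2)) S.P (i + j) (unpack S.P.2.1.length (S.ws.getD j 0))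
  | 0, _ => h
  | j + 1, hj => by
    have ih := seg4_reach hc hk hlen hu h j (by omega)
    obtain ⟨hP, hQ, b1, b2⟩ := hc
    obtain ⟨c1, c2⟩ := hk
    have h2 : 1 ≤ 2 * S.P.1 := by have : 1 ≤ S.P.1 := hP.pos; omega
    have ho := shift_ok_adm (l := -(1 / 2)) (by norm_num) (by norm_num) (ok4 (i + j))
    have hs := shift_sw (-(1 / 2)) (tab_sw (regularLaw 4) (-(1 / 2)) (i + j))
    have e1 := checkSq_sound c1 (i := j) (by rw [List.length_take]; omega)
    have e2 := checkSq_sound c2 (i := j) (by omega)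
    rw [edgeK_eq, List.length_map, take_getD _ (by omega)] at e1
    rw [drop_getD] at e2
    have hsh := zbd_shift (e := 1) (k := 1) (d := 2) (by norm_num : (-(1 / 2) : ℝ) ≤ -(1 / 2))
      (by norm_num) (by norm_num) (by norm_num) ih
    have p1 := zbd_sq (β := S.β1) (q := S.q) (M := gridOf S.Q) ho hs hQ h2
      (tot_edgeAt le_rfl rfl hP.tot) b1 hsh
    simp only [gridOf] at e1 p1
    rw [e1] at p1
    have p2 := zbd_sq (β := S.β2) (q := S.q) (M := gridOf S.P) (pair_ok ho ho) (pair_sw hs hs) hP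
      hQ.pos hQ.tot b2 p1
    simp only [gridOf] at e2 p2
    rw [e2] at p2
    refine ⟨p2.1, fun g hg => ?_⟩
    rw [← add_assoc, mo_tab_succ, mo_mix_regular 4 _ hg, power_four, mo_reindex]
    exact p2.2 g hg

/-- The data of a segment with five children at parameter `-17/38`. -/
structure Seg5 where
  /-- Child mesh. -/
  P : Raw
  /-- Mesh of pairs. -/
  Q : Raw
  /-- Mesh of fours. -/
  R : Raw
  /-- Radix of the first half step. -/
  β1 : ℕ
  /-- Radix of the second half step. -/
  β2 : ℕ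
  /-- Radix of the third half step. -/
  β3 : ℕ
  /-- Block length. -/
  q : ℕ
  /-- Measures at the start of each step, then the last one. -/
  ws : List ℕ
  /-- Measures of pairs. -/
  us : List ℕ
  /-- Measures of fours. -/
  xs : List ℕ

/-- The arithmetic conditions on a segment. -/
def Seg5.Cond (S : Seg5) : Prop :=
  (gridOf S.P).Good ∧ (gridOf S.Q).Good ∧ (gridOf S.R).Good ∧
    2 * (114 * S.P.1) ^ 2 * zw ^ 2 < S.β1 ∧ 2 * S.Q.1 ^ 2 * zw ^ 2 < S.β2 ∧
    2 * (S.R.1 * (114 * S.P.1)) * zw ^ 2 < S.β3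

/-- The three table checks of a segment. -/
def Seg5.Checked (S : Seg5) (n : ℕ) : Prop :=
  checkSq S.β1 S.q (114 * S.P.1) S.Q (S.P.2.1.map (edgeK 55 51)) (S.ws.take n) S.us = true ∧
  checkSq S.β2 S.q S.Q.1 S.R S.Q.2.1 S.us S.xs = true ∧
  checkMul S.β3 S.q S.R.1 (114 * S.P.1) S.P S.R.2.1 (S.P.2.1.map (edgeK 55 51)) S.xs
    (S.ws.take n) (S.ws.drop 1) = true

lemma ok5 : ∀ i, Ok (tab (regularLaw 5) (-(17 / 38)) i) :=
  tab_ok (regular_law 5) (by norm_num) (by norm_num)

lemma seg5_reach {S : Seg5} {n : ℕ} (hc : S.Cond) (hk : S.Checked n) (hlen : n ≤ S.ws.length)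
    (hu : n ≤ S.us.length) (hx : n ≤ S.xs.length) {i : ℕ}
    (h : Reach 5 (-(17 / 38)) S.P i (unpack S.P.2.1.length (S.ws.getD 0 0))) :
    ∀ j, j ≤ n → Reach 5 (-(17 / 38)) S.P (i + j) (unpack S.P.2.1.length (S.ws.getD j 0))
  | 0, _ => h
  | j + 1, hj => by
    have ih := seg5_reach hc hk hlen hu hx h j (by omega)
    obtain ⟨hP, hQ, hR, b1, b2, b3⟩ := hc
    obtain ⟨c1, c2, c3⟩ := hk
    have ho := shift_ok_adm (l := -(17 / 38)) (by norm_num) (by norm_num) (ok5 (i + j))
    have hs := shift_sw (-(17 / 38)) (tab_sw (regularLaw 5) (-(17 / 38)) (i + j))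
    have e1 := checkSq_sound c1 (i := j) (by rw [List.length_take]; omega)
    have e2 := checkSq_sound c2 (i := j) (by omega)
    have e3 := checkMul_sound c3 (i := j) (by omega)
    rw [edgeK_eq, List.length_map, take_getD _ (by omega)] at e1
    rw [edgeK_eq, List.length_map, take_getD _ (by omega), drop_getD] at e3
    have hsh := zbd_shift (e := 55) (k := 51) (d := 114)
      (by norm_num : (-(1 / 2) : ℝ) ≤ -(17 / 38)) (by norm_num) (by norm_num) (by norm_num) ih
    have ht : Tot (114 * S.P.1) (S.P.2.1.map (edgeAt 55 51)) :=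
      tot_edgeAt (by norm_num) (by norm_num) hP.tot
    have h114 : 1 ≤ 114 * S.P.1 := by have : 1 ≤ S.P.1 := hP.pos; omega
    have p1 := zbd_sq (β := S.β1) (q := S.q) (M := gridOf S.Q) ho hs hQ h114 ht b1 hsh
    simp only [gridOf] at e1 p1
    rw [e1] at p1
    have p2 := zbd_sq (β := S.β2) (q := S.q) (M := gridOf S.R) (pair_ok ho ho) (pair_sw hs hs) hR
      hQ.pos hQ.tot b2 p1
    simp only [gridOf] at e2 p2
    rw [e2] at p2
    have p3 := zbd_mul (β := S.β3) (q := S.q) (M := gridOf S.P)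
      (pair_ok (pair_ok ho ho) (pair_ok ho ho)) ho hs hP hR.pos h114 hR.tot ht b3 p2 hsh
    simp only [gridOf] at e3 p3
    rw [e3] at p3
    refine ⟨p3.1, fun g hg => ?_⟩
    rw [← add_assoc, mo_tab_succ, mo_mix_regular 5 _ hg, power_five, mo_reindex]
    exact p3.2 g hg

end Zoom

end Four

end Window

end Vale.Agent.P154
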